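import Vale.Agent.P346.Kill

/-!
The algebra `K[x_i] / (x_i ^ 2)`.
-/

namespace Vale.Agent.P346

open Finset MvPolynomial

variable {ι : Type*} [DecidableEq ι] [Fintype ι]

/-- The ideal generated by the squares of the variables. -/
noncomputable def sqI (ι K : Type*) [Field K] : Ideal (MvPolynomial ι K) :=
  Ideal.span (Set.range fun i => (X i : MvPolynomial ι K) ^ 2)

/-- The truncated polynomial algebra. -/
abbrev TA (ι K : Type*) [Field K] : Type _ := MvPolynomial ι K ⧸ sqI ι K

/-- The quotient map. -/
noncomputable def qm (ι K : Type*) [Field K] : MvPolynomial ι K →ₐ[K] TA ι K :=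
  Ideal.Quotient.mkₐ K (sqI ι K)

/-- The graded pieces. -/
noncomputable def gr (ι K : Type*) [Field K] (k : ℕ) : Submodule K (TA ι K) :=
  Submodule.map (qm ι K).toLinearMap (homogeneousSubmodule ι K k)

variable {K : Type*} [Field K]

omit [DecidableEq ι] [Fintype ι] in
lemma qm_surj : Function.Surjective (qm ι K) := Ideal.Quotient.mkₐ_surjective K _

omit [DecidableEq ι] [Fintype ι] in
lemma monomial_mem {s : ι →₀ ℕ} {i : ι} (h : 2 ≤ s i) (c : K) : monomial s c ∈ sqI ι K := by
  have h1 : monomial s c = monomial (s - Finsupp.single i 2) c * (X i : MvPolynomial ι K) ^ 2 := by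
    rw [X_pow_eq_monomial, monomial_mul, mul_one,
      tsub_add_cancel_of_le (Finsupp.single_le_iff.2 h)]
  rw [h1]
  exact Ideal.mul_mem_left _ _ (Ideal.subset_span ⟨i, rfl⟩)

omit [DecidableEq ι] [Fintype ι] in
lemma qm_monomial_eq_zero {s : ι →₀ ℕ} {i : ι} (h : 2 ≤ s i) (c : K) :
    qm ι K (monomial s c) = 0 :=
  Ideal.Quotient.eq_zero_iff_mem.2 (monomial_mem h c)

/-- The exponent vector of a set. -/
noncomputable def ind (T : Finset ι) : ι →₀ ℕ := ∑ i ∈ T, Finsupp.single i 1

omit [Fintype ι] in
lemma ind_apply (T : Finset ι) (i : ι) : ind T i = if i ∈ T then 1 else 0 := by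
  unfold ind
  rw [Finsupp.finsetSum_apply]
  simp [Finsupp.single_apply]

omit [DecidableEq ι] [Fintype ι] in
lemma prod_X_eq (T : Finset ι) : ∏ i ∈ T, (X i : MvPolynomial ι K) = monomial (ind T) 1 := by
  unfold ind
  rw [monomial_sum_one]
  rfl

omit [DecidableEq ι] [Fintype ι] in
lemma degree_ind (T : Finset ι) : (ind T).degree = T.card := by
  unfold ind
  rw [map_sum]
  simp

omit [Fintype ι] in
lemma eq_ind {s : ι →₀ ℕ} (h : ∀ i, s i ≤ 1) : s = ind s.support := by
  ext i
  rw [ind_apply]
  have := h i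
  by_cases h2 : s i = 0
  · rw [if_neg (by simpa using h2)]
    exact h2
  · rw [if_pos (by simpa using h2)]
    omega

lemma gr_le_span (k : ℕ) : gr ι K k ≤ Submodule.span K
    ((fun T : Finset ι => qm ι K (monomial (ind T) 1)) '' (powersetCard k univ : Finset (Finset ι))) := by
  rintro _ ⟨P, hP, rfl⟩
  rw [SetLike.mem_coe, mem_homogeneousSubmodule] at hP
  show qm ι K P ∈ _
  rw [P.as_sum, map_sum]
  apply Submodule.sum_mem
  intro s hs
  have hdeg : s.degree = k := by
    have := hP (mem_support_iff.1 hs)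
    rw [Finsupp.degree_eq_weight_one]
    exact this
  by_cases h : ∃ i, 2 ≤ s i
  · obtain ⟨i, hi⟩ := h
    rw [qm_monomial_eq_zero hi]
    exact Submodule.zero_mem _
  · push Not at h
    have h1 : s = ind s.support := eq_ind fun i => by have := h i; omega
    have h2 : monomial s (coeff s P) = (coeff s P) • (monomial (ind s.support) 1 :
        MvPolynomial ι K) := by
      rw [← h1, smul_monomial, smul_eq_mul, mul_one]
    rw [h2, map_smul]
    apply Submodule.smul_mem
    apply Submodule.subset_span
    refine ⟨s.support, ?_, rfl⟩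
    rw [mem_coe, mem_powersetCard]
    refine ⟨subset_univ _, ?_⟩
    rw [← degree_ind, ← h1, hdeg]

lemma span_univ : Submodule.span K
    (Set.range (fun T : Finset ι => qm ι K (monomial (ind T) 1))) = ⊤ := by
  rw [eq_top_iff]
  rintro x -
  obtain ⟨P, rfl⟩ := qm_surj x
  rw [P.as_sum, map_sum]
  apply Submodule.sum_mem
  intro s hs
  by_cases h : ∃ i, 2 ≤ s i
  · obtain ⟨i, hi⟩ := h
    rw [qm_monomial_eq_zero hi]
    exact Submodule.zero_mem _
  · push Not at h
    have h1 : s = ind s.support := eq_ind fun i => by have := h i; omega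
    have h2 : monomial s (coeff s P) = (coeff s P) • (monomial (ind s.support) 1 :
        MvPolynomial ι K) := by
      rw [← h1, smul_monomial, smul_eq_mul, mul_one]
    rw [h2, map_smul]
    apply Submodule.smul_mem
    apply Submodule.subset_span
    exact ⟨s.support, rfl⟩

instance finite_TA : Module.Finite K (TA ι K) := by
  have h := span_univ (ι := ι) (K := K)
  exact Module.finite_def.2 (h ▸ Submodule.fg_span (Set.finite_range _))

lemma finrank_gr_le (k : ℕ) : Module.finrank K (gr ι K k) ≤ (Fintype.card ι).choose k := by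
  classical
  refine (Submodule.finrank_mono (gr_le_span k)).trans ?_
  rw [← coe_image]
  refine (finrank_span_finset_le_card _).trans (card_image_le.trans ?_)
  rw [card_powersetCard, card_univ]

lemma gr_eq_bot {k : ℕ} (hk : Fintype.card ι < k) : gr ι K k = ⊥ := by
  rw [eq_bot_iff]
  refine (gr_le_span k).trans ?_
  have : powersetCard k (univ : Finset ι) = ∅ := by
    rw [powersetCard_eq_empty, card_univ]
    exact hk
  rw [this]
  simp

omit [DecidableEq ι] [Fintype ι] in
lemma map_mulLeft_gr {P : MvPolynomial ι K} {d : ℕ} (hP : P.IsHomogeneous d) (k : ℕ) :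
    Submodule.map (LinearMap.mulLeft K (qm ι K P)) (gr ι K k) ≤ gr ι K (k + d) := by
  rintro _ ⟨_, ⟨R, hR, rfl⟩, rfl⟩
  rw [SetLike.mem_coe, mem_homogeneousSubmodule] at hR
  refine ⟨R * P, ?_, ?_⟩
  · rw [SetLike.mem_coe, mem_homogeneousSubmodule]
    exact hR.mul hP
  · show qm ι K (R * P) = qm ι K P * qm ι K R
    rw [map_mul, mul_comm]

omit [DecidableEq ι] [Fintype ι] in
lemma pow_eq_zero' {p : ℕ} [Fact p.Prime] [CharP K p] {P : MvPolynomial ι K} {d : ℕ}
    (hd : 0 < d) (hP : P.IsHomogeneous d) : (qm ι K P) ^ p = 0 := by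
  have hp : p.Prime := Fact.out
  rw [← map_pow]
  have h1 : P ^ p = ∑ s ∈ P.support, (monomial s (coeff s P)) ^ p := by
    conv_lhs => rw [P.as_sum]
    exact sum_pow_char p _ _
  rw [h1, map_sum]
  apply Finset.sum_eq_zero
  intro s hs
  rw [monomial_pow]
  have hdeg : s.degree = d := by
    have := hP (mem_support_iff.1 hs)
    rw [Finsupp.degree_eq_weight_one]
    exact this
  have : ∃ i, s i ≠ 0 := by
    by_contra h
    push Not at h
    have : s = 0 := by ext i; simpa using h i
    rw [this] at hdeg
    simp at hdeg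
    omega
  obtain ⟨i, hi⟩ := this
  apply qm_monomial_eq_zero (i := i)
  rw [Finsupp.smul_apply, smul_eq_mul]
  have h2 := hp.two_le
  have h3 : 1 ≤ s i := Nat.one_le_iff_ne_zero.2 hi
  nlinarith

/-- The squarefree coefficients. -/
noncomputable def chi0 (ι K : Type*) [DecidableEq ι] [Field K] :
    MvPolynomial ι K →ₗ[K] (Finset ι → K) where
  toFun P T := coeff (ind T) P
  map_add' P Q := by funext T; simp
  map_smul' c P := by funext T; simp

omit [Fintype ι] in
lemma chi0_mul_sqI {P : MvPolynomial ι K} (hP : P ∈ sqI ι K) :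
    ∀ R : MvPolynomial ι K, chi0 ι K (R * P) = 0 := by
  unfold sqI at hP
  induction hP using Submodule.span_induction with
  | mem x hx =>
    obtain ⟨i, rfl⟩ := hx
    intro R
    funext T
    show coeff (ind T) (R * X i ^ 2) = 0
    rw [X_pow_eq_monomial, coeff_mul_monomial', if_neg]
    intro h
    have := h i
    rw [Finsupp.single_eq_same, ind_apply] at this
    split_ifs at this
    · omega
    · omega
  | zero => simp
  | add x y _ _ hx hy => intro R; rw [mul_add, map_add, hx, hy, add_zero]
  | smul c x _ hx => intro R; rw [smul_eq_mul, ← mul_assoc]; exact hx _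

/-- The squarefree coefficients on the truncated algebra. -/
noncomputable def chi (ι K : Type*) [DecidableEq ι] [Field K] :
    TA ι K →ₗ[K] (Finset ι → K) :=
  Submodule.liftQ ((sqI ι K).restrictScalars K) (chi0 ι K) (by
    intro P hP
    rw [LinearMap.mem_ker]
    have := chi0_mul_sqI (ι := ι) (K := K) hP 1
    rwa [one_mul] at this)

omit [Fintype ι] in
lemma chi_qm (P : MvPolynomial ι K) (T : Finset ι) : chi ι K (qm ι K P) T = coeff (ind T) P := rfl

end Vale.Agent.P346
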