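import Vale.Agent.P346.Transfer

/-!
Blocks of layers and the normalised recursion.
-/

namespace Vale.Agent.P346

open Finset

variable {v : ℕ}

/-- A block with `q` pairs of layers. The first component is the type of a layer, the second one
tells whether the walk has to return to the vertex `0`. -/
def blk : ℕ → List (Bool × Bool)
  | 0 => [(true, true)]
  | q + 1 => (true, false) :: (false, false) :: blk q

/-- The weight of a layer. -/
def wB (wx wy : ℝ) (b : Bool) : ℝ := if b = true then wx else wy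

/-- The values of the fourth moment. -/
noncomputable def hv (wx wy : ℝ) (L : List (Bool × Bool)) (x : St v) : ℝ :=
  (L.map fun d => Th (wB wx wy d.1) d.2).prod x (0, 0, 0, 0)

lemma hv_cons (wx wy : ℝ) (d : Bool × Bool) (L : List (Bool × Bool)) (x : St v) :
    hv wx wy (d :: L) x = ∑ y, Th (wB wx wy d.1) d.2 x y * hv wx wy L y := by
  unfold hv
  rw [List.map_cons, List.prod_cons, Matrix.mul_apply]

lemma hv_nonneg {wx wy : ℝ} (hx : 0 ≤ wx) (hy : 0 ≤ wy) (L : List (Bool × Bool)) :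
    ∀ x : St v, 0 ≤ hv wx wy L x := by
  induction L with
  | nil =>
    intro x
    unfold hv
    rw [List.map_nil, List.prod_nil, Matrix.one_apply]
    split_ifs <;> norm_num
  | cons d L ih =>
    intro x
    rw [hv_cons]
    apply Finset.sum_nonneg
    intro y _
    apply mul_nonneg (Th_nonneg _ _ _ _) (ih y)
    unfold wB
    split_ifs
    · exact hx
    · exact hy

/-- The normalised recursion. -/
noncomputable def eij (n wx wy : ℝ) : ℕ → ℝ × ℝ × ℝ
  | 0 => (1 + wx, 1, wx)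
  | q + 1 =>
    let p := eij n wx wy q
    let e1 := (1 + wy) / n * p.1 + p.2.1 + wy * p.2.2
    let i1 := p.1 / n + p.2.1
    let j1 := wy * (p.1 / n + p.2.2)
    ((1 + wx) / n * e1 + i1 + wx * j1, e1 / n + i1, wx * (e1 / n + j1))

lemma eij_nonneg {n wx wy : ℝ} (hn : 0 < n) (hx : 0 ≤ wx) (hy : 0 ≤ wy) (q : ℕ) :
    0 ≤ (eij n wx wy q).1 ∧ 0 ≤ (eij n wx wy q).2.1 ∧ 0 ≤ (eij n wx wy q).2.2 := by
  induction q with
  | zero =>
    unfold eij
    exact ⟨by positivity, by norm_num, hx⟩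
  | succ q ih =>
    obtain ⟨h1, h2, h3⟩ := ih
    unfold eij
    refine ⟨?_, ?_, ?_⟩ <;> dsimp only <;> positivity

/-- The normalisation. -/
noncomputable def nrm (n : ℝ) (N : ℕ) (wx wy : ℝ) : ℕ → ℝ
  | 0 => (1 + wx) ^ (N - 2)
  | q + 1 => n ^ 2 * (1 + wx) ^ (N - 2) * (n ^ 2 * (1 + wy) ^ (N - 2)) * nrm n N wx wy q

lemma nrm_nonneg {n wx wy : ℝ} (N : ℕ) (hx : 0 ≤ wx) (hy : 0 ≤ wy) (q : ℕ) :
    0 ≤ nrm n N wx wy q := by
  induction q with
  | zero =>
    unfold nrm
    positivity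
  | succ q ih =>
    unfold nrm
    positivity

lemma Bd.mono {h : St v → ℝ} {E I J E' I' J' : ℝ} (hB : Bd h E I J) (h1 : E ≤ E')
    (h2 : I ≤ I') (h3 : J ≤ J') : Bd h E' I' J' :=
  ⟨hB.nn, fun a => (hB.hE a).trans h1, fun a b hab => (hB.hI a b hab).trans h2,
    fun a b hab => (hB.hJ a b hab).trans h3⟩

lemma blk_bd (hv1 : 1 ≤ v) {wx wy : ℝ} (hx : 0 ≤ wx) (hy : 0 ≤ wy) (rest : List (Bool × Bool))
    (q : ℕ) :
    Bd (hv (v := v) wx wy (blk q ++ rest))
      (nrm (v + 1 : ℝ) ((v + 1) * (v + 1)) wx wy q * (eij (v + 1 : ℝ) wx wy q).1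
        * hv wx wy rest ((0, 0, 0, 0) : St v))
      (nrm (v + 1 : ℝ) ((v + 1) * (v + 1)) wx wy q * (eij (v + 1 : ℝ) wx wy q).2.1
        * hv wx wy rest ((0, 0, 0, 0) : St v))
      (nrm (v + 1 : ℝ) ((v + 1) * (v + 1)) wx wy q * (eij (v + 1 : ℝ) wx wy q).2.2
        * hv wx wy rest ((0, 0, 0, 0) : St v)) := by
  have hn : (0 : ℝ) < v + 1 := by positivity
  have hN : 2 ≤ (v + 1) * (v + 1) := by nlinarith
  obtain ⟨k, hk⟩ := Nat.exists_eq_add_of_le hN
  have hk1 : (v + 1) * (v + 1) - 1 = k + 1 := by omega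
  have hk2 : (v + 1) * (v + 1) - 2 = k := by omega
  set ρ := hv wx wy rest ((0, 0, 0, 0) : St v) with hρ
  have hρ0 : 0 ≤ ρ := hv_nonneg hx hy rest _
  induction q with
  | zero =>
    have h1 := step_closed (v := v) hx (hv_nonneg (v := v) hx hy rest)
    have h2 : (fun x : St v => ∑ y, Th wx true x y * hv wx wy rest y)
        = hv wx wy (blk 0 ++ rest) := by
      funext x
      show _ = hv wx wy ((true, true) :: rest) x
      rw [hv_cons]
      rfl
    rw [h2, ← hρ, hk1, hk2] at h1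
    refine h1.mono (le_of_eq ?_) (le_of_eq ?_) (le_of_eq ?_)
    · unfold nrm eij
      rw [hk2, pow_succ]
    · unfold nrm eij
      rw [hk2]
      ring
    · unfold nrm eij
      rw [hk2]
      ring
  | succ q ih =>
    obtain ⟨e1, e2, e3⟩ := eij_nonneg (n := (v + 1 : ℝ)) hn hx hy q
    have hnr := nrm_nonneg (n := (v + 1 : ℝ)) ((v + 1) * (v + 1)) hx hy q
    set nr := nrm (v + 1 : ℝ) ((v + 1) * (v + 1)) wx wy q with hnr'
    set E := (eij (v + 1 : ℝ) wx wy q).1 with hE
    set I := (eij (v + 1 : ℝ) wx wy q).2.1 with hI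
    set J := (eij (v + 1 : ℝ) wx wy q).2.2 with hJ
    have h1 := step_open hy ih (by positivity) (by positivity) (by positivity)
    have h2 : (fun x : St v => ∑ y, Th wy false x y * hv wx wy (blk q ++ rest) y)
        = hv wx wy ((false, false) :: (blk q ++ rest)) := by
      funext x
      rw [hv_cons]
      rfl
    rw [h2, hk1, hk2] at h1
    have h3 := step_open hx h1 (by positivity) (by positivity) (by positivity)
    have h4 : (fun x : St v => ∑ y, Th wx false x y
        * hv wx wy ((false, false) :: (blk q ++ rest)) y)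
        = hv wx wy (blk (q + 1) ++ rest) := by
      funext x
      show _ = hv wx wy ((true, false) :: (false, false) :: (blk q ++ rest)) x
      rw [hv_cons wx wy (true, false)]
      rfl
    rw [h4, hk1, hk2] at h3
    have a1 : (eij (v + 1 : ℝ) wx wy (q + 1)).1 = (1 + wx) / (v + 1 : ℝ)
        * ((1 + wy) / (v + 1 : ℝ) * E + I + wy * J) + (E / (v + 1 : ℝ) + I)
          + wx * (wy * (E / (v + 1 : ℝ) + J)) := rfl
    have a2 : (eij (v + 1 : ℝ) wx wy (q + 1)).2.1 = ((1 + wy) / (v + 1 : ℝ) * E + I + wy * J)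
        / (v + 1 : ℝ) + (E / (v + 1 : ℝ) + I) := rfl
    have a3 : (eij (v + 1 : ℝ) wx wy (q + 1)).2.2 = wx * (((1 + wy) / (v + 1 : ℝ) * E + I + wy * J)
        / (v + 1 : ℝ) + (wy * (E / (v + 1 : ℝ) + J))) := rfl
    have a4 : nrm (v + 1 : ℝ) ((v + 1) * (v + 1)) wx wy (q + 1)
        = (v + 1 : ℝ) ^ 2 * (1 + wx) ^ k * ((v + 1 : ℝ) ^ 2 * (1 + wy) ^ k) * nr := by
      rw [← hk2]
      rfl
    rw [a1, a2, a3, a4]
    refine h3.mono (le_of_eq ?_) (le_of_eq ?_) (le_of_eq ?_)
    · rw [pow_succ, pow_succ]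
      field_simp
      ring
    · rw [pow_succ]
      field_simp
      ring
    · rw [pow_succ]
      field_simp
      ring

lemma hv_total (hv1 : 1 ≤ v) {wx wy : ℝ} (hx : 0 ≤ wx) (hy : 0 ≤ wy) (qs : List ℕ) :
    hv wx wy (qs.map blk).flatten ((0, 0, 0, 0) : St v)
      ≤ (qs.map fun q => nrm (v + 1 : ℝ) ((v + 1) * (v + 1)) wx wy q
        * (eij (v + 1 : ℝ) wx wy q).1).prod := by
  induction qs with
  | nil =>
    unfold hv
    simp
  | cons q qs ih =>
    rw [List.map_cons, List.flatten_cons, List.map_cons, List.prod_cons]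
    have h1 := (blk_bd hv1 hx hy (qs.map blk).flatten q).hE 0
    refine h1.trans ?_
    apply mul_le_mul_of_nonneg_left ih
    exact mul_nonneg (nrm_nonneg _ hx hy q) (eij_nonneg (by positivity) hx hy q).1

end Vale.Agent.P346
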