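import Vale.Agent.P346.Defs
import Vale.Agent.P346.Alg

/-!
Upper bound for the weighted rank of a homogeneous `ΣΠΣΠΣ` circuit.
-/

namespace Vale.Agent.P346

open Finset MvPolynomial

variable {ι : Type*} [DecidableEq ι] [Fintype ι] {K : Type*} [Field K]

/-- Multiplying by a product of homogeneous polynomials of degree at most `D`. -/
lemma wrk_prod_le (p : ℕ) [Fact p.Prime] [CharP K p] {ρ : ℝ} (hρ : 0 ≤ ρ) (hρ1 : ρ ≤ 1)
    {γ : Type*} (f : γ → MvPolynomial ι K) (d : γ → ℕ) {D : ℕ} (s : Multiset γ)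
    (hf : ∀ x ∈ s, (f x).IsHomogeneous (d x)) (hd : ∀ x ∈ s, d x ≤ D) (P : TA ι K) :
    wrk (gr ι K) ρ (Fintype.card ι) (qm ι K (s.map f).prod * P)
      ≤ (1 - ρ ^ ((p - 1) * D) / p) ^ (s.countP fun x => 0 < d x)
        * wrk (gr ι K) ρ (Fintype.card ι) P := by
  classical
  have hp : 0 < p := (Fact.out : p.Prime).pos
  have hp' : (1 : ℝ) ≤ p := by exact_mod_cast hp
  have hc : 0 ≤ 1 - ρ ^ ((p - 1) * D) / p := by
    rw [sub_nonneg, div_le_one (by linarith)]
    exact (pow_le_one₀ hρ hρ1).trans hp'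
  induction s using Multiset.induction_on with
  | empty => simp
  | cons x s ih =>
    have ih' := ih (fun y hy => hf y (Multiset.mem_cons_of_mem hy))
      (fun y hy => hd y (Multiset.mem_cons_of_mem hy))
    have hfx := hf x (Multiset.mem_cons_self x s)
    have hdx := hd x (Multiset.mem_cons_self x s)
    rw [Multiset.map_cons, Multiset.prod_cons, map_mul, mul_assoc]
    by_cases h0 : 0 < d x
    · rw [Multiset.countP_cons_of_pos (p := fun x => 0 < d x) _ h0, pow_succ']
      have h1 := wrk_kill (gr ι K) hρ hρ1 (N := Fintype.card ι)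
        (fun k hk => gr_eq_bot hk) (map_mulLeft_gr hfx) hp (pow_eq_zero' h0 hfx)
        (qm ι K (s.map f).prod * P)
      refine h1.trans ?_
      rw [mul_assoc]
      have hle : 1 - ρ ^ ((p - 1) * d x) / p ≤ 1 - ρ ^ ((p - 1) * D) / p := by
        have : ρ ^ ((p - 1) * D) ≤ ρ ^ ((p - 1) * d x) :=
          pow_le_pow_of_le_one hρ hρ1 (Nat.mul_le_mul_left _ hdx)
        have := div_le_div_of_nonneg_right this (by linarith : (0 : ℝ) ≤ p)
        linarith
      exact mul_le_mul hle ih' (wrk_nonneg _ hρ _ _) hc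
    · rw [Multiset.countP_cons_of_neg (p := fun x => 0 < d x) _ h0]
      exact (wrk_mul_le _ hρ _ _ _).trans ih'

variable {V : Type*}

omit [DecidableEq ι] [Fintype ι] in
lemma qm_smul_sum {γ : Type*} (φ : MvPolynomial V K →ₐ[K] MvPolynomial ι K) (s : Finset γ)
    (c : γ → K) (f : γ → MvPolynomial V K) :
    qm ι K (φ (∑ x ∈ s, c x • f x)) = ∑ x ∈ s, c x • qm ι K (φ (f x)) := by
  rw [map_sum, map_sum]
  apply Finset.sum_congr rfl
  intro x _
  rw [map_smul, map_smul]

lemma isHomogeneous_smul {γ : Type*} {f : MvPolynomial γ K} {d : ℕ} (hf : f.IsHomogeneous d)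
    (c : K) : (c • f).IsHomogeneous d :=
  (homogeneousSubmodule γ K d).smul_mem c hf

lemma isHomogeneous_multiset {γ δ : Type*} (f : γ → MvPolynomial δ K) (d : γ → ℕ)
    (s : Multiset γ) (hf : ∀ x ∈ s, (f x).IsHomogeneous (d x)) :
    ((s.map f).prod).IsHomogeneous ((s.map d).sum) := by
  induction s using Multiset.induction_on with
  | empty => simpa using isHomogeneous_one δ K
  | cons x s ih =>
    rw [Multiset.map_cons, Multiset.prod_cons, Multiset.map_cons, Multiset.sum_cons]
    exact (hf x (Multiset.mem_cons_self x s)).mul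
      (ih fun y hy => hf y (Multiset.mem_cons_of_mem hy))

lemma sum_le_countP_mul (s : Multiset ℕ) (D : ℕ) (h : ∀ x ∈ s, x ≤ D) :
    s.sum ≤ s.countP (fun x => 0 < x) * D := by
  induction s using Multiset.induction_on with
  | empty => simp
  | cons x s ih =>
    have ih' := ih fun y hy => h y (Multiset.mem_cons_of_mem hy)
    have hx := h x (Multiset.mem_cons_self x s)
    rw [Multiset.sum_cons]
    by_cases h0 : 0 < x
    · rw [Multiset.countP_cons_of_pos (p := fun x => 0 < x) _ h0, add_mul, one_mul]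
      omega
    · rw [Multiset.countP_cons_of_neg (p := fun x => 0 < x) _ h0]
      omega

theorem circuit_upper (p : ℕ) [Fact p.Prime] [CharP K p] {ρ : ℝ} (hρ : 0 ≤ ρ) (hρ1 : ρ ≤ 1)
    (C : Circuit V K) (hC : C.IsHomogeneous) (φ : MvPolynomial V K →ₐ[K] MvPolynomial ι K)
    (hφ : ∀ v, (φ (X v)).IsHomogeneous 1) {n : ℕ} (hn : (φ C.val).IsHomogeneous n)
    (hne : φ C.val ≠ 0) {a m : ℕ} (ham : m * a ≤ n) (ha : 0 < a) :
    wrk (gr ι K) ρ (Fintype.card ι) (qm ι K (φ C.val))
      ≤ (C.n4 * (1 - ρ ^ ((p - 1) * a) / p) ^ m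
        + C.n4 * (C.n2 * (1 - ρ ^ (p - 1) / p) ^ a))
        * wrk (gr ι K) ρ (Fintype.card ι) 1 := by
  classical
  obtain ⟨d1, d2, d3, d4, d5, h1, h2, h3, h4, h5⟩ := hC
  have hp : 0 < p := (Fact.out : p.Prime).pos
  have hp' : (1 : ℝ) ≤ p := by exact_mod_cast hp
  have hc : ∀ D, 0 ≤ 1 - ρ ^ ((p - 1) * D) / p ∧ 1 - ρ ^ ((p - 1) * D) / p ≤ 1 := by
    intro D
    constructor
    · rw [sub_nonneg, div_le_one (by linarith)]
      exact (pow_le_one₀ hρ hρ1).trans hp'
    · have : 0 ≤ ρ ^ ((p - 1) * D) / p := by positivity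
      linarith
  set w1 := wrk (gr ι K) ρ (Fintype.card ι) 1 with hw1
  have hw1nn : 0 ≤ w1 := wrk_nonneg _ hρ _ _
  -- homogeneity of the images of the gates
  have g0 : ∀ l, (φ (C.val0 l)).IsHomogeneous (C.leafDeg l) := by
    intro l
    unfold Circuit.val0 Circuit.leafDeg
    rcases C.leaf l with v | c
    · exact hφ v
    · simp only [Sum.elim_inr]
      rw [← MvPolynomial.algebraMap_eq, AlgHom.commutes]
      exact isHomogeneous_C _ _
  have g1 : ∀ g, (φ (C.val1 g)).IsHomogeneous (d1 g) := by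
    intro g
    unfold Circuit.val1
    rw [map_sum]
    apply IsHomogeneous.sum
    intro l hl
    rw [map_smul, ← h1 g l hl]
    exact isHomogeneous_smul (g0 l) _
  have g2 : ∀ g, (φ (C.val2 g)).IsHomogeneous (d2 g) := by
    intro g
    unfold Circuit.val2
    rw [map_multiset_prod, Multiset.map_map, h2 g]
    exact isHomogeneous_multiset _ _ _ fun x _ => g1 x
  have g3 : ∀ g, (φ (C.val3 g)).IsHomogeneous (d3 g) := by
    intro g
    unfold Circuit.val3
    rw [map_sum]
    apply IsHomogeneous.sum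
    intro l hl
    rw [map_smul, ← h3 g l hl]
    exact isHomogeneous_smul (g2 l) _
  have g4 : ∀ g, (φ (C.val4 g)).IsHomogeneous (d4 g) := by
    intro g
    unfold Circuit.val4
    rw [map_multiset_prod, Multiset.map_map, h4 g]
    exact isHomogeneous_multiset _ _ _ fun x _ => g3 x
  have g5 : (φ C.val).IsHomogeneous d5 := by
    unfold Circuit.val
    rw [map_sum]
    apply IsHomogeneous.sum
    intro l hl
    rw [map_smul, ← h5 l hl]
    exact isHomogeneous_smul (g4 l) _
  have hd5 : d5 = n := g5.inj_right hn hne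
  -- lower product gates
  have k2 : ∀ g, ∀ P : TA ι K, a ≤ d2 g →
      wrk (gr ι K) ρ (Fintype.card ι) (qm ι K (φ (C.val2 g)) * P)
        ≤ (1 - ρ ^ (p - 1) / p) ^ a * wrk (gr ι K) ρ (Fintype.card ι) P := by
    intro g P hag
    have hPnn := wrk_nonneg (gr ι K) hρ (Fintype.card ι) P
    have hc1 := hc 1
    rw [mul_one] at hc1
    by_cases hall : ∀ l ∈ C.in2 g, d1 l ≤ 1
    · have h6 := wrk_prod_le p hρ hρ1 (fun l => φ (C.val1 l)) d1 (C.in2 g)
        (fun x _ => g1 x) hall P
      rw [mul_one] at h6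
      have h7 : φ (C.val2 g) = ((C.in2 g).map fun l => φ (C.val1 l)).prod := by
        unfold Circuit.val2
        rw [map_multiset_prod, Multiset.map_map]
        rfl
      rw [h7]
      refine h6.trans ?_
      apply mul_le_mul_of_nonneg_right _ hPnn
      apply pow_le_pow_of_le_one hc1.1 hc1.2
      have h8 := sum_le_countP_mul ((C.in2 g).map d1) 1 (by
        intro x hx
        obtain ⟨l, hl, rfl⟩ := Multiset.mem_map.1 hx
        exact hall l hl)
      rw [← h2 g, mul_one, Multiset.countP_map] at h8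
      rw [Multiset.countP_eq_card_filter]
      omega
    · push Not at hall
      obtain ⟨l, hl, hl2⟩ := hall
      have h6 : C.val1 l = 0 := by
        unfold Circuit.val1
        apply Finset.sum_eq_zero
        intro x hx
        have h7 := h1 l x hx
        have h8 : C.leafDeg x ≤ 1 := by
          unfold Circuit.leafDeg
          rcases C.leaf x with v | c <;> simp
        omega
      have h7 : C.val2 g = 0 := by
        unfold Circuit.val2
        apply Multiset.prod_eq_zero
        rw [← h6]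
        exact Multiset.mem_map_of_mem _ hl
      rw [h7, map_zero, map_zero, zero_mul, wrk_zero]
      exact mul_nonneg (pow_nonneg hc1.1 _) hPnn
  -- upper product gates
  have k4 : ∀ g ∈ C.in5, wrk (gr ι K) ρ (Fintype.card ι) (qm ι K (φ (C.val4 g)))
      ≤ ((1 - ρ ^ ((p - 1) * a) / p) ^ m + C.n2 * (1 - ρ ^ (p - 1) / p) ^ a) * w1 := by
    intro g hg
    have hc1 := hc 1
    rw [mul_one] at hc1
    by_cases hall : ∀ l ∈ C.in4 g, d3 l ≤ a
    · have h6 := wrk_prod_le p hρ hρ1 (fun l => φ (C.val3 l)) d3 (C.in4 g)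
        (fun x _ => g3 x) hall 1
      have h7 : φ (C.val4 g) = ((C.in4 g).map fun l => φ (C.val3 l)).prod := by
        unfold Circuit.val4
        rw [map_multiset_prod, Multiset.map_map]
        rfl
      rw [mul_one, ← h7] at h6
      refine h6.trans ?_
      apply mul_le_mul_of_nonneg_right _ hw1nn
      have h8 := sum_le_countP_mul ((C.in4 g).map d3) a (by
        intro x hx
        obtain ⟨l, hl, rfl⟩ := Multiset.mem_map.1 hx
        exact hall l hl)
      rw [← h4 g, h5 g hg, hd5, Multiset.countP_map, ← Multiset.countP_eq_card_filter] at h8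
      have h9 : m ≤ (C.in4 g).countP fun x => 0 < d3 x :=
        Nat.le_of_mul_le_mul_right (ham.trans h8) ha
      have h10 := pow_le_pow_of_le_one (hc a).1 (hc a).2 h9
      have h11 : 0 ≤ (C.n2 : ℝ) * (1 - ρ ^ (p - 1) / p) ^ a :=
        mul_nonneg (Nat.cast_nonneg _) (pow_nonneg hc1.1 _)
      linarith
    · push Not at hall
      obtain ⟨l, hl, hla⟩ := hall
      obtain ⟨s, hs⟩ := Multiset.exists_cons_of_mem hl
      have h7 : qm ι K (φ (C.val4 g)) = ∑ h ∈ C.in3 l, C.co3 l h •
          (qm ι K (φ (C.val2 h)) * qm ι K (φ (s.map C.val3).prod)) := by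
        unfold Circuit.val4
        rw [hs, Multiset.map_cons, Multiset.prod_cons, map_mul, map_mul]
        conv_lhs => unfold Circuit.val3
        rw [qm_smul_sum, Finset.sum_mul]
        apply Finset.sum_congr rfl
        intro h _
        rw [smul_mul_assoc]
        rfl
      rw [h7]
      refine (wrk_sum_le _ hρ _ _ _ _).trans ?_
      have h8 : ∀ h ∈ C.in3 l, wrk (gr ι K) ρ (Fintype.card ι)
          (qm ι K (φ (C.val2 h)) * qm ι K (φ (s.map C.val3).prod))
          ≤ (1 - ρ ^ (p - 1) / p) ^ a * w1 := by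
        intro h hh
        refine (k2 h _ (by rw [h3 l h hh]; omega)).trans ?_
        apply mul_le_mul_of_nonneg_left _ (pow_nonneg hc1.1 _)
        have := wrk_mul_le (gr ι K) hρ (Fintype.card ι) (qm ι K (φ (s.map C.val3).prod)) 1
        rwa [mul_one] at this
      refine (Finset.sum_le_sum h8).trans ?_
      rw [Finset.sum_const, nsmul_eq_mul, ← mul_assoc]
      apply mul_le_mul_of_nonneg_right _ hw1nn
      have h9 : ((C.in3 l).card : ℝ) ≤ C.n2 := by
        have := Finset.card_le_univ (C.in3 l)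
        rw [Fintype.card_fin] at this
        exact_mod_cast this
      have h10 : ((C.in3 l).card : ℝ) * (1 - ρ ^ (p - 1) / p) ^ a
          ≤ C.n2 * (1 - ρ ^ (p - 1) / p) ^ a :=
        mul_le_mul_of_nonneg_right h9 (pow_nonneg hc1.1 _)
      have h11 := pow_nonneg (hc a).1 m
      linarith
  unfold Circuit.val
  rw [qm_smul_sum]
  refine (wrk_sum_le _ hρ _ _ _ _).trans ((Finset.sum_le_sum k4).trans ?_)
  rw [Finset.sum_const, nsmul_eq_mul]
  have h12 : ((C.in5).card : ℝ) ≤ C.n4 := by
    have := Finset.card_le_univ C.in5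
    rw [Fintype.card_fin] at this
    exact_mod_cast this
  have hc1 := hc 1
  rw [mul_one] at hc1
  have h13 : 0 ≤ ((1 - ρ ^ ((p - 1) * a) / p) ^ m + C.n2 * (1 - ρ ^ (p - 1) / p) ^ a) * w1 := by
    apply mul_nonneg _ hw1nn
    apply add_nonneg (pow_nonneg (hc a).1 _)
    exact mul_nonneg (Nat.cast_nonneg _) (pow_nonneg hc1.1 _)
  calc ((C.in5).card : ℝ) *
        (((1 - ρ ^ ((p - 1) * a) / p) ^ m + C.n2 * (1 - ρ ^ (p - 1) / p) ^ a) * w1)
      ≤ C.n4 * (((1 - ρ ^ ((p - 1) * a) / p) ^ m + C.n2 * (1 - ρ ^ (p - 1) / p) ^ a) * w1) :=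
        mul_le_mul_of_nonneg_right h12 h13
    _ = _ := by ring

end Vale.Agent.P346
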