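import Vale.Agent.P346.GdBound

/-!
Upper bound for the bigraded measure of a homogeneous `ΣΠΣΠΣ` circuit.
-/

namespace Vale.Agent.P346

open Finset MvPolynomial

variable {ι : Type*} {K : Type*} [Field K] {V : Type*}
variable {H : MvPolynomial ι K → ℝ} {wt : ι → ℕ × ℕ} {Z : ℝ}

/-- The homogeneity of the images of the gates. -/
lemma gates_homog (C : Circuit V K) (φ : MvPolynomial V K →ₐ[K] MvPolynomial ι K)
    (hφ : ∀ v, (φ (X v)).IsHomogeneous 1)
    {d1 : Fin C.n1 → ℕ} {d2 : Fin C.n2 → ℕ} {d3 : Fin C.n3 → ℕ} {d4 : Fin C.n4 → ℕ}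
    (h1 : ∀ g, ∀ l ∈ C.in1 g, C.leafDeg l = d1 g)
    (h2 : ∀ g, d2 g = ((C.in2 g).map d1).sum)
    (h3 : ∀ g, ∀ h ∈ C.in3 g, d2 h = d3 g)
    (h4 : ∀ g, d4 g = ((C.in4 g).map d3).sum) :
    (∀ g, (φ (C.val1 g)).IsHomogeneous (d1 g)) ∧ (∀ g, (φ (C.val2 g)).IsHomogeneous (d2 g)) ∧
    (∀ g, (φ (C.val3 g)).IsHomogeneous (d3 g)) ∧ (∀ g, (φ (C.val4 g)).IsHomogeneous (d4 g)) := by
  have g0 : ∀ l, (φ (C.val0 l)).IsHomogeneous (C.leafDeg l) := by
    intro l
    unfold Circuit.val0 Circuit.leafDeg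
    rcases C.leaf l with v | c
    · exact hφ v
    · simp only [Sum.elim_inr]
      rw [← MvPolynomial.algebraMap_eq, AlgHom.commutes]
      exact isHomogeneous_C _ _
  have g1 : ∀ g, (φ (C.val1 g)).IsHomogeneous (d1 g) := by
    intro g
    unfold Circuit.val1
    rw [map_sum]
    apply IsHomogeneous.sum
    intro l hl
    rw [map_smul, ← h1 g l hl]
    exact isHomogeneous_smul (g0 l) _
  have g2 : ∀ g, (φ (C.val2 g)).IsHomogeneous (d2 g) := by
    intro g
    unfold Circuit.val2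
    rw [map_multiset_prod, Multiset.map_map, h2 g]
    exact isHomogeneous_multiset _ _ _ fun x _ => g1 x
  have g3 : ∀ g, (φ (C.val3 g)).IsHomogeneous (d3 g) := by
    intro g
    unfold Circuit.val3
    rw [map_sum]
    apply IsHomogeneous.sum
    intro l hl
    rw [map_smul, ← h3 g l hl]
    exact isHomogeneous_smul (g2 l) _
  refine ⟨g1, g2, g3, ?_⟩
  intro g
  unfold Circuit.val4
  rw [map_multiset_prod, Multiset.map_map, h4 g]
  exact isHomogeneous_multiset _ _ _ fun x _ => g3 x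

lemma val2_eq_zero (C : Circuit V K) {d1 : Fin C.n1 → ℕ}
    (h1 : ∀ g, ∀ l ∈ C.in1 g, C.leafDeg l = d1 g) (g : Fin C.n2)
    (h : ¬ ∀ l ∈ C.in2 g, d1 l ≤ 1) : C.val2 g = 0 := by
  push Not at h
  obtain ⟨l, hl, hl2⟩ := h
  have h6 : C.val1 l = 0 := by
    unfold Circuit.val1
    apply Finset.sum_eq_zero
    intro x hx
    have h7 := h1 l x hx
    have h8 : C.leafDeg x ≤ 1 := by
      unfold Circuit.leafDeg
      rcases C.leaf x with v | c <;> simp
    omega
  unfold Circuit.val2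
  apply Multiset.prod_eq_zero
  rw [← h6]
  exact Multiset.mem_map_of_mem _ hl

/-- Gates all of whose factors have small degree. -/
lemma gateB {y κ : ℝ} (hy : 2 ≤ y) (hκ : 1 ≤ κ) (hM : IsMeas H wt (y ^ 3) (κ * y ^ 3) Z)
    (hS : SubAdd H) (hwt : ∀ i, wt i = (1, 0) ∨ wt i = (0, 1)) (hZ : 0 ≤ Z) {a : ℕ}
    (ha : κ ^ a ≤ y) {γ : Type*} (f : γ → MvPolynomial ι K) (d : γ → ℕ) (s : Multiset γ)
    (hf : ∀ c ∈ s, (f c).IsHomogeneous (d c)) (hs : ∀ c ∈ s, d c ≤ a) {n nx ny : ℕ}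
    (hsum : (s.map d).sum = n) (hn : nx + ny = n) (hnx : ny ≤ nx)
    (hbal : (y ^ 3) ^ nx = (κ * y ^ 3) ^ ny) :
    H (comp wt nx (s.map f).prod)
      ≤ 1 / (κ * y ^ 3) ^ (nx - ny) * Real.exp (2 * n / y ^ 5) * Z := by
  have hy0 : 0 < y := by linarith
  have hκ0 : 0 < κ := by linarith
  have h1 := typeB hM hS hwt (by positivity) (by positivity) hZ f d s hf nx 1 1 0 0
    (isWeightedHomogeneous_one K wt)
  rw [mul_one, mul_one, mul_zero, pow_zero, pow_zero, div_one, one_mul] at h1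
  refine h1.trans (mul_le_mul_of_nonneg_right ?_ hZ)
  have h2 := prod_Gd_le hy hκ ha d s hs
  rw [hsum] at h2
  refine (mul_le_mul_of_nonneg_left h2 (by positivity)).trans (le_of_eq ?_)
  rw [← mul_assoc]
  congr 1
  obtain ⟨k, rfl⟩ := Nat.exists_eq_add_of_le hnx
  have e1 : (y ^ 3) ^ (2 * (ny + k)) = (κ * y ^ 3) ^ (2 * ny) := by
    rw [mul_comm 2 (ny + k), mul_comm 2 ny, pow_mul (y ^ 3) (ny + k) 2, hbal, ← pow_mul]
  have e2 : n = 2 * ny + k := by omega
  rw [e1, Nat.add_sub_cancel_left, e2, pow_add]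
  field_simp

/-- A product of linear forms times another polynomial. -/
lemma gateA {y κ : ℝ} (hy : 2 ≤ y) (hκ : 1 ≤ κ) (hM : IsMeas H wt (y ^ 3) (κ * y ^ 3) Z)
    (hS : SubAdd H) (hwt : ∀ i, wt i = (1, 0) ∨ wt i = (0, 1)) (hZ : 0 ≤ Z) {a : ℕ}
    {γ : Type*} (f : γ → MvPolynomial ι K) (d : γ → ℕ) (s : Multiset γ)
    (hf : ∀ c ∈ s, (f c).IsHomogeneous (d c)) (hs : ∀ c ∈ s, d c ≤ 1) {n nx ny m : ℕ}
    {R : MvPolynomial ι K} (hR : R.IsHomogeneous m)
    (hsum : (s.map d).sum + m = n) (has : a ≤ (s.map d).sum) (hn : nx + ny = n)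
    (hbal : (y ^ 3) ^ nx = (κ * y ^ 3) ^ ny) :
    H (comp wt nx ((s.map f).prod * R)) ≤ (2 / y ^ 3) ^ a * Z := by
  have hy0 : 0 < y := by linarith
  have hκ0 : 0 < κ := by linarith
  have h1 := typeA hM hS hwt (by positivity) hκ rfl hZ f d s hf hs nx m 0 R 1 1 hR
    (isWeightedHomogeneous_one K wt)
  rw [mul_one, mul_one, mul_zero, add_zero] at h1
  refine h1.trans (mul_le_mul_of_nonneg_right ?_ hZ)
  set δ := (s.map d).sum with hδ
  have e1 : 2 ^ δ * κ ^ δ * (y ^ 3 * (κ * y ^ 3)) ^ nx / (κ * y ^ 3) ^ (m + 2 * δ)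
      = (2 / y ^ 3) ^ δ := by
    have e2 : m + 2 * δ = nx + ny + δ := by omega
    rw [e2, mul_pow (y ^ 3) (κ * y ^ 3) nx, hbal, pow_add, pow_add, mul_pow κ (y ^ 3) δ, div_pow]
    field_simp
  rw [e1]
  apply pow_le_pow_of_le_one (by positivity) _ has
  rw [div_le_one (by positivity)]
  calc (2 : ℝ) ≤ 2 ^ 3 := by norm_num
    _ ≤ y ^ 3 := pow_le_pow_left₀ (by norm_num) hy 3

theorem circuit_upper0 {y κ : ℝ} (hy : 2 ≤ y) (hκ : 1 ≤ κ)
    (hM : IsMeas H wt (y ^ 3) (κ * y ^ 3) Z)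
    (hS : SubAdd H) (hwt : ∀ i, wt i = (1, 0) ∨ wt i = (0, 1)) (hZ : 0 ≤ Z) {a : ℕ}
    (ha : κ ^ a ≤ y) (C : Circuit V K) (hC : C.IsHomogeneous)
    (φ : MvPolynomial V K →ₐ[K] MvPolynomial ι K)
    (hφ : ∀ v, (φ (X v)).IsHomogeneous 1) {n nx ny : ℕ} (hhom : (φ C.val).IsHomogeneous n)
    (hF : IsWeightedHomogeneous wt (φ C.val) (nx, ny)) (hn : nx + ny = n) (hnx : ny ≤ nx)
    (hbal : (y ^ 3) ^ nx = (κ * y ^ 3) ^ ny) (hne : φ C.val ≠ 0) :
    H (φ C.val) ≤ (C.n4 * (1 / (κ * y ^ 3) ^ (nx - ny) * Real.exp (2 * n / y ^ 5))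
      + C.n4 * (C.n2 * (2 / y ^ 3) ^ a)) * Z := by
  classical
  obtain ⟨d1, d2, d3, d4, d5, h1, h2, h3, h4, h5⟩ := hC
  have hy0 : 0 < y := by linarith
  have hκ0 : 0 < κ := by linarith
  obtain ⟨g1, g2, g3, g4⟩ := gates_homog C φ hφ h1 h2 h3 h4
  have g5 : (φ C.val).IsHomogeneous d5 := by
    unfold Circuit.val
    rw [map_sum]
    apply IsHomogeneous.sum
    intro l hl
    rw [map_smul, ← h5 l hl]
    exact isHomogeneous_smul (g4 l) _
  have hd5 : d5 = n := g5.inj_right hhom hne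
  have kB : ∀ g ∈ C.in5, H (comp wt nx (φ (C.val4 g)))
      ≤ (1 / (κ * y ^ 3) ^ (nx - ny) * Real.exp (2 * n / y ^ 5)
        + C.n2 * (2 / y ^ 3) ^ a) * Z := by
    intro g hg
    have hn2 : 0 ≤ (C.n2 : ℝ) * (2 / y ^ 3) ^ a := by positivity
    have hn1 : 0 ≤ 1 / (κ * y ^ 3) ^ (nx - ny) * Real.exp (2 * n / y ^ 5) := by positivity
    by_cases hall : ∀ l ∈ C.in4 g, d3 l ≤ a
    · have h7 : φ (C.val4 g) = ((C.in4 g).map fun l => φ (C.val3 l)).prod := by
        unfold Circuit.val4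
        rw [map_multiset_prod, Multiset.map_map]
        rfl
      have h6 := gateB hy hκ hM hS hwt hZ ha (fun l => φ (C.val3 l)) d3 (C.in4 g)
        (fun c _ => g3 c) hall (by rw [← h4 g, h5 g hg, hd5]) hn hnx hbal
      rw [← h7] at h6
      refine h6.trans (mul_le_mul_of_nonneg_right ?_ hZ)
      linarith
    · push Not at hall
      obtain ⟨l, hl, hla⟩ := hall
      obtain ⟨s, hs⟩ := Multiset.exists_cons_of_mem hl
      have hR : (φ (s.map C.val3).prod).IsHomogeneous ((s.map d3).sum) := by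
        rw [map_multiset_prod, Multiset.map_map]
        exact isHomogeneous_multiset _ _ _ fun x _ => g3 x
      have hsum : d3 l + (s.map d3).sum = n := by
        have h8 := h4 g
        rw [hs, Multiset.map_cons, Multiset.sum_cons, h5 g hg, hd5] at h8
        exact h8.symm
      have h7 : comp wt nx (φ (C.val4 g)) = ∑ h ∈ C.in3 l, C.co3 l h •
          comp wt nx (φ (C.val2 h) * φ (s.map C.val3).prod) := by
        rw [← comp_smul_sum]
        congr 1
        unfold Circuit.val4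
        rw [hs, Multiset.map_cons, Multiset.prod_cons, map_mul]
        conv_lhs => unfold Circuit.val3
        rw [map_sum, Finset.sum_mul]
        apply Finset.sum_congr rfl
        intro h _
        rw [map_smul, smul_mul_assoc]
        rfl
      rw [h7]
      refine (hS.sum_le _ _ _).trans ?_
      have h8 : ∀ h ∈ C.in3 l, H (comp wt nx (φ (C.val2 h) * φ (s.map C.val3).prod))
          ≤ (2 / y ^ 3) ^ a * Z := by
        intro h hh
        by_cases hle : ∀ c ∈ C.in2 h, d1 c ≤ 1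
        · have h9 : φ (C.val2 h) = ((C.in2 h).map fun l => φ (C.val1 l)).prod := by
            unfold Circuit.val2
            rw [map_multiset_prod, Multiset.map_map]
            rfl
          rw [h9]
          have h10 : ((C.in2 h).map d1).sum = d3 l := by rw [← h2 h, h3 l h hh]
          exact gateA hy hκ hM hS hwt hZ (fun l => φ (C.val1 l)) d1 (C.in2 h)
            (fun c _ => g1 c) hle hR (by rw [h10, hsum]) (by rw [h10]; omega) hn hbal
        · rw [val2_eq_zero C h1 h hle, map_zero, zero_mul]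
          have : comp wt nx (0 : MvPolynomial ι K) = 0 := by
            unfold comp
            exact map_zero _
          rw [this, hM.zero]
          positivity
      refine (Finset.sum_le_sum h8).trans ?_
      rw [Finset.sum_const, nsmul_eq_mul, ← mul_assoc]
      apply mul_le_mul_of_nonneg_right _ hZ
      have h9 : ((C.in3 l).card : ℝ) ≤ C.n2 := by
        have := Finset.card_le_univ (C.in3 l)
        rw [Fintype.card_fin] at this
        exact_mod_cast this
      have h10 : ((C.in3 l).card : ℝ) * (2 / y ^ 3) ^ a ≤ C.n2 * (2 / y ^ 3) ^ a :=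
        mul_le_mul_of_nonneg_right h9 (by positivity)
      linarith
  have hval : φ C.val = ∑ h ∈ C.in5, C.co5 h • comp wt nx (φ (C.val4 h)) := by
    rw [← comp_smul_sum]
    have : ∑ h ∈ C.in5, C.co5 h • φ (C.val4 h) = φ C.val := by
      unfold Circuit.val
      rw [map_sum]
      simp only [map_smul]
    rw [this, comp_self wt hF]
  rw [hval]
  refine (hS.sum_le _ _ _).trans ((Finset.sum_le_sum kB).trans ?_)
  rw [Finset.sum_const, nsmul_eq_mul]
  have h12 : ((C.in5).card : ℝ) ≤ C.n4 := by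
    have := Finset.card_le_univ C.in5
    rw [Fintype.card_fin] at this
    exact_mod_cast this
  have h13 : 0 ≤ (1 / (κ * y ^ 3) ^ (nx - ny) * Real.exp (2 * n / y ^ 5)
        + C.n2 * (2 / y ^ 3) ^ a) * Z := by positivity
  refine (mul_le_mul_of_nonneg_right h12 h13).trans (le_of_eq ?_)
  ring

end Vale.Agent.P346
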