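import Vale.Agent.P346.Defs
import Vale.Agent.P346.Circ

/-!
Components of a polynomial with respect to the degree in one group of variables.
-/

namespace Vale.Agent.P346

open Finset MvPolynomial

variable {ι : Type*} {K : Type*} [Field K]

/-- The weight counting the variables of the first type. -/
def w1 (wt : ι → ℕ × ℕ) : ι → ℕ := fun i => (wt i).1

/-- The component of degree `N` in the variables of the first type. -/
noncomputable def comp (wt : ι → ℕ × ℕ) (N : ℕ) (P : MvPolynomial ι K) : MvPolynomial ι K :=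
  weightedHomogeneousComponent (w1 wt) N P

lemma coeff_comp (wt : ι → ℕ × ℕ) (N : ℕ) (P : MvPolynomial ι K) (s : ι →₀ ℕ) :
    coeff s (comp wt N P) = if Finsupp.weight (w1 wt) s = N then coeff s P else 0 := by
  classical
  exact coeff_weightedHomogeneousComponent (w := w1 wt) N P s

lemma comp_mul (wt : ι → ℕ × ℕ) (N : ℕ) (P Q : MvPolynomial ι K) :
    comp wt N (P * Q) = ∑ x ∈ antidiagonal N, comp wt x.1 P * comp wt x.2 Q := by
  classical
  ext s
  rw [coeff_comp, coeff_sum]
  simp only [coeff_mul, coeff_comp]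
  rw [Finset.sum_comm]
  have h1 : ∀ z ∈ antidiagonal s, ∑ x ∈ antidiagonal N,
      (if Finsupp.weight (w1 wt) z.1 = x.1 then coeff z.1 P else 0)
        * (if Finsupp.weight (w1 wt) z.2 = x.2 then coeff z.2 Q else 0)
      = if Finsupp.weight (w1 wt) s = N then coeff z.1 P * coeff z.2 Q else 0 := by
    intro z hz
    have hz' : z.1 + z.2 = s := mem_antidiagonal.1 hz
    have h2 : Finsupp.weight (w1 wt) s
        = Finsupp.weight (w1 wt) z.1 + Finsupp.weight (w1 wt) z.2 := by
      rw [← hz', map_add]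
    by_cases h : Finsupp.weight (w1 wt) s = N
    · rw [if_pos h, Finset.sum_eq_single
        (Finsupp.weight (w1 wt) z.1, Finsupp.weight (w1 wt) z.2)]
      · rw [if_pos rfl, if_pos rfl]
      · intro x hx hne
        have hx' : x.1 + x.2 = N := mem_antidiagonal.1 hx
        by_cases h3 : Finsupp.weight (w1 wt) z.1 = x.1
        · rw [if_neg (c := Finsupp.weight (w1 wt) z.2 = x.2), mul_zero]
          intro h4
          exact hne (Prod.ext h3.symm h4.symm)
        · rw [if_neg h3, zero_mul]
      · intro h3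
        exfalso
        apply h3
        rw [HasAntidiagonal.mem_antidiagonal]
        show Finsupp.weight (w1 wt) z.1 + Finsupp.weight (w1 wt) z.2 = N
        rw [← h2, h]
    · rw [if_neg h]
      apply Finset.sum_eq_zero
      intro x hx
      have hx' : x.1 + x.2 = N := mem_antidiagonal.1 hx
      by_cases h3 : Finsupp.weight (w1 wt) z.1 = x.1
      · rw [if_neg (c := Finsupp.weight (w1 wt) z.2 = x.2), mul_zero]
        intro h4
        apply h
        rw [h2, h3, h4, hx']
      · rw [if_neg h3, zero_mul]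
  rw [Finset.sum_congr rfl h1]
  by_cases h : Finsupp.weight (w1 wt) s = N
  · simp only [if_pos h]
  · simp only [if_neg h, Finset.sum_const_zero]

lemma weight_w1 (wt : ι → ℕ × ℕ) (s : ι →₀ ℕ) :
    Finsupp.weight (w1 wt) s = (Finsupp.weight wt s).1 := by
  rw [Finsupp.weight_apply, Finsupp.weight_apply, Finsupp.sum, Finsupp.sum, Prod.fst_sum]
  rfl

lemma weight_add (wt : ι → ℕ × ℕ) (hwt : ∀ i, wt i = (1, 0) ∨ wt i = (0, 1)) (s : ι →₀ ℕ) :
    (Finsupp.weight wt s).1 + (Finsupp.weight wt s).2 = s.degree := by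
  rw [Finsupp.weight_apply, Finsupp.sum, Prod.fst_sum, Prod.snd_sum, ← Finset.sum_add_distrib,
    Finsupp.degree_apply]
  apply Finset.sum_congr rfl
  intro i _
  rcases hwt i with h | h <;> rw [h] <;> simp

lemma comp_bihom (wt : ι → ℕ × ℕ) (hwt : ∀ i, wt i = (1, 0) ∨ wt i = (0, 1))
    {P : MvPolynomial ι K} {d : ℕ} (hP : P.IsHomogeneous d) {N : ℕ} (hN : N ≤ d) :
    IsWeightedHomogeneous wt (comp wt N P) (N, d - N) := by
  intro s hs
  rw [coeff_comp] at hs
  have h1 : Finsupp.weight (w1 wt) s = N := by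
    by_contra h
    rw [if_neg h] at hs
    exact hs rfl
  rw [if_pos h1] at hs
  have h2 : s.degree = d := by
    have := hP hs
    rw [Finsupp.degree_eq_weight_one]
    exact this
  have h3 := weight_add wt hwt s
  rw [weight_w1] at h1
  apply Prod.ext
  · exact h1
  · show (Finsupp.weight wt s).2 = d - N
    omega

lemma comp_eq_zero (wt : ι → ℕ × ℕ) (hwt : ∀ i, wt i = (1, 0) ∨ wt i = (0, 1))
    {P : MvPolynomial ι K} {d : ℕ} (hP : P.IsHomogeneous d) {N : ℕ} (hN : d < N) :
    comp wt N P = 0 := by
  ext s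
  rw [coeff_comp, coeff_zero]
  by_cases h : Finsupp.weight (w1 wt) s = N
  · rw [if_pos h]
    by_contra hs
    have h2 : s.degree = d := by
      have := hP hs
      rw [Finsupp.degree_eq_weight_one]
      exact this
    have h3 := weight_add wt hwt s
    rw [weight_w1] at h
    omega
  · rw [if_neg h]

lemma comp_smul_sum (wt : ι → ℕ × ℕ) (N : ℕ) {γ : Type*} (s : Finset γ) (c : γ → K)
    (f : γ → MvPolynomial ι K) : comp wt N (∑ x ∈ s, c x • f x) = ∑ x ∈ s, c x • comp wt N (f x) := by
  unfold comp
  rw [map_sum]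
  simp only [map_smul]

lemma comp_self (wt : ι → ℕ × ℕ) {P : MvPolynomial ι K} {N M : ℕ}
    (hP : IsWeightedHomogeneous wt P (N, M)) : comp wt N P = P := by
  ext s
  rw [coeff_comp]
  by_cases hs : coeff s P = 0
  · rw [hs]
    simp
  · rw [if_pos]
    rw [weight_w1, hP hs]

lemma comp_one (wt : ι → ℕ × ℕ) (N : ℕ) :
    comp wt N (1 : MvPolynomial ι K) = if N = 0 then 1 else 0 := by
  classical
  ext s
  rw [coeff_comp, coeff_one]
  by_cases hs : 0 = s
  · subst hs
    rw [map_zero]
    by_cases hN : N = 0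
    · subst hN
      simp
    · rw [if_neg (fun h => hN h.symm), if_neg hN, coeff_zero]
  · rw [if_neg hs]
    by_cases hN : N = 0
    · rw [if_pos hN, coeff_one, if_neg hs]
      simp
    · rw [if_neg hN, coeff_zero]
      simp

end Vale.Agent.P346
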