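import Vale.Agent.P346.Lower

/-!
Dual systems for inclusion matrices, and the weighted rank of one elementary symmetric polynomial.
-/

namespace Vale.Agent.P346

open Finset

variable {α : Type*} [DecidableEq α] [Fintype α] {K : Type*} [Field K]

lemma exists_dual (k t : ℕ) :
    ∃ u φ : Fin (Module.finrank K (spanEq K (univ : Finset α) k t)) → Finset α → K,
      (∀ i S, S.card ≠ t → u i S = 0) ∧
      ∀ i i', ∑ S, ∑ T, u i S * row K univ k S T * φ i' T = if i = i' then 1 else 0 := by
  classical
  set W := spanEq K (univ : Finset α) k t with hW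
  let b := Module.finBasis K W
  let L : (Finset α → K) →ₗ[K] (Finset α → K) :=
    { toFun := fun u => ∑ S, (if S.card = t then u S else 0) • row K univ k S
      map_add' := by
        intro u u'
        rw [← Finset.sum_add_distrib]
        apply Finset.sum_congr rfl
        intro S _
        rw [← add_smul]
        congr 1
        split_ifs <;> simp
      map_smul' := by
        intro c u
        rw [Finset.smul_sum]
        apply Finset.sum_congr rfl
        intro S _
        rw [smul_smul]
        congr 1
        split_ifs <;> simp }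
  have hL : W ≤ LinearMap.range L := by
    rw [hW]
    unfold spanEq
    rw [Submodule.span_le]
    rintro _ ⟨S, _, hS, rfl⟩
    refine ⟨Pi.single S 1, ?_⟩
    show ∑ S', (if S'.card = t then (Pi.single S (1 : K) : Finset α → K) S' else 0)
      • row K univ k S' = row K univ k S
    rw [Finset.sum_eq_single S]
    · rw [if_pos hS, Pi.single_eq_same, one_smul]
    · intro S' _ hne
      rw [Pi.single_eq_of_ne hne, ite_self, zero_smul]
    · intro h
      exact absurd (mem_univ _) h
  choose u' hu' using fun i => hL (b i).2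
  have hext : ∀ i, ∃ g : (Finset α → K) →ₗ[K] K, g ∘ₗ W.subtype = b.coord i :=
    fun i => LinearMap.exists_extend (b.coord i)
  choose g hg using hext
  refine ⟨fun i S => if S.card = t then u' i S else 0, fun i T => g i (Pi.single T 1), ?_, ?_⟩
  · intro i S hS
    exact if_neg hS
  · intro i i'
    rw [Finset.sum_comm]
    have h1 : ∀ T, ∑ S, (if S.card = t then u' i S else 0) * row K univ k S T
        * g i' (Pi.single T 1) = (b i : Finset α → K) T * g i' (Pi.single T 1) := by
      intro T
      rw [← Finset.sum_mul]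
      congr 1
      rw [← hu' i]
      show _ = (∑ S, (if S.card = t then u' i S else 0) • row K univ k S) T
      rw [Finset.sum_apply]
      rfl
    rw [Finset.sum_congr rfl fun T _ => h1 T]
    have h2 : ∑ T, (b i : Finset α → K) T * g i' (Pi.single T 1) = g i' (b i : Finset α → K) := by
      conv_rhs => rw [← Finset.univ_sum_single (b i : Finset α → K)]
      rw [map_sum]
      apply Finset.sum_congr rfl
      intro T _
      rw [← smul_eq_mul, ← map_smul]
      congr 1
      rw [← Pi.single_smul', smul_eq_mul, mul_one]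
    rw [h2]
    have h3 := LinearMap.congr_fun (hg i') (b i)
    rw [LinearMap.comp_apply] at h3
    have h4 : g i' (b i : Finset α → K) = b.coord i' (b i) := h3
    rw [h4, Module.Basis.coord_apply, Module.Basis.repr_self, Finsupp.single_apply]

lemma exists_gadget (p : ℕ) [Fact p.Prime] [CharP K p] {f j t0 : ℕ} (hj : p ^ f ∣ j)
    (ht0 : 2 * t0 + j ≤ Fintype.card α) {ρ : ℝ} (hρ : 0 ≤ ρ) :
    ∃ (J : Type) (_ : Fintype J) (_ : DecidableEq J) (κ : J → ℕ) (u φ : J → Finset α → K),
      (∀ q S, S.card ≠ κ q → u q S = 0) ∧
      (∀ q q', ∑ S, ∑ T, u q S * row K univ (S.card + j) S T * φ q' T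
        = if q = q' then 1 else 0) ∧
      (∀ q, κ q ≤ Fintype.card α) ∧
      (1 - ρ ^ (p ^ f)) * ∑ t ∈ range (t0 + 1), ρ ^ t * ((Fintype.card α).choose t : ℝ)
        ≤ ∑ q, ρ ^ (κ q) := by
  classical
  choose u φ hu hφ using fun t : ℕ => exists_dual (K := K) (α := α) (t + j) t
  let r : ℕ → ℕ := fun t => Module.finrank K (spanEq K (univ : Finset α) (t + j) t)
  refine ⟨Σ t : Fin (t0 + 1), Fin (r t), inferInstance, inferInstance, fun q => q.1,
    fun q => u q.1 q.2, fun q T => if T.card = q.1 + j then φ q.1 q.2 T else 0, ?_, ?_, ?_, ?_⟩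
  · rintro ⟨t, i⟩ S hS
    exact hu t i S hS
  · rintro ⟨t, i⟩ ⟨t', i'⟩
    by_cases htt : t = t'
    · subst htt
      have h1 : ∀ S T, u t i S * row K univ (S.card + j) S T
          * (if T.card = (t : ℕ) + j then φ t i' T else 0)
          = u t i S * row K univ (t + j) S T * φ t i' T := by
        intro S T
        by_cases hS : S.card = t
        · rw [hS]
          by_cases hT : T.card = t + j
          · rw [if_pos hT]
          · have : row K univ (t + j) S T = 0 := by
              unfold row
              rw [if_neg]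
              rintro ⟨h, _⟩
              exact hT (mem_powersetCard.1 h).2
            rw [this]
            simp
        · rw [hu t i S hS]
          simp
      have h2 : ∑ S, ∑ T, u t i S * row K univ (S.card + j) S T
          * (if T.card = (t : ℕ) + j then φ t i' T else 0)
          = ∑ S, ∑ T, u t i S * row K univ (t + j) S T * φ t i' T :=
        Finset.sum_congr rfl fun S _ => Finset.sum_congr rfl fun T _ => h1 S T
      refine h2.trans ((hφ t i i').trans ?_)
      by_cases hii : i = i'
      · subst hii
        simp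
      · rw [if_neg hii, if_neg]
        intro h
        apply hii
        simpa using h
    · rw [if_neg (fun h => htt (congrArg Sigma.fst h))]
      apply Finset.sum_eq_zero
      intro S _
      apply Finset.sum_eq_zero
      intro T _
      show u t i S * row K univ (S.card + j) S T
        * (if T.card = (t' : ℕ) + j then φ t' i' T else 0) = 0
      by_cases hS : S.card = t
      · by_cases hT : T.card = t' + j
        · have : row K univ (S.card + j) S T = 0 := by
            unfold row
            rw [if_neg]
            rintro ⟨h, _⟩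
            have h2 := (mem_powersetCard.1 h).2
            apply htt
            apply Fin.ext
            omega
          rw [this]
          simp
        · rw [if_neg hT, mul_zero]
      · rw [hu t i S hS]
        simp
  · rintro ⟨t, i⟩
    show (t : ℕ) ≤ _
    have := t.2
    omega
  · have h1 : ∑ q : (Σ t : Fin (t0 + 1), Fin (r t)), ρ ^ (q.1 : ℕ)
        = ∑ t ∈ range (t0 + 1), ρ ^ t * (r t : ℝ) := by
      rw [Fintype.sum_sigma, ← Fin.sum_univ_eq_sum_range (fun t => ρ ^ t * (r t : ℝ))]
      apply Finset.sum_congr rfl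
      intro t _
      simp [mul_comm]
    rw [h1]
    have h2 : ∀ t ∈ range (t0 + 1), ρ ^ t * ((Fintype.card α).choose t : ℝ)
        ≤ ρ ^ t * (r t : ℝ) + ρ ^ t *
          ((if p ^ f ≤ t then (Fintype.card α).choose (t - p ^ f) else 0 : ℕ) : ℝ) := by
      intro t ht
      rw [← mul_add]
      apply mul_le_mul_of_nonneg_left _ (pow_nonneg hρ t)
      have ht' := Finset.mem_range.1 ht
      have := le_finrank_spanEq K p (univ : Finset α) hj (t := t) (by rw [card_univ]; omega)
      rw [card_univ] at this
      exact_mod_cast this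
    have h3 := Finset.sum_le_sum h2
    rw [Finset.sum_add_distrib] at h3
    have h4 : ∑ t ∈ range (t0 + 1), ρ ^ t *
          ((if p ^ f ≤ t then (Fintype.card α).choose (t - p ^ f) else 0 : ℕ) : ℝ)
        ≤ ρ ^ (p ^ f) * ∑ t ∈ range (t0 + 1), ρ ^ t * ((Fintype.card α).choose t : ℝ) := by
      have h5 : ∑ t ∈ range (t0 + 1), ρ ^ t *
          ((if p ^ f ≤ t then (Fintype.card α).choose (t - p ^ f) else 0 : ℕ) : ℝ)
          = ∑ t ∈ (range (t0 + 1)).filter (fun t => p ^ f ≤ t), ρ ^ t *
            ((Fintype.card α).choose (t - p ^ f) : ℝ) := by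
        rw [Finset.sum_filter]
        apply Finset.sum_congr rfl
        intro t _
        split_ifs <;> simp
      rw [h5, Finset.mul_sum]
      have h6 : ∑ t ∈ (range (t0 + 1)).filter (fun t => p ^ f ≤ t), ρ ^ t *
            ((Fintype.card α).choose (t - p ^ f) : ℝ)
          = ∑ s ∈ ((range (t0 + 1)).filter (fun t => p ^ f ≤ t)).image (fun t => t - p ^ f),
            ρ ^ (p ^ f) * (ρ ^ s * ((Fintype.card α).choose s : ℝ)) := by
        rw [Finset.sum_image]
        · apply Finset.sum_congr rfl
          intro t ht
          have := (Finset.mem_filter.1 ht).2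
          rw [← mul_assoc, ← pow_add, Nat.add_sub_cancel' this]
        · intro t ht t' ht' h
          have a1 := (Finset.mem_filter.1 ht).2
          have a2 := (Finset.mem_filter.1 ht').2
          simp only at h
          omega
      rw [h6]
      apply Finset.sum_le_sum_of_subset_of_nonneg
      · intro s hs
        obtain ⟨t, ht, rfl⟩ := Finset.mem_image.1 hs
        have := Finset.mem_range.1 (Finset.mem_filter.1 ht).1
        rw [Finset.mem_range]
        omega
      · intro s _ _
        positivity
    linarith

lemma exists_gadget' (p : ℕ) [Fact p.Prime] [CharP K p] {f j t0 : ℕ} (hj : p ^ f ∣ j)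
    (ht0 : 2 * t0 + j ≤ Fintype.card α) {ρ : ℝ} (hρ : 0 ≤ ρ) :
    ∃ (r : ℕ) (κ : Fin r → ℕ) (u φ : Fin r → Finset α → K),
      (∀ q S, S.card ≠ κ q → u q S = 0) ∧
      (∀ q q', ∑ S, ∑ T, u q S * row K univ (S.card + j) S T * φ q' T
        = if q = q' then 1 else 0) ∧
      (∀ q, κ q ≤ Fintype.card α) ∧
      (1 - ρ ^ (p ^ f)) * ∑ t ∈ range (t0 + 1), ρ ^ t * ((Fintype.card α).choose t : ℝ)
        ≤ ∑ q, ρ ^ (κ q) := by
  classical
  obtain ⟨J, i1, i2, κ, u, φ, h1, h2, h3, h4⟩ := exists_gadget (K := K) p hj ht0 hρ
  let e := Fintype.equivFin J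
  refine ⟨Fintype.card J, fun q => κ (e.symm q), fun q => u (e.symm q), fun q => φ (e.symm q),
    fun q S hS => h1 _ S hS, ?_, fun q => h3 _, ?_⟩
  · intro q q'
    rw [h2]
    by_cases h : q = q'
    · subst h; simp
    · rw [if_neg h, if_neg]
      intro h'
      exact h (e.symm.injective h')
  · refine h4.trans (le_of_eq ?_)
    exact (Equiv.sum_comp e.symm fun q => ρ ^ (κ q)).symm

/-- The lower half of the weighted binomial sum. -/
lemma half_sum (v t0 : ℕ) {ρ : ℝ} (hρ : 0 ≤ ρ) (hρ1 : ρ ≤ 1) :
    (1 + ρ) ^ v - 2 ^ v * ρ ^ (t0 + 1) ≤ ∑ t ∈ range (t0 + 1), ρ ^ t * (v.choose t : ℝ) := by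
  have h1 : (1 + ρ) ^ v = ∑ t ∈ range (v + 1), ρ ^ t * (v.choose t : ℝ) := by
    rw [add_comm, add_pow]
    apply Finset.sum_congr rfl
    intro t _
    rw [one_pow, mul_one]
  have h2 : ∑ t ∈ range (v + 1), ρ ^ t * (v.choose t : ℝ)
      ≤ ∑ t ∈ range (t0 + 1), ρ ^ t * (v.choose t : ℝ)
        + ∑ t ∈ range (v + 1), ρ ^ (t0 + 1) * (v.choose t : ℝ) := by
    rw [← Finset.sum_filter_add_sum_filter_not (range (v + 1)) (fun t => t < t0 + 1)]
    apply add_le_add
    · apply Finset.sum_le_sum_of_subset_of_nonneg
      · intro t ht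
        rw [Finset.mem_range]
        exact (Finset.mem_filter.1 ht).2
      · intro t _ _
        positivity
    · calc ∑ t ∈ (range (v + 1)).filter (fun t => ¬ t < t0 + 1), ρ ^ t * (v.choose t : ℝ)
          ≤ ∑ t ∈ (range (v + 1)).filter (fun t => ¬ t < t0 + 1),
              ρ ^ (t0 + 1) * (v.choose t : ℝ) := by
            apply Finset.sum_le_sum
            intro t ht
            apply mul_le_mul_of_nonneg_right _ (Nat.cast_nonneg _)
            apply pow_le_pow_of_le_one hρ hρ1
            have := (Finset.mem_filter.1 ht).2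
            omega
        _ ≤ _ := by
            apply Finset.sum_le_sum_of_subset_of_nonneg (Finset.filter_subset _ _)
            intro t _ _
            positivity
  have h3 : ∑ t ∈ range (v + 1), ρ ^ (t0 + 1) * (v.choose t : ℝ) = 2 ^ v * ρ ^ (t0 + 1) := by
    rw [← Finset.mul_sum]
    have := Nat.sum_range_choose v
    have h4 : ∑ t ∈ range (v + 1), (v.choose t : ℝ) = 2 ^ v := by exact_mod_cast this
    rw [h4, mul_comm]
  rw [h1]
  linarith

end Vale.Agent.P346
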