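import Vale.Agent.P346.Incl

/-!
Upper bound for the number of functions of degree at most `s` on a slice, over any field, and the
rank of inclusion matrices in characteristic `p`.
-/

namespace Vale.Agent.P346

open Finset

variable {α : Type*} [DecidableEq α] [Fintype α]

lemma finrank_spanEq_le (K : Type*) [Field K] (V : Finset α) (k s : ℕ) :
    Module.finrank K (spanEq K V k s) ≤ V.card.choose s := by
  classical
  have h : spanEq K V k s
      = Submodule.span K (((powersetCard s V).image (row K V k) : Finset (Finset α → K)) :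
        Set (Finset α → K)) := by
    unfold spanEq
    congr 1
    ext f
    simp only [Set.mem_ofPred_eq, coe_image, Set.mem_image, mem_coe, mem_powersetCard]
    constructor
    · rintro ⟨S, h1, h2, rfl⟩
      exact ⟨S, ⟨h1, h2⟩, rfl⟩
    · rintro ⟨S, ⟨h1, h2⟩, rfl⟩
      exact ⟨S, h1, h2, rfl⟩
  rw [h, ← card_powersetCard]
  exact (finrank_span_finset_le_card _).trans card_image_le

omit [Fintype α] in
lemma spanLe_rat_eq (V : Finset α) {k s : ℕ} (hs : s ≤ k) :
    spanLe ℚ V k s ≤ spanEq ℚ V k s := by
  unfold spanLe
  rw [Submodule.span_le]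
  rintro _ ⟨S, hS, hSc, rfl⟩
  have h := sum_row ℚ V k s S hSc
  have hne : ((k - S.card).choose (s - S.card) : ℚ) ≠ 0 := by
    have : 0 < (k - S.card).choose (s - S.card) := Nat.choose_pos (by omega)
    exact_mod_cast this.ne'
  have h2 : row ℚ V k S = ((k - S.card).choose (s - S.card) : ℚ)⁻¹ •
      ∑ S' ∈ (powersetCard s V).filter (fun S' => S ⊆ S'), row ℚ V k S' := by
    rw [h, smul_smul, inv_mul_cancel₀ hne, one_smul]
  rw [SetLike.mem_coe, h2]
  apply Submodule.smul_mem
  apply Submodule.sum_mem
  intro S' hS'
  apply Submodule.subset_span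
  have := mem_powersetCard.1 (mem_filter.1 hS').1
  exact ⟨S', this.1, this.2, rfl⟩

/-- Upper bound, over any field. -/
lemma finrank_spanLe_le (K : Type*) [Field K] (V : Finset α) {k s : ℕ} (hs : s ≤ k) :
    Module.finrank K (spanLe K V k s) ≤ V.card.choose s := by
  classical
  set L : Submodule ℤ (Finset α → ℤ) := spanLe ℤ V k s with hL
  obtain ⟨n, b⟩ := Submodule.basisOfPid (Pi.basisFun ℤ (Finset α)) L
  -- the rank of the lattice
  have hn : n ≤ V.card.choose s := by
    let castQ : (Finset α → ℤ) →ₗ[ℤ] (Finset α → ℚ) :=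
      { toFun := fun f T => (f T : ℚ)
        map_add' := by intro f g; funext T; simp
        map_smul' := by intro c f; funext T; simp }
    have hinj : Function.Injective castQ := by
      intro f g h
      funext T
      have h' : ((f T : ℤ) : ℚ) = ((g T : ℤ) : ℚ) := congrFun h T
      exact_mod_cast h'
    have hli : LinearIndependent ℤ (fun i => ((b i : L) : Finset α → ℤ)) :=
      b.linearIndependent.map' L.subtype (Submodule.ker_subtype L)
    have hliQ : LinearIndependent ℤ (fun i => castQ ((b i : L) : Finset α → ℤ)) :=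
      hli.map' castQ (LinearMap.ker_eq_bot.2 hinj)
    have hliQ' : LinearIndependent ℚ (fun i => castQ ((b i : L) : Finset α → ℤ)) :=
      (LinearIndependent.iff_fractionRing ℤ ℚ).1 hliQ
    have hmem : ∀ f ∈ L, castQ f ∈ spanLe ℚ V k s := by
      intro f hf
      rw [hL] at hf
      unfold spanLe at hf
      induction hf using Submodule.span_induction with
      | mem x hx =>
        obtain ⟨S, h1, h2, rfl⟩ := hx
        apply Submodule.subset_span
        refine ⟨S, h1, h2, ?_⟩
        funext T
        show ((row ℤ V k S T : ℤ) : ℚ) = row ℚ V k S T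
        unfold row
        split_ifs <;> simp
      | zero => simp
      | add x y _ _ hx hy => rw [map_add]; exact Submodule.add_mem _ hx hy
      | smul c x _ hx =>
        rw [map_smul]
        have : c • castQ x = (c : ℚ) • castQ x := by
          funext T; simp
        rw [this]
        exact Submodule.smul_mem _ _ hx
    have h1 : n ≤ Module.finrank ℚ (spanEq ℚ V k s) := by
      have h2 : ∀ i, castQ ((b i : L) : Finset α → ℤ) ∈ spanEq ℚ V k s :=
        fun i => spanLe_rat_eq V hs (hmem _ (b i).2)
      have h3 : LinearIndependent ℚ (fun i => (⟨_, h2 i⟩ : spanEq ℚ V k s)) := by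
        apply LinearIndependent.of_comp (spanEq ℚ V k s).subtype
        exact hliQ'
      have := h3.fintype_card_le_finrank
      simpa using this
    exact h1.trans (finrank_spanEq_le ℚ V k s)
  refine le_trans ?_ hn
  let castK : (Finset α → ℤ) →+ (Finset α → K) :=
    { toFun := fun f T => (f T : K)
      map_zero' := by funext T; simp
      map_add' := by intro f g; funext T; simp }
  have hsub : spanLe K V k s ≤ Submodule.span K
      (Set.range (fun i => castK ((b i : L) : Finset α → ℤ))) := by
    unfold spanLe
    rw [Submodule.span_le]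
    rintro _ ⟨S, hS, hSc, rfl⟩
    have hrow : row K V k S = castK (row ℤ V k S) := by
      funext T
      show row K V k S T = ((row ℤ V k S T : ℤ) : K)
      unfold row
      split_ifs <;> simp
    rw [SetLike.mem_coe, hrow]
    have hmem : row ℤ V k S ∈ L := Submodule.subset_span ⟨S, hS, hSc, rfl⟩
    have hexp := b.sum_repr ⟨row ℤ V k S, hmem⟩
    have hexp' : row ℤ V k S
        = ∑ i, (b.repr ⟨row ℤ V k S, hmem⟩ i) • ((b i : L) : Finset α → ℤ) := by
      have h5 := congrArg L.subtype hexp
      rw [map_sum] at h5
      exact h5.symm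
    rw [hexp', map_sum]
    apply Submodule.sum_mem
    intro i _
    have : castK ((b.repr ⟨row ℤ V k S, hmem⟩ i) • ((b i : L) : Finset α → ℤ))
        = ((b.repr ⟨row ℤ V k S, hmem⟩ i : ℤ) : K) • castK ((b i : L) : Finset α → ℤ) := by
      funext T
      show (((b.repr ⟨row ℤ V k S, hmem⟩ i) • ((b i : L) : Finset α → ℤ)) T : K)
        = ((b.repr ⟨row ℤ V k S, hmem⟩ i : ℤ) : K) * ((((b i : L) : Finset α → ℤ) T : ℤ) : K)
      simp
    rw [this]
    exact Submodule.smul_mem _ _ (Submodule.subset_span ⟨i, rfl⟩)
  refine (Submodule.finrank_mono hsub).trans ?_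
  have := finrank_range_le_card (R := K) (fun i : Fin n => castK ((b i : L) : Finset α → ℤ))
  simpa [Set.finrank] using this

/-- A binomial coefficient modulo `p`. -/
lemma choose_cast_eq_one {p : ℕ} [Fact p.Prime] (f : ℕ) :
    ∀ j u : ℕ, p ^ f ∣ j → u < p ^ f → (j + u).choose u ≡ 1 [MOD p] := by
  induction f with
  | zero =>
    intro j u _ hu
    have : u = 0 := by simpa using hu
    subst this
    simp [Nat.ModEq]
  | succ f ih =>
    intro j u hj hu
    have hp : p.Prime := Fact.out
    refine (Choose.choose_modEq_choose_mod_mul_choose_div_nat (p := p)).trans ?_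
    have hpj : p ∣ j := (dvd_pow_self p (Nat.succ_ne_zero f)).trans hj
    obtain ⟨j', rfl⟩ := hpj
    have h1 : (p * j' + u) % p = u % p := by
      rw [add_comm, Nat.add_mul_mod_self_left]
    have h2 : (p * j' + u) / p = j' + u / p := by
      rw [add_comm, Nat.add_mul_div_left _ _ hp.pos, add_comm]
    rw [h1, h2, Nat.choose_self, one_mul]
    apply ih
    · rw [pow_succ'] at hj
      exact Nat.dvd_of_mul_dvd_mul_left hp.pos hj
    · rw [pow_succ'] at hu
      exact Nat.div_lt_of_lt_mul hu

/-- The rank of inclusion matrices modulo `p`. -/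
lemma le_finrank_spanEq (K : Type*) [Field K] (p : ℕ) [Fact p.Prime] [CharP K p] (V : Finset α)
    {f j t : ℕ} (hj : p ^ f ∣ j) (ht : 2 * t + j ≤ V.card) :
    V.card.choose t ≤ Module.finrank K (spanEq K V (t + j) t)
      + (if p ^ f ≤ t then V.card.choose (t - p ^ f) else 0) := by
  have h1 := le_finrank_spanLe K V (t + j) t (by omega) (by omega)
  refine h1.trans ?_
  have hin : ∀ S, S ⊆ V → S.card ≤ t → t < S.card + p ^ f →
      row K V (t + j) S ∈ spanEq K V (t + j) t := by
    intro S hS hSt hSf
    have h := sum_row K V (t + j) t S hSt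
    have hc : ((t + j - S.card).choose (t - S.card) : K) = 1 := by
      have h2 : t + j - S.card = j + (t - S.card) := by omega
      rw [h2]
      have h3 := choose_cast_eq_one (p := p) f j (t - S.card) hj (by omega)
      have h4 := (CharP.natCast_eq_natCast K p).2 h3
      simpa using h4
    rw [hc, one_smul] at h
    rw [← h]
    apply Submodule.sum_mem
    intro S' hS'
    apply Submodule.subset_span
    have := mem_powersetCard.1 (mem_filter.1 hS').1
    exact ⟨S', this.1, this.2, rfl⟩
  by_cases hpt : p ^ f ≤ t
  · rw [if_pos hpt]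
    have h2 : spanLe K V (t + j) t ≤ spanEq K V (t + j) t ⊔ spanLe K V (t + j) (t - p ^ f) := by
      nth_rewrite 1 [spanLe]
      rw [Submodule.span_le]
      rintro _ ⟨S, hS, hSc, rfl⟩
      rcases Nat.lt_or_ge t (S.card + p ^ f) with h | h
      · exact Submodule.mem_sup_left (hin S hS hSc h)
      · exact Submodule.mem_sup_right (Submodule.subset_span ⟨S, hS, by omega, rfl⟩)
    refine (Submodule.finrank_mono h2).trans
      ((Submodule.finrank_add_le_finrank_add_finrank _ _).trans ?_)
    gcongr
    exact finrank_spanLe_le K V (by omega)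
  · rw [if_neg hpt, add_zero]
    apply Submodule.finrank_mono
    nth_rewrite 1 [spanLe]
    rw [Submodule.span_le]
    rintro _ ⟨S, hS, hSc, rfl⟩
    exact hin S hS hSc (by omega)

end Vale.Agent.P346
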