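import Vale.Agent.P346.Alg
import Vale.Agent.P346.InclUpper

/-!
Lower bound for the weighted rank of a product of elementary symmetric polynomials in disjoint sets
of variables.
-/

namespace Vale.Agent.P346

open Finset MvPolynomial

variable {β α : Type*} [DecidableEq β] [Fintype β] [DecidableEq α] [Fintype α]
variable {K : Type*} [Field K]

/-- The set of pairs described by a family of sets. -/
def tot (S : β → Finset α) : Finset (β × α) := univ.filter fun x => x.2 ∈ S x.1

lemma mem_tot (S : β → Finset α) (x : β × α) : x ∈ tot S ↔ x.2 ∈ S x.1 := by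
  unfold tot
  simp

lemma prod_tot {M : Type*} [CommMonoid M] (S : β → Finset α) (f : β × α → M) :
    ∏ x ∈ tot S, f x = ∏ b, ∏ i ∈ S b, f (b, i) := by
  unfold tot
  rw [Finset.prod_filter, Fintype.prod_prod_type]
  apply Finset.prod_congr rfl
  intro b _
  rw [← Finset.prod_filter]
  congr 1
  ext i
  simp

lemma card_tot (S : β → Finset α) : (tot S).card = ∑ b, (S b).card := by
  rw [card_eq_sum_ones]
  unfold tot
  rw [Finset.sum_filter, Fintype.sum_prod_type]
  apply Finset.sum_congr rfl
  intro b _
  rw [← Finset.sum_filter]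
  simp

/-- The product of the elementary symmetric polynomials. -/
noncomputable def hardPoly (K : Type*) [Field K] (α : Type*) [Fintype α] {β : Type*} [Fintype β]
    (jj : β → ℕ) : MvPolynomial (β × α) K :=
  ∏ b, ∑ P ∈ powersetCard (jj b) (univ : Finset α), ∏ i ∈ P, X (b, i)

lemma hardPoly_eq (jj : β → ℕ) : hardPoly K α jj
    = ∑ P ∈ Fintype.piFinset (fun b => powersetCard (jj b) (univ : Finset α)),
      monomial (ind (tot P)) 1 := by
  unfold hardPoly
  rw [Finset.prod_univ_sum]
  apply Finset.sum_congr rfl
  intro P _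
  rw [← prod_X_eq, prod_tot]

lemma hardPoly_homog (jj : β → ℕ) : (hardPoly K α jj).IsHomogeneous (∑ b, jj b) := by
  rw [hardPoly_eq]
  apply IsHomogeneous.sum
  intro P hP
  apply isHomogeneous_monomial
  rw [degree_ind, card_tot]
  apply Finset.sum_congr rfl
  intro b _
  exact (mem_powersetCard.1 (Fintype.mem_piFinset.1 hP b)).2

lemma ind_tot_add (P S T : β → Finset α) :
    ind (tot P) + ind (tot S) = ind (tot T) ↔ ∀ b, S b ⊆ T b ∧ P b = T b \ S b := by
  constructor
  · intro h b
    have h' : ∀ i, ((if i ∈ P b then 1 else 0) + if i ∈ S b then 1 else 0 : ℕ)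
        = if i ∈ T b then 1 else 0 := by
      intro i
      have := DFunLike.congr_fun h (b, i)
      rw [Finsupp.add_apply, ind_apply, ind_apply, ind_apply] at this
      simpa only [mem_tot] using this
    constructor
    · intro i hi
      by_contra hT
      have := h' i
      rw [if_pos hi, if_neg hT] at this
      omega
    · ext i
      have := h' i
      rw [mem_sdiff]
      by_cases h1 : i ∈ P b <;> by_cases h2 : i ∈ S b <;> by_cases h3 : i ∈ T b <;>
        simp [h1, h2, h3] at this ⊢
  · intro h
    ext ⟨b, i⟩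
    rw [Finsupp.add_apply, ind_apply, ind_apply, ind_apply]
    simp only [mem_tot]
    obtain ⟨h1, h2⟩ := h b
    rw [h2]
    by_cases h3 : i ∈ S b
    · have h4 := h1 h3
      simp [h3, h4]
    · by_cases h4 : i ∈ T b <;> simp [h3, h4]

lemma chi_hardPoly_mul (jj : β → ℕ) (S T : β → Finset α) :
    chi (β × α) K (qm (β × α) K (hardPoly K α jj * monomial (ind (tot S)) 1)) (tot T)
      = ∏ b, row K univ ((S b).card + jj b) (S b) (T b) := by
  rw [chi_qm, hardPoly_eq, Finset.sum_mul, coeff_sum]
  have h1 : ∀ P : β → Finset α, coeff (ind (tot T)) ((monomial (ind (tot P)) (1 : K))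
      * monomial (ind (tot S)) 1) = ∏ b, if S b ⊆ T b ∧ P b = T b \ S b then 1 else 0 := by
    intro P
    rw [monomial_mul, mul_one, coeff_monomial, Finset.prod_ite_zero]
    simp only [ind_tot_add, mem_univ, true_imp_iff, Finset.prod_const_one]
  rw [Finset.sum_congr rfl fun P _ => h1 P]
  rw [← Finset.prod_univ_sum (fun b => powersetCard (jj b) (univ : Finset α))
    (fun b P => if S b ⊆ T b ∧ P = T b \ S b then (1 : K) else 0)]
  apply Finset.prod_congr rfl
  intro b _
  unfold row
  by_cases h : S b ⊆ T b
  · simp only [h, true_and, and_true]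
    rw [Finset.sum_ite_eq']
    congr 1
    rw [mem_powersetCard, mem_powersetCard, card_sdiff_of_subset h]
    have := card_le_card h
    simp only [subset_univ, true_and, eq_iff_iff]
    omega
  · simp [h]

theorem wrk_lower (jj : β → ℕ) (J : β → Type) [∀ b, Fintype (J b)] [∀ b, DecidableEq (J b)]
    (κ : ∀ b, J b → ℕ) (u φ : ∀ b, J b → Finset α → K)
    (hu : ∀ b q S, S.card ≠ κ b q → u b q S = 0)
    (hdual : ∀ b q q', ∑ S, ∑ T, u b q S * row K univ (S.card + jj b) S T * φ b q' T
      = if q = q' then 1 else 0)
    (hκ : ∀ b q, κ b q ≤ Fintype.card α) {ρ : ℝ} (hρ : 0 ≤ ρ) :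
    ∏ b, ∑ q, ρ ^ (κ b q)
      ≤ wrk (gr (β × α) K) ρ (Fintype.card (β × α)) (qm (β × α) K (hardPoly K α jj)) := by
  classical
  -- the test elements
  let U : (∀ b, J b) → MvPolynomial (β × α) K := fun q =>
    ∑ S : β → Finset α, (∏ b, u b (q b) (S b)) • monomial (ind (tot S)) 1
  have hU : ∀ q, (U q).IsHomogeneous (∑ b, κ b (q b)) := by
    intro q
    apply IsHomogeneous.sum
    intro S _
    by_cases h : ∀ b, (S b).card = κ b (q b)
    · rw [smul_monomial]
      apply isHomogeneous_monomial
      rw [degree_ind, card_tot]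
      exact Finset.sum_congr rfl fun b _ => h b
    · push Not at h
      obtain ⟨b, hb⟩ := h
      rw [Finset.prod_eq_zero (Finset.mem_univ b) (hu b _ _ hb), zero_smul]
      exact isHomogeneous_zero _ _ _
  let Ψ : (∀ b, J b) → (TA (β × α) K →ₗ[K] K) := fun q' =>
    ∑ T : β → Finset α, (∏ b, φ b (q' b) (T b)) •
      ((LinearMap.proj (tot T) : (Finset (β × α) → K) →ₗ[K] K).comp (chi (β × α) K))
  have hΨ : ∀ q q', Ψ q' (qm (β × α) K (hardPoly K α jj) * qm (β × α) K (U q))
      = if q = q' then 1 else 0 := by
    intro q q'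
    rw [← map_mul]
    show (∑ T : β → Finset α, (∏ b, φ b (q' b) (T b)) •
      ((LinearMap.proj (tot T) : (Finset (β × α) → K) →ₗ[K] K).comp (chi (β × α) K))) _ = _
    rw [LinearMap.sum_apply]
    have h1 : ∀ T : β → Finset α, ((∏ b, φ b (q' b) (T b)) •
        ((LinearMap.proj (tot T) : (Finset (β × α) → K) →ₗ[K] K).comp (chi (β × α) K)))
          (qm (β × α) K (hardPoly K α jj * U q))
        = ∑ S : β → Finset α, ∏ b, (u b (q b) (S b) * row K univ ((S b).card + jj b) (S b) (T b)
            * φ b (q' b) (T b)) := by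
      intro T
      rw [LinearMap.smul_apply, LinearMap.comp_apply, LinearMap.proj_apply, smul_eq_mul]
      show _ * (chi (β × α) K) (qm (β × α) K (hardPoly K α jj * ∑ S : β → Finset α,
        (∏ b, u b (q b) (S b)) • monomial (ind (tot S)) 1)) (tot T) = _
      rw [Finset.mul_sum, map_sum, map_sum, Finset.sum_apply, Finset.mul_sum]
      apply Finset.sum_congr rfl
      intro S _
      rw [mul_smul_comm, map_smul, map_smul, Pi.smul_apply, chi_hardPoly_mul, smul_eq_mul,
        ← Finset.prod_mul_distrib, ← Finset.prod_mul_distrib]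
      apply Finset.prod_congr rfl
      intro b _
      ring
    rw [Finset.sum_congr rfl fun T _ => h1 T, Finset.sum_comm]
    have h2 : ∀ S : β → Finset α, ∑ T : β → Finset α, ∏ b, (u b (q b) (S b)
        * row K univ ((S b).card + jj b) (S b) (T b) * φ b (q' b) (T b))
        = ∏ b, ∑ T, (u b (q b) (S b)
        * row K univ ((S b).card + jj b) (S b) T * φ b (q' b) T) := by
      intro S
      rw [Finset.prod_univ_sum, Fintype.piFinset_univ]
    rw [Finset.sum_congr rfl fun S _ => h2 S]
    have h3 := Finset.prod_univ_sum (fun _ : β => (univ : Finset (Finset α)))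
      (fun b S => ∑ T, (u b (q b) S * row K univ (S.card + jj b) S T * φ b (q' b) T))
    rw [Fintype.piFinset_univ] at h3
    rw [← h3, Finset.prod_congr rfl fun b _ => hdual b (q b) (q' b), Finset.prod_ite_zero]
    simp only [mem_univ, true_imp_iff, Finset.prod_const_one, funext_iff]
  -- counting in each degree
  have hrk : ∀ k, ((univ : Finset (∀ b, J b)).filter fun q => ∑ b, κ b (q b) = k).card
      ≤ rk (gr (β × α) K) (qm (β × α) K (hardPoly K α jj)) k := by
    intro k
    set s := (univ : Finset (∀ b, J b)).filter fun q => ∑ b, κ b (q b) = k with hs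
    have hmem : ∀ q : s, qm (β × α) K (hardPoly K α jj) * qm (β × α) K (U q.1)
        ∈ Submodule.map (LinearMap.mulLeft K (qm (β × α) K (hardPoly K α jj)))
          (gr (β × α) K k) := by
      intro q
      refine ⟨qm (β × α) K (U q.1), ⟨U q.1, ?_, rfl⟩, rfl⟩
      rw [SetLike.mem_coe, mem_homogeneousSubmodule]
      have h1 := hU q.1
      rw [(Finset.mem_filter.1 q.2).2] at h1
      exact h1
    have hli : LinearIndependent K (fun q : s =>
        (⟨_, hmem q⟩ : Submodule.map (LinearMap.mulLeft K (qm (β × α) K (hardPoly K α jj)))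
          (gr (β × α) K k))) := by
      apply LinearIndependent.of_comp (Submodule.subtype _)
      rw [Fintype.linearIndependent_iff]
      intro g hg q'
      have h1 := congrArg (Ψ q'.1) hg
      rw [map_sum, map_zero] at h1
      have h2 : ∀ q : s, Ψ q'.1 (g q • ((Submodule.subtype _ ∘ fun q : s =>
          (⟨_, hmem q⟩ : Submodule.map (LinearMap.mulLeft K (qm (β × α) K (hardPoly K α jj)))
          (gr (β × α) K k))) q)) = if q = q' then g q else 0 := by
        intro q
        rw [map_smul]
        show g q • Ψ q'.1 (qm (β × α) K (hardPoly K α jj) * qm (β × α) K (U q.1)) = _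
        rw [hΨ, smul_eq_mul]
        by_cases h : q = q'
        · rw [if_pos h, if_pos (congrArg Subtype.val h), mul_one]
        · rw [if_neg h, if_neg (fun h' => h (Subtype.ext h')), mul_zero]
      rw [Finset.sum_congr rfl fun q _ => h2 q, Finset.sum_ite_eq' univ q'] at h1
      simpa using h1
    have := hli.fintype_card_le_finrank
    rw [Fintype.card_coe] at this
    exact this
  calc ∏ b, ∑ q, ρ ^ (κ b q)
      = ∑ q : ∀ b, J b, ρ ^ (∑ b, κ b (q b)) := by
        rw [Finset.prod_univ_sum, Fintype.piFinset_univ]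
        apply Finset.sum_congr rfl
        intro q _
        rw [Finset.prod_pow_eq_pow_sum]
    _ = ∑ k ∈ range (Fintype.card (β × α) + 1),
          ∑ q ∈ (univ : Finset (∀ b, J b)).filter (fun q => ∑ b, κ b (q b) = k),
            ρ ^ (∑ b, κ b (q b)) := by
        rw [Finset.sum_fiberwise_of_maps_to]
        intro q _
        rw [Finset.mem_range, Nat.lt_succ_iff, Fintype.card_prod]
        calc ∑ b, κ b (q b) ≤ ∑ _b : β, Fintype.card α :=
              Finset.sum_le_sum fun b _ => hκ b (q b)
          _ = _ := by simp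
    _ ≤ _ := by
        unfold wrk
        apply Finset.sum_le_sum
        intro k _
        have h1 : ∑ q ∈ (univ : Finset (∀ b, J b)).filter (fun q => ∑ b, κ b (q b) = k),
            ρ ^ (∑ b, κ b (q b))
            = ρ ^ k * (((univ : Finset (∀ b, J b)).filter
              (fun q => ∑ b, κ b (q b) = k)).card : ℝ) := by
          rw [Finset.sum_congr rfl fun q hq => by rw [(Finset.mem_filter.1 hq).2],
            Finset.sum_const, nsmul_eq_mul, mul_comm]
        rw [h1]
        apply mul_le_mul_of_nonneg_left _ (pow_nonneg hρ k)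
        exact_mod_cast hrk k

end Vale.Agent.P346
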