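import Vale.Agent.P346.Defs
import Vale.Agent.P346.Lower

/-!
The product of elementary symmetric polynomials is a projection of iterated matrix multiplication.
-/

namespace Vale.Agent.P346

open Finset MvPolynomial

section step

variable {R : Type*} [CommRing R] {v : ℕ}

/-- One step: move from the state `i` to a later state `k + 1`, reading `x k`. -/
def stepM (x : Fin v → R) : Matrix (Fin (v + 1)) (Fin (v + 1)) R :=
  Matrix.of fun i => Fin.cons 0 fun k => if (i : ℕ) ≤ (k : ℕ) then x k else 0

/-- The last step: read a variable and return to the state `0`. -/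
def lastM (x : Fin v → R) : Matrix (Fin (v + 1)) (Fin (v + 1)) R :=
  Matrix.of fun i => Fin.cons (∑ k : Fin v, if (i : ℕ) ≤ (k : ℕ) then x k else 0) fun _ => 0

lemma stepM_zero (x : Fin v → R) (i : Fin (v + 1)) : stepM x i 0 = 0 := rfl

lemma stepM_succ (x : Fin v → R) (i : Fin (v + 1)) (k : Fin v) :
    stepM x i k.succ = if (i : ℕ) ≤ (k : ℕ) then x k else 0 := rfl

lemma lastM_zero (x : Fin v → R) (i : Fin (v + 1)) :
    lastM x i 0 = ∑ k : Fin v, if (i : ℕ) ≤ (k : ℕ) then x k else 0 := rfl

lemma lastM_succ (x : Fin v → R) (i : Fin (v + 1)) (k : Fin v) : lastM x i k.succ = 0 := rfl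

lemma lastM_eq (x : Fin v → R) (i : Fin (v + 1)) : lastM x i 0 = ∑ k, stepM x i k := by
  rw [lastM_zero, Fin.sum_univ_succ, stepM_zero, zero_add]
  rfl

/-- Elementary symmetric polynomials in the variables of index at least `i`. -/
def esy (x : Fin v → R) (j i : ℕ) : R :=
  ∑ P ∈ powersetCard j ((univ : Finset (Fin v)).filter fun k : Fin v => i ≤ (k : ℕ)), ∏ k ∈ P, x k

lemma esy_zero (x : Fin v → R) (i : ℕ) : esy x 0 i = 1 := by
  unfold esy
  simp

lemma filter_ge (i : ℕ) (hi : i < v) :
    ((univ : Finset (Fin v)).filter fun k : Fin v => i ≤ (k : ℕ))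
      = insert ⟨i, hi⟩ ((univ : Finset (Fin v)).filter fun k : Fin v => i + 1 ≤ (k : ℕ)) := by
  ext k
  simp only [mem_filter, mem_univ, true_and, mem_insert, Fin.ext_iff]
  omega

lemma esy_succ (x : Fin v → R) (j i : ℕ) (hi : i < v) :
    esy x (j + 1) i = esy x (j + 1) (i + 1) + x ⟨i, hi⟩ * esy x j (i + 1) := by
  have hni : (⟨i, hi⟩ : Fin v) ∉ ((univ : Finset (Fin v)).filter fun k : Fin v => i + 1 ≤ (k : ℕ)) := by
    simp
  unfold esy
  rw [filter_ge i hi, powersetCard_succ_insert hni, Finset.sum_union]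
  · congr 1
    rw [Finset.sum_image]
    · rw [Finset.mul_sum]
      apply Finset.sum_congr rfl
      intro P hP
      rw [Finset.prod_insert]
      intro h
      exact hni ((mem_powersetCard.1 hP).1 h)
    · intro P hP Q hQ h
      have hP' : (⟨i, hi⟩ : Fin v) ∉ P := fun h => hni ((mem_powersetCard.1 hP).1 h)
      have hQ' : (⟨i, hi⟩ : Fin v) ∉ Q := fun h => hni ((mem_powersetCard.1 hQ).1 h)
      have h' : insert (⟨i, hi⟩ : Fin v) P = insert ⟨i, hi⟩ Q := h
      rw [← erase_insert hP', h', erase_insert hQ']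
  · rw [disjoint_left]
    intro P hP hP'
    obtain ⟨Q, _, rfl⟩ := mem_image.1 hP'
    exact hni ((mem_powersetCard.1 hP).1 (mem_insert_self _ _))

lemma esy_last (x : Fin v → R) (j i : ℕ) (hi : v ≤ i) : esy x (j + 1) i = 0 := by
  unfold esy
  have : ((univ : Finset (Fin v)).filter fun k : Fin v => i ≤ (k : ℕ)) = ∅ := by
    apply Finset.filter_eq_empty_iff.2
    intro k _ h
    have := k.2
    omega
  rw [this, powersetCard_eq_empty.2 (by simp), Finset.sum_empty]

/-- The recursion by the first element. -/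
lemma esy_rec (x : Fin v → R) (j i : ℕ) :
    esy x (j + 1) i = ∑ k : Fin v, if i ≤ (k : ℕ) then x k * esy x j ((k : ℕ) + 1) else 0 := by
  rcases Nat.lt_or_ge v i with h | h
  · rw [esy_last x j i h.le]
    symm
    apply Finset.sum_eq_zero
    intro k _
    rw [if_neg]
    have := k.2
    omega
  · induction h using Nat.decreasingInduction with
    | self =>
      rw [esy_last x j v le_rfl]
      symm
      apply Finset.sum_eq_zero
      intro k _
      rw [if_neg]
      have := k.2
      omega
    | of_succ i hi ih =>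
      rw [esy_succ x j i hi, ih]
      have h1 : ∀ k : Fin v, (if i ≤ (k : ℕ) then x k * esy x j ((k : ℕ) + 1) else 0)
          = (if i + 1 ≤ (k : ℕ) then x k * esy x j ((k : ℕ) + 1) else 0)
            + (if k = ⟨i, hi⟩ then x k * esy x j ((k : ℕ) + 1) else 0) := by
        intro k
        by_cases hk : k = ⟨i, hi⟩
        · subst hk
          simp
        · have hk' : (k : ℕ) ≠ i := fun h => hk (Fin.ext h)
          rw [if_neg hk, add_zero]
          by_cases hk2 : i ≤ (k : ℕ)
          · rw [if_pos hk2, if_pos (by omega)]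
          · rw [if_neg hk2, if_neg (by omega)]
      rw [Finset.sum_congr rfl fun k _ => h1 k, Finset.sum_add_distrib,
        Finset.sum_ite_eq' univ, if_pos (mem_univ _)]

lemma row_sum_pow (x : Fin v → R) (j : ℕ) : ∀ i : Fin (v + 1),
    ∑ k, (stepM x ^ j) i k = esy x j i := by
  induction j with
  | zero =>
    intro i
    rw [pow_zero, esy_zero, Finset.sum_eq_single i]
    · simp
    · intro k _ hk
      exact Matrix.one_apply_ne hk.symm
    · intro h; exact absurd (mem_univ _) h
  | succ j ih =>
    intro i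
    rw [pow_succ']
    simp only [Matrix.mul_apply]
    rw [Finset.sum_comm]
    have h1 : ∀ k : Fin (v + 1), ∑ l, stepM x i k * (stepM x ^ j) k l
        = stepM x i k * esy x j k := by
      intro k
      rw [← Finset.mul_sum, ih k]
    rw [Finset.sum_congr rfl fun k _ => h1 k, Fin.sum_univ_succ, stepM_zero, zero_mul, zero_add,
      esy_rec]
    apply Finset.sum_congr rfl
    intro k _
    rw [stepM_succ, ite_mul, zero_mul, Fin.val_succ]

/-- The list of matrices of one block of length `j + 1`. -/
def blockL (x : Fin v → R) (j : ℕ) : List (Matrix (Fin (v + 1)) (Fin (v + 1)) R) :=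
  List.replicate j (stepM x) ++ [lastM x]

lemma blockL_prod_zero (x : Fin v → R) (j : ℕ) (i : Fin (v + 1)) :
    (blockL x j).prod i 0 = esy x (j + 1) i := by
  unfold blockL
  rw [List.prod_append, List.prod_replicate, List.prod_singleton, Matrix.mul_apply,
    ← row_sum_pow, pow_succ]
  simp only [Matrix.mul_apply]
  rw [Finset.sum_comm]
  apply Finset.sum_congr rfl
  intro k _
  rw [lastM_eq, Finset.mul_sum]

lemma blockL_prod_succ (x : Fin v → R) (j : ℕ) (i : Fin (v + 1)) (k : Fin v) :
    (blockL x j).prod i k.succ = 0 := by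
  unfold blockL
  rw [List.prod_append, List.prod_replicate, List.prod_singleton, Matrix.mul_apply]
  apply Finset.sum_eq_zero
  intro l _
  rw [lastM_succ, mul_zero]

/-- Products of matrices supported on the column `0`. -/
lemma prod_col_zero (L : List (Matrix (Fin (v + 1)) (Fin (v + 1)) R))
    (hL : ∀ M ∈ L, ∀ i (k : Fin v), M i k.succ = 0) :
    L.prod 0 0 = (L.map fun M => M 0 0).prod := by
  induction L with
  | nil => simp
  | cons M L ih =>
    rw [List.prod_cons, List.map_cons, List.prod_cons, Matrix.mul_apply, Fin.sum_univ_succ,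
      ih fun M' hM' => hL M' (List.mem_cons_of_mem _ hM')]
    rw [Finset.sum_eq_zero, add_zero]
    intro k _
    rw [hL M List.mem_cons_self 0 k, zero_mul]

/-- The full list of matrices. -/
def fullL {m : ℕ} (x : Fin m → Fin v → R) (jj : Fin m → ℕ) :
    List (Matrix (Fin (v + 1)) (Fin (v + 1)) R) :=
  (List.ofFn fun b => blockL (x b) (jj b)).flatten

lemma fullL_length {m : ℕ} (x : Fin m → Fin v → R) (jj : Fin m → ℕ) :
    (fullL x jj).length = ∑ b, (jj b + 1) := by
  unfold fullL
  rw [List.length_flatten, List.map_ofFn, List.sum_ofFn]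
  apply Finset.sum_congr rfl
  intro b _
  simp [blockL]

lemma fullL_prod {m : ℕ} (x : Fin m → Fin v → R) (jj : Fin m → ℕ) :
    (fullL x jj).prod 0 0 = ∏ b, esy (x b) (jj b + 1) 0 := by
  unfold fullL
  rw [List.prod_flatten, List.map_ofFn, prod_col_zero, List.map_ofFn, List.prod_ofFn]
  · apply Finset.prod_congr rfl
    intro b _
    exact blockL_prod_zero (x b) (jj b) 0
  · intro M hM i k
    rw [List.mem_ofFn] at hM
    obtain ⟨b, rfl⟩ := hM
    exact blockL_prod_succ (x b) (jj b) i k

end step

/-- Substituting a list of matrices into the iterated matrix multiplication polynomial. -/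
lemma aeval_IMM {K : Type*} [Field K] {v n : ℕ} {ι : Type*}
    (L : List (Matrix (Fin (v + 1)) (Fin (v + 1)) (MvPolynomial ι K))) (hL : L.length = n) :
    aeval (fun x : Fin n × Fin (v + 1) × Fin (v + 1) => L.get (Fin.cast hL.symm x.1) x.2.1 x.2.2)
      (IMM K (v + 1) n) = L.prod 0 0 := by
  subst hL
  unfold IMM
  set φ : MvPolynomial (Fin L.length × Fin (v + 1) × Fin (v + 1)) K →ₐ[K] MvPolynomial ι K :=
    aeval (fun x : Fin L.length × Fin (v + 1) × Fin (v + 1) =>
      L.get (Fin.cast rfl x.1) x.2.1 x.2.2) with hφ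
  have h1 : ∀ M : Matrix (Fin (v + 1)) (Fin (v + 1))
      (MvPolynomial (Fin L.length × Fin (v + 1) × Fin (v + 1)) K), φ (M 0 0)
      = (φ.toRingHom.mapMatrix M) 0 0 := fun M => rfl
  rw [h1, map_list_prod, List.map_ofFn]
  have h2 : List.ofFn (⇑(φ.toRingHom.mapMatrix) ∘ fun t : Fin L.length =>
      (Matrix.of fun i j : Fin (v + 1) =>
        (X (t, i, j) : MvPolynomial (Fin L.length × Fin (v + 1) × Fin (v + 1)) K)))
      = List.ofFn (fun t : Fin L.length => L.get t) := by
    congr 1
    funext t
    refine Matrix.ext fun i j => ?_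
    show φ (X (t, i, j)) = L.get t i j
    rw [hφ, aeval_X]
    rfl
  rw [h2, List.ofFn_get]

lemma stepM_homog {K : Type*} [Field K] {v m : ℕ} (b : Fin m) (i k : Fin (v + 1)) :
    (stepM (fun l : Fin v => (X (b, l) : MvPolynomial (Fin m × Fin v) K)) i k).IsHomogeneous 1 := by
  refine Fin.cases ?_ (fun k => ?_) k
  · rw [stepM_zero]
    exact isHomogeneous_zero _ _ _
  · rw [stepM_succ]
    split_ifs
    · exact isHomogeneous_X _ _
    · exact isHomogeneous_zero _ _ _

lemma lastM_homog {K : Type*} [Field K] {v m : ℕ} (b : Fin m) (i k : Fin (v + 1)) :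
    (lastM (fun l : Fin v => (X (b, l) : MvPolynomial (Fin m × Fin v) K)) i k).IsHomogeneous 1 := by
  refine Fin.cases ?_ (fun k => ?_) k
  · rw [lastM_zero]
    apply IsHomogeneous.sum
    intro l _
    split_ifs
    · exact isHomogeneous_X _ _
    · exact isHomogeneous_zero _ _ _
  · rw [lastM_succ]
    exact isHomogeneous_zero _ _ _

lemma fullL_homog {K : Type*} [Field K] {v m : ℕ} (jj : Fin m → ℕ)
    (M : Matrix (Fin (v + 1)) (Fin (v + 1)) (MvPolynomial (Fin m × Fin v) K))
    (hM : M ∈ fullL (fun (b : Fin m) (l : Fin v) =>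
      (X (b, l) : MvPolynomial (Fin m × Fin v) K)) jj) (i k : Fin (v + 1)) :
    (M i k).IsHomogeneous 1 := by
  unfold fullL at hM
  rw [List.mem_flatten] at hM
  obtain ⟨l, hl, hM⟩ := hM
  rw [List.mem_ofFn] at hl
  obtain ⟨b, rfl⟩ := hl
  unfold blockL at hM
  rw [List.mem_append, List.mem_replicate, List.mem_singleton] at hM
  rcases hM with ⟨_, rfl⟩ | rfl
  · exact stepM_homog b i k
  · exact lastM_homog b i k

/-- The product of elementary symmetric polynomials is the image of `IMM` under a homogeneous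
linear substitution. -/
theorem exists_projection (K : Type*) [Field K] {v n m : ℕ} (jj : Fin m → ℕ)
    (hjj : ∀ b, 0 < jj b) (hn : ∑ b, jj b = n) :
    ∃ φ : MvPolynomial (Fin n × Fin (v + 1) × Fin (v + 1)) K →ₐ[K] MvPolynomial (Fin m × Fin v) K,
      (∀ x, (φ (X x)).IsHomogeneous 1) ∧ φ (IMM K (v + 1) n) = hardPoly K (Fin v) jj := by
  set x : Fin m → Fin v → MvPolynomial (Fin m × Fin v) K := fun b l => X (b, l) with hx
  have hlen : (fullL x fun b => jj b - 1).length = n := by
    rw [fullL_length, ← hn]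
    apply Finset.sum_congr rfl
    intro b _
    have := hjj b
    omega
  refine ⟨aeval (fun y : Fin n × Fin (v + 1) × Fin (v + 1) =>
    (fullL x fun b => jj b - 1).get (Fin.cast hlen.symm y.1) y.2.1 y.2.2), ?_, ?_⟩
  · rintro ⟨t, i, k⟩
    rw [aeval_X]
    exact fullL_homog _ _ (List.get_mem _ _) i k
  · rw [aeval_IMM _ hlen, fullL_prod]
    unfold hardPoly
    apply Finset.prod_congr rfl
    intro b _
    have h1 : jj b - 1 + 1 = jj b := by
      have := hjj b
      omega
    rw [h1]
    unfold esy
    simp [hx]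

end Vale.Agent.P346
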