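import Vale.Agent.P346.Circ
import Vale.Agent.P346.Gadget
import Vale.Agent.P346.Proj

/-!
The core inequality.
-/

namespace Vale.Agent.P346

open Finset MvPolynomial

lemma wrk_one_le (ι : Type*) [DecidableEq ι] [Fintype ι] (K : Type*) [Field K] {ρ : ℝ}
    (hρ : 0 ≤ ρ) : wrk (gr ι K) ρ (Fintype.card ι) 1 ≤ (1 + ρ) ^ (Fintype.card ι) := by
  have h1 : (1 + ρ) ^ (Fintype.card ι)
      = ∑ t ∈ range (Fintype.card ι + 1), ρ ^ t * ((Fintype.card ι).choose t : ℝ) := by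
    rw [add_comm, add_pow]
    apply Finset.sum_congr rfl
    intro t _
    rw [one_pow, mul_one]
  rw [h1]
  unfold wrk
  apply Finset.sum_le_sum
  intro k _
  apply mul_le_mul_of_nonneg_left _ (pow_nonneg hρ k)
  have : rk (gr ι K) (1 : TA ι K) k = Module.finrank K (gr ι K k) := by
    unfold rk
    rw [LinearMap.mulLeft_one, Submodule.map_id]
  rw [this]
  exact_mod_cast finrank_gr_le k

theorem core {K : Type*} [Field K] (p : ℕ) [Fact p.Prime] [CharP K p] {v f : ℕ}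
    (hq : p ^ f ≤ v) {ρ δ : ℝ} (hρ0 : 0 < ρ) (hρ1 : ρ ≤ 1)
    (hδ : ∀ j, j ≤ p ^ f → 2 ^ v * ρ ^ ((v - j) / 2 + 1) ≤ δ * (1 + ρ) ^ v)
    {a m : ℕ} (ha : 0 < a) (ham : m * a ≤ v + 1)
    (C : Circuit (Fin (v + 1) × Fin (v + 1) × Fin (v + 1)) K) (hC : C.IsHomogeneous)
    (hval : C.val = IMM K (v + 1) (v + 1)) (hpos : ρ < 1) (hδ2 : δ < 1) :
    ((1 - ρ ^ (p ^ f)) * (1 - δ)) ^ (v / p ^ f) * ((1 - ρ) * (1 - δ))
      ≤ C.n4 * (1 - ρ ^ ((p - 1) * a) / p) ^ m
        + C.n4 * (C.n2 * (1 - ρ ^ (p - 1) / p) ^ a) := by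
  classical
  have hp : 0 < p := (Fact.out : p.Prime).pos
  have hqpos : 0 < p ^ f := Nat.pow_pos hp
  set M := v / p ^ f with hM
  set jj : Fin (M + 1) → ℕ := fun b => if b = Fin.last M then v % p ^ f + 1 else p ^ f with hjj
  set ff : Fin (M + 1) → ℕ := fun b => if b = Fin.last M then 0 else f with hff
  have hjle : ∀ b, jj b ≤ p ^ f := by
    intro b
    simp only [hjj]
    split_ifs
    · exact Nat.mod_lt _ hqpos
    · exact le_rfl
  have hjpos : ∀ b, 0 < jj b := by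
    intro b
    simp only [hjj]
    split_ifs
    · exact Nat.succ_pos _
    · exact hqpos
  have hsum : ∑ b, jj b = v + 1 := by
    rw [Fin.sum_univ_castSucc]
    have h1 : ∀ b : Fin M, jj b.castSucc = p ^ f := by
      intro b
      simp only [hjj]
      rw [if_neg]
      exact (Fin.castSucc_lt_last b).ne
    have h2 : jj (Fin.last M) = v % p ^ f + 1 := by
      simp [hjj]
    rw [Finset.sum_congr rfl fun b _ => h1 b, h2, Finset.sum_const, card_univ, Fintype.card_fin,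
      smul_eq_mul, hM, ← add_assoc, Nat.div_add_mod']
  obtain ⟨φ, hφ1, hφ2⟩ := exists_projection K (v := v) jj hjpos hsum
  have hdvd : ∀ b, p ^ (ff b) ∣ jj b := by
    intro b
    simp only [hjj, hff]
    split_ifs
    · simp
    · exact dvd_rfl
  have ht0 : ∀ b, 2 * ((v - jj b) / 2) + jj b ≤ Fintype.card (Fin v) := by
    intro b
    rw [Fintype.card_fin]
    have := hjle b
    omega
  choose r κ u ψ g1 g2 g3 g4 using fun b => exists_gadget' (α := Fin v) (K := K) p (hdvd b)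
    (ht0 b) hρ0.le
  have hlow := wrk_lower (K := K) (α := Fin v) jj (fun b => Fin (r b)) κ u ψ g1 g2 g3 hρ0.le
  -- each factor
  have hfac : ∀ b, (1 - ρ ^ (p ^ (ff b))) * ((1 - δ) * (1 + ρ) ^ v) ≤ ∑ q, ρ ^ (κ b q) := by
    intro b
    refine le_trans ?_ (g4 b)
    have h1 : 0 ≤ 1 - ρ ^ (p ^ (ff b)) := by
      have := pow_le_one₀ (n := p ^ (ff b)) hρ0.le hρ1
      linarith
    apply mul_le_mul_of_nonneg_left _ h1
    rw [Fintype.card_fin]
    have h2 := half_sum v ((v - jj b) / 2) hρ0.le hρ1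
    have h3 := hδ (jj b) (hjle b)
    nlinarith
  have hfac0 : ∀ b, 0 < (1 - ρ ^ (p ^ (ff b))) * ((1 - δ) * (1 + ρ) ^ v) := by
    intro b
    have h1 : ρ ^ (p ^ (ff b)) < 1 := pow_lt_one₀ hρ0.le hpos (Nat.pow_pos hp).ne'
    have h2 : 0 < (1 + ρ) ^ v := by positivity
    apply mul_pos (by linarith)
    exact mul_pos (by linarith) h2
  have hprod : ∏ b : Fin (M + 1), ((1 - ρ ^ (p ^ (ff b))) * ((1 - δ) * (1 + ρ) ^ v))
      ≤ wrk (gr (Fin (M + 1) × Fin v) K) ρ (Fintype.card (Fin (M + 1) × Fin v))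
        (qm (Fin (M + 1) × Fin v) K (hardPoly K (Fin v) jj)) := by
    refine le_trans ?_ hlow
    apply Finset.prod_le_prod
    · intro b _
      exact (hfac0 b).le
    · intro b _
      exact hfac b
  have hprodpos : 0 < ∏ b : Fin (M + 1), ((1 - ρ ^ (p ^ (ff b))) * ((1 - δ) * (1 + ρ) ^ v)) :=
    Finset.prod_pos fun b _ => hfac0 b
  have hne : φ C.val ≠ 0 := by
    intro h0
    rw [hval, hφ2] at h0
    rw [h0, map_zero, wrk_zero] at hprod
    linarith
  have hhom : (φ C.val).IsHomogeneous (v + 1) := by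
    rw [hval, hφ2, ← hsum]
    exact hardPoly_homog jj
  have hup := circuit_upper (ι := Fin (M + 1) × Fin v) p hρ0.le hρ1 C hC φ hφ1 hhom hne ham ha
  rw [hval, hφ2] at hup
  have h1 := wrk_one_le (Fin (M + 1) × Fin v) K hρ0.le
  have hp' : (1 : ℝ) ≤ p := by exact_mod_cast hp
  have hc : ∀ D, 0 ≤ 1 - ρ ^ D / p := by
    intro D
    rw [sub_nonneg, div_le_one (by linarith)]
    exact (pow_le_one₀ hρ0.le hρ1).trans hp'
  have hX : 0 ≤ (C.n4 : ℝ) * (1 - ρ ^ ((p - 1) * a) / p) ^ m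
        + C.n4 * (C.n2 * (1 - ρ ^ (p - 1) / p) ^ a) := by
    have e1 := pow_nonneg (hc ((p - 1) * a)) m
    have e2 := pow_nonneg (hc (p - 1)) a
    positivity
  have h2 := hprod.trans (hup.trans (mul_le_mul_of_nonneg_left h1 hX))
  have h3 : ∏ b : Fin (M + 1), ((1 - ρ ^ (p ^ (ff b))) * ((1 - δ) * (1 + ρ) ^ v))
      = (((1 - ρ ^ (p ^ f)) * (1 - δ)) ^ M * ((1 - ρ) * (1 - δ))) * (1 + ρ) ^ (v * (M + 1)) := by
    rw [Fin.prod_univ_castSucc]
    have e1 : ∀ b : Fin M, ff b.castSucc = f := by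
      intro b
      simp only [hff]
      rw [if_neg]
      exact (Fin.castSucc_lt_last b).ne
    have e2 : ff (Fin.last M) = 0 := by
      simp [hff]
    rw [Finset.prod_congr rfl fun b _ => by rw [e1 b], e2, Finset.prod_const, card_univ,
      Fintype.card_fin, pow_zero, pow_one, pow_mul, pow_succ]
    rw [mul_pow, mul_pow, mul_pow]
    ring
  rw [h3, Fintype.card_prod, Fintype.card_fin, Fintype.card_fin, mul_comm (M + 1) v] at h2
  have h4 : 0 < (1 + ρ) ^ (v * (M + 1)) := by positivity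
  exact le_of_mul_le_mul_right h2 h4

end Vale.Agent.P346
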