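import Mathlib

/-!
# Numerical estimates for P346 (characteristic zero)

`recur_bound` solves the linear recursion of the transfer inequalities and `final_numeric`
extracts the lower bound on the size.
-/

namespace Vale.Agent.P346

private lemma step_E1 {u D g E I J E1 i j : ℝ}
    (hu : 0 < u) (hD : 1000 ≤ D) (huD : u * D ≤ 1 / 1000) (hg1 : 1 ≤ g) (hg2 : g ≤ 2)
    (hi : 0 ≤ i) (hj : 0 ≤ j)
    (hE : E ≤ 2 * (i + j)) (hI : I ≤ i) (hJ : J ≤ j)
    (h1 : E1 ≤ (1 + g * D) * u * E + I + g * D * J) :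
    E1 ≤ (1 + 1 / 100) * i + (g * D + 1 / 100) * j := by
  have hD0 : 0 < D := by linarith
  have hDu : 0 < u * D := by positivity
  have hu2 : u ≤ 1 / 1000 := by nlinarith
  have hgDu : (1 + g * D) * u ≤ 1 / 300 := by
    have h2 : g * (u * D) ≤ 2 * (1 / 1000) := mul_le_mul hg2 huD hDu.le (by norm_num)
    have h3 : (1 + g * D) * u = u + g * (u * D) := by ring
    rw [h3]; linarith
  have hE1a : (1 + g * D) * u * E ≤ (1 + g * D) * u * (2 * (i + j)) := by
    apply mul_le_mul_of_nonneg_left hE; positivity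
  have hE1b : (1 + g * D) * u * (2 * (i + j)) ≤ 1 / 300 * (2 * (i + j)) := by
    apply mul_le_mul_of_nonneg_right hgDu; positivity
  have hE1c : g * D * J ≤ g * D * j := by
    apply mul_le_mul_of_nonneg_left hJ; positivity
  linarith

/-- One step of the recursion, for the upper bounds `i` and `j`. -/
private lemma step_bound {u D g E I J E1 I1 J1 E' I' J' i j : ℝ}
    (hu : 0 < u) (hD : 1000 ≤ D) (huD : u * D ≤ 1 / 1000) (hg1 : 1 ≤ g) (hg2 : g ≤ 2)
    (hi : 0 ≤ i) (hj : 0 ≤ j)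
    (hE : E ≤ 2 * (i + j)) (hI : I ≤ i) (hJ : J ≤ j)
    (h1 : E1 ≤ (1 + g * D) * u * E + I + g * D * J)
    (h2 : I1 ≤ E * u + I)
    (h3 : J1 ≤ g * D * (E * u + J))
    (h4 : E' ≤ (1 + 1 / D) * u * E1 + I1 + J1 / D)
    (h5 : I' ≤ E1 * u + I1)
    (h6 : J' ≤ 1 / D * (E1 * u + J1)) :
    I' ≤ (1 + 5 * u) * i + 2 * (g * D * u) * j ∧
    J' ≤ g * (1 + 4 * u) * j + 3 * g * u * i ∧
    E' ≤ 2 * (((1 + 5 * u) * i + 2 * (g * D * u) * j) + (g * (1 + 4 * u) * j + 3 * g * u * i)) := by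
  have hD0 : 0 < D := by linarith
  have hE1 := step_E1 hu hD huD hg1 hg2 hi hj hE hI hJ h1
  have hEu : E * u ≤ 2 * (i + j) * u := mul_le_mul_of_nonneg_right hE hu.le
  have hI1 : I1 ≤ i + 2 * (u * i) + 2 * (u * j) := by linarith
  have hJ1 : J1 / D ≤ g * j + 2 * (g * (u * j)) + 2 * (g * (u * i)) := by
    rw [div_le_iff₀ hD0]
    have h7 : g * D * (E * u + J) ≤ g * D * (2 * (i + j) * u + j) := by
      apply mul_le_mul_of_nonneg_left _ (by positivity)
      linarith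
    linarith
  have hE1u : E1 * u ≤ ((1 + 1 / 100) * i + (g * D + 1 / 100) * j) * u :=
    mul_le_mul_of_nonneg_right hE1 hu.le
  have hui : 0 ≤ u * i := by positivity
  have huj : 0 ≤ u * j := by positivity
  have hgD : 1000 ≤ g * D := by
    have := mul_le_mul_of_nonneg_right hg1 hD0.le
    linarith
  have huDj : 1000 * (u * j) ≤ g * D * (u * j) := mul_le_mul_of_nonneg_right hgD huj
  have hgui : u * i ≤ g * (u * i) := by
    have := mul_le_mul_of_nonneg_right hg1 hui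
    linarith
  have hguj : u * j ≤ g * (u * j) := by
    have := mul_le_mul_of_nonneg_right hg1 huj
    linarith
  have hI' : I' ≤ (1 + 5 * u) * i + 2 * (g * D * u) * j := by linarith
  have hE1uD : 1 / D * (E1 * u) ≤ g * (2 * (u * j)) + u * i := by
    rw [div_mul_eq_mul_div, one_mul, div_le_iff₀ hD0]
    have e1 : u * i * 1000 ≤ u * i * D := mul_le_mul_of_nonneg_left hD hui
    linarith
  have hJ' : J' ≤ g * (1 + 4 * u) * j + 3 * g * u * i := by
    have e0 : 1 / D * (E1 * u + J1) = 1 / D * (E1 * u) + J1 / D := by ring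
    rw [e0] at h6
    linarith
  refine ⟨hI', hJ', ?_⟩
  have e4 : (1 + 1 / D) ≤ 2 := by
    have : 1 / D ≤ 1 := by
      rw [div_le_one hD0]; linarith
    linarith
  have e6 : 0 ≤ ((1 + 1 / 100) * i + (g * D + 1 / 100) * j) * u := by positivity
  have e3 : (1 + 1 / D) * u * E1 ≤ 2 * (((1 + 1 / 100) * i + (g * D + 1 / 100) * j) * u) := by
    have e5 : (1 + 1 / D) * u * E1 = (1 + 1 / D) * (E1 * u) := by ring
    rw [e5]
    calc (1 + 1 / D) * (E1 * u)
        ≤ (1 + 1 / D) * (((1 + 1 / 100) * i + (g * D + 1 / 100) * j) * u) := by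
          apply mul_le_mul_of_nonneg_left hE1u; positivity
      _ ≤ _ := mul_le_mul_of_nonneg_right e4 e6
  have hu2 : u ≤ 1 / 1000 := by
    have := mul_le_mul_of_nonneg_left hD hu.le
    linarith
  have e10 : u * j ≤ 1 / 1000 * j := mul_le_mul_of_nonneg_right hu2 hj
  have e11 : u * i ≤ 1 / 1000 * i := mul_le_mul_of_nonneg_right hu2 hi
  have e7 : j ≤ g * j := by
    have := mul_le_mul_of_nonneg_right hg1 hj
    linarith
  have e8 : 0 ≤ g * (u * j) := by positivity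
  have e9 : 0 ≤ g * (u * i) := by positivity
  linarith

private lemma consts {y u D g : ℝ} (hy : 100 ≤ y) (hu : u = 1 / y^10) (hD : D = y^6)
    (hg1 : 1 + 1/y^5 ≤ g) :
    0 < y ∧ 0 < u ∧ 1000 ≤ D ∧ u * D = 1 / y^4 ∧ u * D ≤ 1 / 1000 ∧ 1 < g ∧
    u ≤ 1 / y^5 * (1 / 1000) ∧ u * y ≤ 1 / y^5 * (1 / 1000) ∧ (D * u) / (g - 1) ≤ y := by
  have hy0 : 0 < y := by linarith
  have hy5' : (100:ℝ)^5 ≤ y^5 := pow_le_pow_left₀ (by norm_num) hy 5
  have hy4' : (100:ℝ)^4 ≤ y^4 := pow_le_pow_left₀ (by norm_num) hy 4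
  have hy6' : (100:ℝ)^6 ≤ y^6 := pow_le_pow_left₀ (by norm_num) hy 6
  have h5 : 0 < 1 / y^5 := by positivity
  have h4 : 1 / y^4 ≤ 1 / 1000 := by
    apply one_div_le_one_div_of_le (by norm_num)
    linarith
  have huD : u * D = 1 / y^4 := by
    rw [hu, hD]; field_simp
  have hu0 : 0 < u := by rw [hu]; positivity
  have huy : u * y = 1 / y^5 * (1 / y^4) := by rw [hu]; field_simp
  have huy' : u * y ≤ 1 / y^5 * (1 / 1000) := by
    rw [huy]
    exact mul_le_mul_of_nonneg_left h4 h5.le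
  refine ⟨hy0, hu0, by rw [hD]; linarith, huD, by rw [huD]; exact h4, by linarith, ?_, huy', ?_⟩
  · have : u * 1 ≤ u * y := mul_le_mul_of_nonneg_left (by linarith) hu0.le
    linarith
  · have hgm0 : 0 < g - 1 := by linarith
    rw [div_le_iff₀ hgm0, mul_comm D u, huD]
    calc 1 / y^4 = y * (1 / y^5) := by field_simp
      _ ≤ y * (g - 1) := mul_le_mul_of_nonneg_left (by linarith) hy0.le

private lemma matrix_ineq {y u D g μ m G V T R : ℝ} (hy : 100 ≤ y) (hu : u = 1 / y^10)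
    (hD : D = y^6) (hg1 : 1 + 1/y^5 ≤ g) (hg2 : g ≤ 2)
    (hm : m = 1 + 5 * u) (hμ : μ = 1 / y^5 * (1 / 20)) (hG : G = g * (1 + μ))
    (hV : V = 6 * g * u / (g - 1)) (hT : T = V + 1 / D) (hR : R = 2 * (g * D * u) * T / (g - 1)) :
    0 < V ∧ 0 < T ∧ 0 < R ∧ m * R + 2 * (g * D * u) * T ≤ R * G ∧
    3 * g * u ≤ V * (g * (1 + 4 * u) - (1 + 5 * u)) ∧
    g * (1 + 4 * u) * T + 3 * g * u * R ≤ T * G := by
  obtain ⟨hy0, hu0, hD1000, huD, huD', hg1', hu5, huy, hDug⟩ := consts hy hu hD hg1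
  have hD0 : 0 < D := by linarith
  have h5 : 0 < 1 / y^5 := by positivity
  have hgm0 : 0 < g - 1 := by linarith
  have hV0 : 0 < V := by rw [hV]; positivity
  have hT0 : 0 < T := by rw [hT]; positivity
  have hR0 : 0 < R := by rw [hR]; positivity
  have hμ0 : 0 < μ := by rw [hμ]; positivity
  have huμ : 5 * u ≤ μ := by rw [hμ]; linarith
  have hgμ : μ ≤ g * μ := by
    have := mul_le_mul_of_nonneg_right hg1'.le hμ0.le
    linarith
  have hGm : g - 1 ≤ G - m := by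
    rw [hG, hm]; linarith
  have hRgm : R * (g - 1) = 2 * (g * D * u) * T := by
    rw [hR]; field_simp
  have hVgm : V * (g - 1) = 6 * g * u := by
    rw [hV]; field_simp
  refine ⟨hV0, hT0, hR0, ?_, ?_, ?_⟩
  · have := mul_le_mul_of_nonneg_left hGm hR0.le
    linarith
  · have e0 : u ≤ g * u := by
      have := mul_le_mul_of_nonneg_right hg1'.le hu0.le
      linarith
    have e2 : (g - 1) / 2 ≤ g * (1 + 4 * u) - (1 + 5 * u) := by linarith
    have e3 := mul_le_mul_of_nonneg_left e2 hV0.le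
    linarith
  · have e0 : R = T * (2 * g * ((D * u) / (g - 1))) := by
      rw [hR]; ring
    have e3 : 0 ≤ (D * u) / (g - 1) := by positivity
    have e2 : 2 * g * ((D * u) / (g - 1)) ≤ 4 * y :=
      (mul_le_mul (by linarith : 2 * g ≤ 4) hDug e3 (by norm_num))
    have e8 : u * (2 * g * ((D * u) / (g - 1))) ≤ u * (4 * y) :=
      mul_le_mul_of_nonneg_left e2 hu0.le
    have e7 : 4 * u + 3 * (u * (2 * g * ((D * u) / (g - 1)))) ≤ μ := by
      rw [hμ]; linarith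
    have e11 := mul_le_mul_of_nonneg_left e7 (mul_pos (by linarith : 0 < g) hT0).le
    calc g * (1 + 4 * u) * T + 3 * g * u * R
        = g * T + g * T * (4 * u + 3 * (u * (2 * g * ((D * u) / (g - 1))))) := by
          rw [e0]; ring
      _ ≤ g * T + g * T * μ := by linarith
      _ = T * G := by rw [hG]; ring

private lemma closed_step {u D g m G V T R a b : ℝ} (hg : 0 ≤ g) (hu : 0 ≤ u) (hD : 0 ≤ D)
    (hm : m = 1 + 5 * u) (hV : 0 ≤ V)
    (hRG : m * R + 2 * (g * D * u) * T ≤ R * G)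
    (hVm : 3 * g * u ≤ V * (g * (1 + 4 * u) - (1 + 5 * u)))
    (hTG : g * (1 + 4 * u) * T + 3 * g * u * R ≤ T * G) (ha : 0 ≤ a) (hb : 0 ≤ b) :
    (1 + 5 * u) * (a + R * b) + 2 * (g * D * u) * (T * b - V * a) ≤ a * m + R * (b * G) ∧
    g * (1 + 4 * u) * (T * b - V * a) + 3 * g * u * (a + R * b) ≤ T * (b * G) - V * (a * m) := by
  have e1 := mul_le_mul_of_nonneg_right hRG hb
  have e2 : 0 ≤ 2 * (g * D * u) * (V * a) := by positivity
  have e3 := mul_le_mul_of_nonneg_right hTG hb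
  have e4 := mul_le_mul_of_nonneg_right hVm ha
  constructor
  · calc (1 + 5 * u) * (a + R * b) + 2 * (g * D * u) * (T * b - V * a)
        = a * m + (m * R + 2 * (g * D * u) * T) * b - 2 * (g * D * u) * (V * a) := by
          rw [hm]; ring
      _ ≤ a * m + R * G * b := by linarith
      _ = _ := by ring
  · calc g * (1 + 4 * u) * (T * b - V * a) + 3 * g * u * (a + R * b)
        = (g * (1 + 4 * u) * T + 3 * g * u * R) * b + 3 * g * u * a
          - V * (g * (1 + 4 * u) - (1 + 5 * u)) * a - V * (a * m) := by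
          rw [hm]; ring
      _ ≤ T * G * b - V * (a * m) := by linarith
      _ = _ := by ring

private lemma exp_half_le : Real.exp (1/2) ≤ 2 := by
  have e3 := Real.add_one_le_exp (-(1/2:ℝ))
  rw [Real.exp_neg] at e3
  have e4 : (1/2:ℝ) ≤ (Real.exp (1/2))⁻¹ := by linarith
  rw [le_inv_comm₀ (by norm_num) (Real.exp_pos _)] at e4
  simpa using e4

private lemma one_add_pow_le {q : ℕ} {x : ℝ} (hx : 0 ≤ x) (hqx : (q:ℝ) * x ≤ 1 / 2) :
    (1 + x)^q ≤ 2 := by
  have e1 : (1 + x)^q ≤ Real.exp (1/2) := by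
    calc (1 + x)^q ≤ (Real.exp x)^q := by
          apply pow_le_pow_left₀ (by linarith)
          have := Real.add_one_le_exp x
          linarith
      _ = Real.exp (q * x) := by rw [← Real.exp_nat_mul]
      _ ≤ Real.exp (1/2) := Real.exp_le_exp.mpr hqx
  exact e1.trans exp_half_le

private lemma final_bound {y u D g μ m G V T R e : ℝ} {q : ℕ} (hy : 100 ≤ y) (hu : u = 1 / y^10)
    (hD : D = y^6) (hg1 : 1 + 1/y^5 ≤ g) (hg2 : g ≤ 2) (hgq : g^q ≤ 2*D)
    (hq : (q:ℝ) ≤ 10*y^5)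
    (hm : m = 1 + 5 * u) (hμ : μ = 1 / y^5 * (1 / 20)) (hG : G = g * (1 + μ))
    (hV : V = 6 * g * u / (g - 1)) (hT : T = V + 1 / D) (hR : R = 2 * (g * D * u) * T / (g - 1))
    (he : e ≤ 2 * ((m^q + R * G^q) + (T * G^q - V * m^q))) :
    e ≤ 1000 * y^2 := by
  obtain ⟨hy0, hu0, hD1000, huD, huD', hg1', hu5, huy, hDug⟩ := consts hy hu hD hg1
  have hD0 : 0 < D := by linarith
  have h5 : 0 < 1 / y^5 := by positivity
  have hy5 : 0 < y^5 := by positivity
  have hgm0 : 0 < g - 1 := by linarith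
  have hV0 : 0 < V := by rw [hV]; positivity
  have hT0 : 0 < T := by rw [hT]; positivity
  have hR0 : 0 < R := by rw [hR]; positivity
  have hμ0 : 0 < μ := by rw [hμ]; positivity
  have hmq : m^q ≤ 2 := by
    rw [hm]
    apply one_add_pow_le (by positivity)
    have e1 : (q:ℝ) * (5 * u) ≤ 10 * y^5 * (5 * u) :=
      mul_le_mul_of_nonneg_right hq (by positivity)
    have e2 : y^5 * u ≤ y^5 * (1 / y^5 * (1 / 1000)) := mul_le_mul_of_nonneg_left hu5 hy5.le
    have e3 : y^5 * (1 / y^5 * (1 / 1000)) = 1 / 1000 := by field_simp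
    linarith
  have hGq : G^q ≤ 4 * D := by
    rw [hG, mul_pow]
    have e1 : (1 + μ)^q ≤ 2 := by
      apply one_add_pow_le hμ0.le
      have e1 : (q:ℝ) * μ ≤ 10 * y^5 * μ := mul_le_mul_of_nonneg_right hq hμ0.le
      have e2 : y^5 * μ = 1 / 20 := by
        rw [hμ]; field_simp
      linarith
    have e3 : 0 < (1 + μ)^q := by positivity
    calc g^q * (1 + μ)^q ≤ (2 * D) * 2 := mul_le_mul hgq e1 e3.le (by positivity)
      _ = 4 * D := by ring
  have hDT : D * T ≤ 12 * y + 1 := by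
    have e1 : D * V = 6 * g * ((D * u) / (g - 1)) := by rw [hV]; ring
    have e3 : 0 ≤ (D * u) / (g - 1) := by positivity
    have e2 : 6 * g * ((D * u) / (g - 1)) ≤ 12 * y :=
      (mul_le_mul (by linarith : 6 * g ≤ 12) hDug e3 (by norm_num))
    have e6 : D * T = D * V + 1 := by
      rw [hT]; field_simp
    linarith
  have hTq : T * G^q ≤ 48 * y + 4 := by
    calc T * G^q ≤ T * (4 * D) := mul_le_mul_of_nonneg_left hGq hT0.le
      _ = 4 * (D * T) := by ring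
      _ ≤ 48 * y + 4 := by linarith
  have hRq : R * G^q ≤ 4 * y * (48 * y + 4) := by
    have e0 : R ≤ 4 * y * T := by
      have e1 : R = 2 * g * ((D * u) / (g - 1)) * T := by
        rw [hR]; ring
      have e3 : 0 ≤ (D * u) / (g - 1) := by positivity
      have e2 : 2 * g * ((D * u) / (g - 1)) ≤ 4 * y :=
        (mul_le_mul (by linarith : 2 * g ≤ 4) hDug e3 (by norm_num))
      rw [e1]
      exact mul_le_mul_of_nonneg_right e2 hT0.le
    have hG0 : 0 ≤ G := by rw [hG]; positivity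
    calc R * G^q ≤ 4 * y * T * G^q := mul_le_mul_of_nonneg_right e0 (by positivity)
      _ = 4 * y * (T * G^q) := by ring
      _ ≤ 4 * y * (48 * y + 4) := mul_le_mul_of_nonneg_left hTq (by positivity)
  have hm0 : 0 < m := by rw [hm]; positivity
  have hVq : 0 < V * m^q := by positivity
  have hyy : 100 * y ≤ y * y := mul_le_mul_of_nonneg_right hy hy0.le
  have hy2 : y^2 = y * y := by ring
  rw [hy2]
  linarith

theorem recur_bound : ∃ y₀ : ℝ, 1 ≤ y₀ ∧ ∀ (y n D g D' : ℝ) (q : ℕ) (E I J E1 I1 J1 : ℕ → ℝ),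
    y₀ ≤ y → n = y^10 → D = y^6 → 1 + 1/y^5 ≤ g → g ≤ 2 → D' = g*D → g^q ≤ 2*D →
    (q:ℝ) ≤ 10*y^5 → (∀ k, 0 ≤ E k ∧ 0 ≤ I k ∧ 0 ≤ J k) → E 0 ≤ 1 + 1/D → I 0 ≤ 1 →
    J 0 ≤ 1/D →
    (∀ k < q, E1 k ≤ (1+D')/n * E k + I k + D' * J k ∧ I1 k ≤ E k / n + I k ∧
      J1 k ≤ D' * (E k / n + J k) ∧ E (k+1) ≤ (1+1/D)/n * E1 k + I1 k + J1 k / D ∧
      I (k+1) ≤ E1 k / n + I1 k ∧ J (k+1) ≤ (1/D) * (E1 k / n + J1 k)) →
    E q ≤ 1000*y^2 := by
  refine ⟨100, by norm_num, ?_⟩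
  intro y n D g D' q E I J E1 I1 J1 hy hn hD hg1 hg2 hD' hgq hq hnn hE0 hI0 hJ0 hrec
  obtain ⟨u, hu⟩ : ∃ u : ℝ, u = 1 / y^10 := ⟨_, rfl⟩
  obtain ⟨m, hm⟩ : ∃ m : ℝ, m = 1 + 5 * u := ⟨_, rfl⟩
  obtain ⟨μ, hμ⟩ : ∃ μ : ℝ, μ = 1 / y^5 * (1 / 20) := ⟨_, rfl⟩
  obtain ⟨G, hG⟩ : ∃ G : ℝ, G = g * (1 + μ) := ⟨_, rfl⟩
  obtain ⟨V, hV⟩ : ∃ V : ℝ, V = 6 * g * u / (g - 1) := ⟨_, rfl⟩
  obtain ⟨T, hT⟩ : ∃ T : ℝ, T = V + 1 / D := ⟨_, rfl⟩
  obtain ⟨R, hR⟩ : ∃ R : ℝ, R = 2 * (g * D * u) * T / (g - 1) := ⟨_, rfl⟩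
  obtain ⟨hy0, hu0, hD1000, huD, huD', hg1', hu5, huy, hDug⟩ := consts hy hu hD hg1
  obtain ⟨hV0, hT0, hR0, hRG, hVm, hTG⟩ := matrix_ineq hy hu hD hg1 hg2 hm hμ hG hV hT hR
  have hD0 : 0 < D := by linarith
  have hμ0 : 0 < μ := by rw [hμ]; positivity
  have hG0 : 0 < G := by rw [hG]; positivity
  have hm0 : 0 < m := by rw [hm]; positivity
  have hun : ∀ x : ℝ, x / n = x * u := by
    intro x; rw [hn, hu]; ring
  -- the invariant
  have key : ∀ k, k ≤ q → I k ≤ m^k + R * G^k ∧ J k ≤ T * G^k - V * m^k ∧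
      E k ≤ 2 * ((m^k + R * G^k) + (T * G^k - V * m^k)) := by
    intro k
    induction k with
    | zero =>
      intro _
      have e1 : T - V = 1 / D := by rw [hT]; ring
      have e2 : 0 < 1 / D := by positivity
      simp only [pow_zero, mul_one]
      refine ⟨by linarith, by linarith, by linarith⟩
    | succ k ih =>
      intro hk
      obtain ⟨hIk, hJk, hEk⟩ := ih (by omega)
      obtain ⟨r1, r2, r3, r4, r5, r6⟩ := hrec k (by omega)
      rw [hun, hD'] at r1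
      rw [hun] at r2 r4 r5
      rw [hun, hD'] at r3
      rw [hun] at r6
      have hi : 0 ≤ m^k + R * G^k := (hnn k).2.1.trans hIk
      have hj : 0 ≤ T * G^k - V * m^k := (hnn k).2.2.trans hJk
      obtain ⟨s1, s2, s3⟩ := step_bound hu0 hD1000 huD' hg1'.le hg2 hi hj hEk hIk hJk
        r1 r2 r3 r4 r5 r6
      obtain ⟨c1, c2⟩ := closed_step (by linarith) hu0.le hD0.le hm hV0.le hRG hVm hTG
        (pow_pos hm0 k).le (pow_pos hG0 k).le
      rw [pow_succ, pow_succ]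
      refine ⟨s1.trans c1, s2.trans c2, s3.trans ?_⟩
      linarith
  obtain ⟨-, -, hEq⟩ := key q le_rfl
  exact final_bound hy hu hD hg1 hg2 hgq hq hm hμ hG hV hT hR hEq


/-- The integer part of `final_numeric`. -/
private lemma nat_part {n B Q a : ℕ} {x : ℝ} (hx : 1000 ≤ x) (hxn : x^2 = n)
    (hB : B = 2 * (Nat.sqrt n / 16) + n % 2) (hQ : Q = (n - B)/2) (ha : a = Q/(3*B)) :
    (B:ℝ) ≤ x / 8 + 1 ∧ x / 8 - 3 ≤ (B:ℝ) ∧ 4 / 3 * x - 12 ≤ (a:ℝ) := by
  have hx0 : 0 ≤ x := by linarith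
  obtain ⟨r, hr⟩ : ∃ r, r = Nat.sqrt n := ⟨_, rfl⟩
  have hr1 : r * r ≤ n := by rw [hr]; exact Nat.sqrt_le n
  have hr2 : n < (r + 1) * (r + 1) := by rw [hr]; exact Nat.lt_succ_sqrt n
  have hr1' : (r:ℝ) * r ≤ x^2 := by rw [hxn]; exact_mod_cast hr1
  have hr2' : x^2 < ((r:ℝ) + 1) * (r + 1) := by rw [hxn]; exact_mod_cast hr2
  have hrx : (r:ℝ) ≤ x := by
    by_contra h
    push Not at h
    have : x * x < r * r := mul_self_lt_mul_self hx0 h
    nlinarith
  have hxr : x < r + 1 := by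
    by_contra h
    push Not at h
    have : ((r:ℝ) + 1) * (r + 1) ≤ x * x := mul_self_le_mul_self (by positivity) h
    nlinarith
  rw [← hr] at hB
  have hr999 : 999 ≤ r := by
    have : (999:ℝ) < r + 1 := by linarith
    have h2 : 999 < r + 1 := by exact_mod_cast this
    omega
  have hB1 : 8 * B ≤ r + 8 := by omega
  have hB2 : r ≤ 8 * B + 15 := by omega
  have hB0 : 1 ≤ B := by omega
  have hB1' : 8 * (B:ℝ) ≤ r + 8 := by exact_mod_cast hB1
  have hB2' : (r:ℝ) ≤ 8 * B + 15 := by exact_mod_cast hB2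
  refine ⟨by linarith, by linarith, ?_⟩
  have hQ2 : n ≤ 2 * Q + 1 + B := by omega
  have ha2 : Q < 3 * B * (a + 1) := by
    rw [ha]
    exact Nat.lt_mul_div_succ Q (by omega)
  have ha3 : n ≤ 6 * B * (a + 1) + B := by
    have : 6 * B * (a + 1) = 2 * (3 * B * (a + 1)) := by ring
    omega
  have ha4 : x^2 ≤ 6 * (B:ℝ) * (a + 1) + B := by
    rw [hxn]; exact_mod_cast ha3
  by_contra h
  push Not at h
  have hB3 : (B:ℝ) ≤ x / 8 + 1 := by linarith
  have ha5 : (0:ℝ) ≤ 6 * (a + 1) + 1 := by positivity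
  have h6 : x^2 ≤ (x / 8 + 1) * (6 * (a + 1) + 1) := by
    calc x^2 ≤ (B:ℝ) * (6 * (a + 1) + 1) := by linarith
      _ ≤ _ := mul_le_mul_of_nonneg_right hB3 ha5
  have h7 : (x / 8 + 1) * (6 * ((a:ℝ) + 1) + 1) < (x / 8 + 1) * (6 * ((4 / 3 * x - 12) + 1) + 1) := by
    apply mul_lt_mul_of_pos_left _ (by linarith)
    linarith
  nlinarith

private lemma case_one {L x b : ℝ} (hL : 1000 ≤ L) (hx : 1000 ≤ x) (hb : x / 8 - 3 ≤ b) :
    L * x / 10 ≤ (L - 10) * b - 2 * x - 1 := by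
  have h1 : (L - 10) * (x / 8 - 3) ≤ (L - 10) * b :=
    mul_le_mul_of_nonneg_left hb (by linarith)
  have h2 : 1000 * x ≤ L * x := mul_le_mul_of_nonneg_right hL (by linarith)
  have h3 : L * 1000 ≤ L * x := mul_le_mul_of_nonneg_left hx (by linarith)
  linarith

private lemma case_two {L x b a : ℝ} (hL : 1000 ≤ L) (hx : 1000 ≤ x) (hb : b ≤ x / 8 + 1)
    (ha : 4 / 3 * x - 12 ≤ a) :
    L * x / 10 + L * x / 10 ≤ (3 * L - 1) * a - (10 + 2 * L) * b - 1 := by
  have h1 : (3 * L - 1) * (4 / 3 * x - 12) ≤ (3 * L - 1) * a :=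
    mul_le_mul_of_nonneg_left ha (by linarith)
  have h4 : (10 + 2 * L) * b ≤ (10 + 2 * L) * (x / 8 + 1) :=
    mul_le_mul_of_nonneg_left hb (by linarith)
  have h2 : 1000 * x ≤ L * x := mul_le_mul_of_nonneg_right hL (by linarith)
  have h3 : L * 1000 ≤ L * x := mul_le_mul_of_nonneg_left hx (by linarith)
  linarith

private lemma half_ge : Real.exp (-1) ≤ 1 / 2 := by
  rw [Real.exp_neg]
  have := Real.add_one_le_exp (1:ℝ)
  rw [inv_le_comm₀ (Real.exp_pos _) (by norm_num)]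
  linarith

theorem final_numeric : ∃ N₀ : ℕ, ∀ n : ℕ, N₀ ≤ n → ∀ (y s : ℝ) (B Q a : ℕ),
    y = (n:ℝ)^((1:ℝ)/10) → B = 2 * (Nat.sqrt n / 16) + n % 2 → Q = (n - B)/2 →
    a = Q/(3*B) → 0 ≤ s →
    ((1000 * y^2)^B)⁻¹ ≤ s * ((y^3)^B)⁻¹ * Real.exp (2*y^5) + s^2*(2/y^3)^a →
    (n:ℝ)^(√(n:ℝ)/100) ≤ s := by
  refine ⟨⌈Real.exp 10000⌉₊, ?_⟩
  intro n hn y s B Q a hy hB hQ ha hs h
  have hn1 : Real.exp 10000 ≤ n := Nat.ceil_le.mp hn
  have hn0 : (0:ℝ) < n := lt_of_lt_of_le (Real.exp_pos _) hn1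
  obtain ⟨L, hL⟩ : ∃ L : ℝ, L = Real.log n / 10 := ⟨_, rfl⟩
  have hL1 : 1000 ≤ L := by
    have := (Real.le_log_iff_exp_le hn0).mpr hn1
    rw [hL]; linarith
  have hyL : y = Real.exp L := by
    rw [hy, Real.rpow_def_of_pos hn0, hL]; congr 1; ring
  obtain ⟨x, hx⟩ : ∃ x : ℝ, x = y^5 := ⟨_, rfl⟩
  have hxL : x = Real.exp (5 * L) := by
    rw [hx, hyL, ← Real.exp_nat_mul]; norm_num
  have hx1 : 1000 ≤ x := by
    have := Real.add_one_le_exp (5 * L)
    rw [hxL]; linarith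
  have hxn : x^2 = n := by
    rw [hxL, ← Real.exp_nat_mul, hL]
    have : ((2:ℕ):ℝ) * (5 * (Real.log n / 10)) = Real.log n := by push_cast; ring
    rw [this, Real.exp_log hn0]
  have hsq : √(n:ℝ) = x := by
    rw [← hxn, Real.sqrt_sq (by linarith)]
  obtain ⟨hB1, hB2, ha1⟩ := nat_part hx1 hxn hB hQ ha
  have hlog : Real.log n = 10 * L := by rw [hL]; ring
  have hgoal : (n:ℝ)^(√(n:ℝ)/100) = Real.exp (L * x / 10) := by
    rw [hsq, Real.rpow_def_of_pos hn0, hlog]; congr 1; ring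
  rw [hgoal]
  have h1000 : (1000:ℝ) ≤ Real.exp 10 := by
    have h1 : (2:ℝ) ≤ Real.exp 1 := by
      have := Real.add_one_le_exp (1:ℝ); linarith
    have h2 : Real.exp 10 = Real.exp 1 ^ 10 := by
      rw [← Real.exp_nat_mul]; norm_num
    have h3 : (2:ℝ)^10 ≤ Real.exp 1 ^ 10 := pow_le_pow_left₀ (by norm_num) h1 10
    rw [h2]; norm_num at h3; linarith
  have hc : Real.exp (-((10 + 2 * L) * B)) ≤ ((1000 * y^2)^B)⁻¹ := by
    have h1 : 1000 * y^2 ≤ Real.exp (10 + 2 * L) := by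
      have h2 : y^2 = Real.exp (2 * L) := by
        rw [hyL, ← Real.exp_nat_mul]; norm_num
      rw [Real.exp_add, h2]
      exact mul_le_mul_of_nonneg_right h1000 (Real.exp_pos _).le
    have h3 : (1000 * y^2)^B ≤ Real.exp ((10 + 2 * L) * B) := by
      calc (1000 * y^2)^B ≤ (Real.exp (10 + 2 * L))^B := pow_le_pow_left₀ (by positivity) h1 B
        _ = Real.exp ((10 + 2 * L) * B) := by rw [← Real.exp_nat_mul, mul_comm]
    rw [Real.exp_neg]
    have hy0 : 0 < y := by rw [hyL]; exact Real.exp_pos _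
    exact inv_anti₀ (by positivity) h3
  have hy3 : y^3 = Real.exp (3 * L) := by
    rw [hyL, ← Real.exp_nat_mul]; norm_num
  rcases le_or_gt (Real.exp (-1) * Real.exp (-((10 + 2 * L) * B)))
    (s * ((y^3)^B)⁻¹ * Real.exp (2*y^5)) with hcase | hcase
  · have h1 : (y^3)^B = Real.exp (3 * L * B) := by
      rw [hy3, ← Real.exp_nat_mul, mul_comm]
    rw [h1, ← hx, ← Real.exp_neg, mul_assoc, ← Real.exp_add, ← Real.exp_add] at hcase
    have h2 : Real.exp (-1 + -((10 + 2 * L) * B)) * Real.exp (-(-(3 * L * B) + 2 * x)) ≤ s := by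
      have h3 := mul_le_mul_of_nonneg_right hcase (Real.exp_pos (-(-(3 * L * B) + 2 * x))).le
      rw [mul_assoc s, ← Real.exp_add (-(3 * L * B) + 2 * x), add_neg_cancel, Real.exp_zero,
        mul_one] at h3
      exact h3
    rw [← Real.exp_add] at h2
    refine le_trans (Real.exp_le_exp.mpr ?_) h2
    have := case_one hL1 hx1 hB2
    linarith
  · have hhalf : Real.exp (-1) * Real.exp (-((10 + 2 * L) * B)) ≤
        1 / 2 * Real.exp (-((10 + 2 * L) * B)) :=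
      mul_le_mul_of_nonneg_right half_ge (Real.exp_pos _).le
    have hcase2 : Real.exp (-1) * Real.exp (-((10 + 2 * L) * B)) ≤ s^2*(2/y^3)^a := by
      have := Real.exp_pos (-((10 + 2 * L) * B))
      linarith
    have h1 : (2/y^3)^a ≤ Real.exp (-((3 * L - 1) * a)) := by
      have h2 : 2 / y^3 ≤ Real.exp (-(3 * L - 1)) := by
        rw [hy3, div_le_iff₀ (Real.exp_pos _), ← Real.exp_add]
        have : -(3 * L - 1) + 3 * L = 1 := by ring
        rw [this]
        have := Real.add_one_le_exp (1:ℝ); linarith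
      have h3 : (0:ℝ) ≤ 2 / y^3 := by rw [hy3]; positivity
      calc (2/y^3)^a ≤ (Real.exp (-(3 * L - 1)))^a := pow_le_pow_left₀ h3 h2 a
        _ = Real.exp (-((3 * L - 1) * a)) := by rw [← Real.exp_nat_mul]; congr 1; ring
    have h4 : Real.exp (-1) * Real.exp (-((10 + 2 * L) * B)) ≤
        s^2 * Real.exp (-((3 * L - 1) * a)) :=
      hcase2.trans (mul_le_mul_of_nonneg_left h1 (sq_nonneg s))
    rw [← Real.exp_add] at h4
    have h5 : Real.exp (-1 + -((10 + 2 * L) * B)) * Real.exp ((3 * L - 1) * a) ≤ s^2 := by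
      have h6 := mul_le_mul_of_nonneg_right h4 (Real.exp_pos ((3 * L - 1) * a)).le
      rw [mul_assoc (s^2), ← Real.exp_add (-((3 * L - 1) * a)), neg_add_cancel, Real.exp_zero,
        mul_one] at h6
      exact h6
    rw [← Real.exp_add] at h5
    have h7 : Real.exp (L * x / 10) ^ 2 ≤ s^2 := by
      refine le_trans ?_ h5
      rw [sq, ← Real.exp_add]
      apply Real.exp_le_exp.mpr
      have := case_two hL1 hx1 hB1 ha1
      linarith
    exact (pow_le_pow_iff_left₀ (Real.exp_pos _).le hs two_ne_zero).mp h7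

end Vale.Agent.P346
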