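import Vale.Agent.P346.RankMain
import Vale.Agent.P346.CircU
import Vale.Agent.P346.Proj
import Vale.Agent.P346.Numeric0

/-!
The core inequality in characteristic zero.
-/

namespace Vale.Agent.P346

open Finset MvPolynomial

lemma bd_cases (b : Bool) : bd b = (1, 0) ∨ bd b = (0, 1) := by
  unfold bd
  cases b <;> simp

lemma sum_bd_blk (q : ℕ) : ((blk q).map fun d => bd d.1).sum = (q + 1, q) := by
  induction q with
  | zero =>
    unfold blk bd
    simp
  | succ q ih =>
    show (((true, false) :: (false, false) :: blk q).map fun d => bd d.1).sum = _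
    rw [List.map_cons, List.sum_cons, List.map_cons, List.sum_cons, ih]
    unfold bd
    simp only [Prod.mk_add_mk, if_true]
    refine Prod.ext ?_ ?_ <;> simp <;> omega

lemma length_blk (q : ℕ) : (blk q).length = 2 * q + 1 := by
  induction q with
  | zero => rfl
  | succ q ih =>
    show ((true, false) :: (false, false) :: blk q).length = _
    rw [List.length_cons, List.length_cons, ih]
    omega

lemma sum_bd_blocks (qs : List ℕ) :
    ((qs.map blk).flatten.map fun d => bd d.1).sum = (qs.sum + qs.length, qs.sum) := by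
  induction qs with
  | nil => rfl
  | cons q qs ih =>
    rw [List.map_cons, List.flatten_cons, List.map_append, List.sum_append, ih, sum_bd_blk,
      List.sum_cons, List.length_cons]
    refine Prod.ext ?_ ?_
    · show q + 1 + (qs.sum + qs.length) = q + qs.sum + (qs.length + 1)
      omega
    · rfl

lemma length_blocks (qs : List ℕ) : ((qs.map blk).flatten).length = 2 * qs.sum + qs.length := by
  induction qs with
  | nil => rfl
  | cons q qs ih =>
    rw [List.map_cons, List.flatten_cons, List.length_append, ih, length_blk, List.sum_cons,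
      List.length_cons]
    omega

variable {K : Type*} [Field K] {L : List (Bool × Bool)} {v : ℕ}

lemma sum_layers (f : Bool × Bool → ℕ × ℕ) (L : List (Bool × Bool)) :
    ∑ b : Fin L.length, f (L.get b) = (L.map f).sum := by
  rw [← List.sum_ofFn]
  congr 1
  conv_rhs => rw [← List.ofFn_get L, List.map_ofFn]
  rfl

lemma FW_bihom : IsWeightedHomogeneous (wtL L v) (FW K (pw (L := L) (v := v)))
    ((L.map fun d => bd d.1).sum) := by
  unfold FW
  apply IsWeightedHomogeneous.sum
  intro u _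
  apply isWeightedHomogeneous_monomial
  rw [weight_ind]
  have h1 : wts (wtL L v) (tot fun b => {pw u b})
      = ∑ b : Fin L.length, ({pw u b} : Finset _).card • bd (L.get b).1 :=
    wts_tot (fun b : Fin L.length => bd (L.get b).1) _
  rw [h1, ← sum_layers (fun d => bd d.1) L]
  apply Finset.sum_congr rfl
  intro b _
  rw [card_singleton, one_smul]

lemma FW_homog : (FW K (pw (L := L) (v := v))).IsHomogeneous L.length := by
  unfold FW
  apply IsHomogeneous.sum
  intro u _
  apply isHomogeneous_monomial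
  rw [degree_ind, card_tot]
  simp

lemma Xm_homog (b : Fin L.length) (i j : Fin (v + 1)) : (Xm K L v b i j).IsHomogeneous 1 := by
  unfold Xm
  rw [Matrix.of_apply]
  split_ifs
  · exact isHomogeneous_X _ _
  · exact isHomogeneous_zero _ _ _

/-- The hard polynomial is a projection of `IMM`. -/
theorem exists_proj0 (K : Type*) [Field K] {n : ℕ} (hn : L.length = n) :
    ∃ φ : MvPolynomial (Fin n × Fin (v + 1) × Fin (v + 1)) K →ₐ[K]
        MvPolynomial (Fin L.length × (Fin (v + 1) × Fin (v + 1))) K,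
      (∀ x, (φ (X x)).IsHomogeneous 1) ∧
      φ (IMM K (v + 1) n) = FW K (pw (L := L) (v := v)) := by
  have hlen : (List.ofFn (Xm K L v)).length = n := by rw [List.length_ofFn, hn]
  refine ⟨aeval (fun y : Fin n × Fin (v + 1) × Fin (v + 1) =>
    (List.ofFn (Xm K L v)).get (Fin.cast hlen.symm y.1) y.2.1 y.2.2), ?_, ?_⟩
  · rintro ⟨t, i, k⟩
    rw [aeval_X]
    have h1 : (List.ofFn (Xm K L v)).get (Fin.cast hlen.symm t) ∈ List.ofFn (Xm K L v) :=
      List.get_mem _ _
    rw [List.mem_ofFn] at h1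
    obtain ⟨b, hb⟩ := h1
    rw [← hb]
    exact Xm_homog b i k
  · rw [aeval_IMM _ hlen, prod_Xm]

lemma isMeas_Hm {x x' : ℝ} (hx : 0 < x) (hx' : 0 < x') :
    IsMeas (K := K) (Hm (wtL L v) (chw (1 / x ^ 2) (x' ^ 2))) (wtL L v) x x'
      (Ztot (1 / x ^ 2) (x' ^ 2) L v) where
  nonneg := Hm_nonneg _ fun γ => by unfold chw; positivity
  zero := Hm_zero _ _
  mul_le := Hm_mul_le _ fun γ => by unfold chw; positivity
  hom_le := by
    intro P i j hP
    have h1 := Hm_homog_le (wtL L v) (χ := chw (1 / x ^ 2) (x' ^ 2))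
      (fun γ => by unfold chw; positivity) (chw_add _ _) hP
    rw [Ztot_eq] at h1
    have h2 : chw (1 / x ^ 2) (x' ^ 2) (i, j) = x' ^ (2 * j) / x ^ (2 * i) := by
      unfold chw
      rw [pow_mul, pow_mul, one_div, inv_pow]
      field_simp
    rw [h2] at h1
    have h3 : 0 < x' ^ (2 * j) := by positivity
    have h4 : 0 < x ^ (2 * i) := by positivity
    calc Hm (wtL L v) (chw (1 / x ^ 2) (x' ^ 2)) P
        = x ^ (2 * i) / x' ^ (2 * j) * (x' ^ (2 * j) / x ^ (2 * i)
          * Hm (wtL L v) (chw (1 / x ^ 2) (x' ^ 2)) P) := by field_simp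
      _ ≤ _ := mul_le_mul_of_nonneg_left h1 (by positivity)

lemma subAdd_Hm {wx wy : ℝ} (hx : 0 ≤ wx) (hy : 0 ≤ wy) :
    SubAdd (K := K) (Hm (wtL L v) (chw wx wy)) := by
  intro n c f
  exact Hm_sum_le (wtL L v) (fun γ => mul_nonneg (pow_nonneg hx _) (pow_nonneg hy _)) univ c f

lemma prod_map_le_pow {f : ℕ → ℝ} {T : ℝ} (hf : ∀ q, 0 ≤ f q) (qs : List ℕ)
    (h : ∀ q ∈ qs, f q ≤ T) : (qs.map f).prod ≤ T ^ qs.length := by
  induction qs with
  | nil => simp
  | cons q qs ih =>
    rw [List.map_cons, List.prod_cons, List.length_cons, pow_succ']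
    have h1 := h q List.mem_cons_self
    have h2 := hf q
    apply mul_le_mul h1 (ih fun q' hq' => h q' (List.mem_cons_of_mem _ hq'))
    · apply List.prod_nonneg
      intro z hz
      obtain ⟨q', _, rfl⟩ := List.mem_map.1 hz
      exact hf q'
    · linarith

theorem core0 [CharZero K] (hv1 : 1 ≤ v) {y κ : ℝ} (hy : 2 ≤ y) (hκ : 1 ≤ κ) {a : ℕ}
    (ha : κ ^ a ≤ y) (qs : List ℕ) (hlen : 2 * qs.sum + qs.length = v + 1)
    (hbal : (y ^ 3) ^ (qs.sum + qs.length) = (κ * y ^ 3) ^ qs.sum) {T : ℝ}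
    (hE : ∀ q ∈ qs, (eij (v + 1 : ℝ) (1 / (y ^ 3) ^ 2) ((κ * y ^ 3) ^ 2) q).1 ≤ T)
    (C : Circuit (Fin (v + 1) × Fin (v + 1) × Fin (v + 1)) K) (hC : C.IsHomogeneous)
    (hval : C.val = IMM K (v + 1) (v + 1)) :
    1 ≤ (C.n4 * (1 / (κ * y ^ 3) ^ qs.length * Real.exp (2 * (v + 1 : ℕ) / y ^ 5))
      + C.n4 * (C.n2 * (2 / y ^ 3) ^ a)) * T ^ qs.length := by
  have hy0 : 0 < y := by linarith
  have hκ0 : 0 < κ := by linarith
  have hx : 0 < y ^ 3 := by positivity
  have hx' : 0 < κ * y ^ 3 := by positivity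
  obtain ⟨M, hM⟩ : ∃ M, M = (qs.map blk).flatten := ⟨_, rfl⟩
  have hML : M.length = v + 1 := by rw [hM, length_blocks, hlen]
  obtain ⟨φ, hφ1, hφ2⟩ := exists_proj0 (L := M) (v := v) K hML
  have hwx : 0 ≤ 1 / (y ^ 3) ^ 2 := by positivity
  have hwy : 0 ≤ (κ * y ^ 3) ^ 2 := by positivity
  have hlow := HF_lower (K := K) hv1 hwx hwy qs
  rw [← hM] at hlow
  have hZ : 0 < Ztot (1 / (y ^ 3) ^ 2) ((κ * y ^ 3) ^ 2) M v := by
    unfold Ztot
    apply Finset.prod_pos
    intro b _
    have : 0 ≤ wB (1 / (y ^ 3) ^ 2) ((κ * y ^ 3) ^ 2) (M.get b).1 := by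
      unfold wB
      split_ifs
      · exact hwx
      · exact hwy
    positivity
  set Z := Ztot (1 / (y ^ 3) ^ 2) ((κ * y ^ 3) ^ 2) M v with hZdef
  set H : MvPolynomial (Fin M.length × (Fin (v + 1) × Fin (v + 1))) K → ℝ :=
    Hm (wtL M v) (chw (1 / (y ^ 3) ^ 2) ((κ * y ^ 3) ^ 2)) with hH
  have hmeas : IsMeas H (wtL M v) (y ^ 3) (κ * y ^ 3) Z := isMeas_Hm hx hx'
  have hsub : SubAdd H := subAdd_Hm hwx hwy
  have hEprod : (qs.map fun q => (eij (v + 1 : ℝ) (1 / (y ^ 3) ^ 2) ((κ * y ^ 3) ^ 2) q).1).prod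
      ≤ T ^ qs.length := by
    exact prod_map_le_pow (fun q => (eij_nonneg (n := (v + 1 : ℝ)) (by positivity) hwx hwy q).1)
      qs hE
  have hF : IsWeightedHomogeneous (wtL M v) (φ C.val) (qs.sum + qs.length, qs.sum) := by
    rw [hval, hφ2, ← sum_bd_blocks qs, ← hM]
    exact FW_bihom
  have hhom : (φ C.val).IsHomogeneous (v + 1) := by
    rw [hval, hφ2]
    have h1 : ∀ m, M.length = m → (FW K (pw (L := M) (v := v))).IsHomogeneous m := by
      rintro m rfl
      exact FW_homog
    exact h1 _ hML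
  have hH0 : 0 ≤ H (FW K (pw (L := M) (v := v))) := hmeas.nonneg _
  have hne : φ C.val ≠ 0 := by
    intro h0
    rw [hval, hφ2] at h0
    rw [h0, hmeas.zero, zero_mul] at hlow
    linarith
  have hup := circuit_upper0 hy hκ hmeas hsub (fun i => bd_cases _) hZ.le ha C hC φ hφ1 hhom hF
    (by omega) (by omega) hbal hne
  rw [hval, hφ2, Nat.add_sub_cancel_left] at hup
  set U := (C.n4 * (1 / (κ * y ^ 3) ^ qs.length * Real.exp (2 * (v + 1 : ℕ) / y ^ 5))
      + C.n4 * (C.n2 * (2 / y ^ 3) ^ a)) with hU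
  have hT : 0 ≤ T ^ qs.length := by
    refine le_trans ?_ hEprod
    apply List.prod_nonneg
    intro z hz
    obtain ⟨q', _, rfl⟩ := List.mem_map.1 hz
    exact (eij_nonneg (n := (v + 1 : ℝ)) (by positivity) hwx hwy q').1
  have h1 : Z ≤ U * Z * T ^ qs.length :=
    hlow.trans ((mul_le_mul_of_nonneg_left hEprod hH0).trans
      (mul_le_mul_of_nonneg_right hup hT))
  have h2 : Z * 1 ≤ Z * (U * T ^ qs.length) := by
    rw [mul_one]
    refine h1.trans (le_of_eq ?_)
    ring
  exact le_of_mul_le_mul_left h2 hZ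

end Vale.Agent.P346
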