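import Mathlib

/-!
# Definitions for P346

Iterated matrix multiplication and `ΣΠΣΠΣ` circuits (product-depth two) over a field.
-/

namespace Vale.Agent.P346

open MvPolynomial

/-- `IMM_{w,d}` over `K`: the `(1,1)` entry of the product of `d` generic `w × w` matrices.
The variable `(t, i, j)` is the `(i, j)` entry of the `t`-th matrix; indices start at `0`. -/
noncomputable def IMM (K : Type*) [Field K] (w d : ℕ) [NeZero w] :
    MvPolynomial (Fin d × Fin w × Fin w) K :=
  (List.ofFn fun t : Fin d =>
    (Matrix.of fun i j : Fin w => (X (t, i, j) : MvPolynomial (Fin d × Fin w × Fin w) K))).prod 0 0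

/-- A `ΣΠΣΠΣ` circuit over `K` in the variables `V`: layer `0` consists of the leaves, which are
variables or elements of `K`; layers `1` and `3` are sum gates, layers `2` and `4` are product
gates, and the output is a single sum gate. Edges join consecutive layers only. A sum gate has a
finite set of inputs and computes a `K`-linear combination of them; a product gate has a multiset
of inputs. Fan-in and fan-out are arbitrary. -/
structure Circuit (V K : Type*) where
  /-- number of leaves -/
  n0 : ℕ
  /-- number of bottom sum gates -/
  n1 : ℕ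
  /-- number of lower product gates -/
  n2 : ℕ
  /-- number of middle sum gates -/
  n3 : ℕ
  /-- number of upper product gates -/
  n4 : ℕ
  /-- the label of a leaf: a variable or a constant -/
  leaf : Fin n0 → V ⊕ K
  /-- inputs of a bottom sum gate -/
  in1 : Fin n1 → Finset (Fin n0)
  /-- coefficients of a bottom sum gate -/
  co1 : Fin n1 → Fin n0 → K
  /-- inputs of a lower product gate -/
  in2 : Fin n2 → Multiset (Fin n1)
  /-- inputs of a middle sum gate -/
  in3 : Fin n3 → Finset (Fin n2)
  /-- coefficients of a middle sum gate -/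
  co3 : Fin n3 → Fin n2 → K
  /-- inputs of an upper product gate -/
  in4 : Fin n4 → Multiset (Fin n3)
  /-- inputs of the output gate -/
  in5 : Finset (Fin n4)
  /-- coefficients of the output gate -/
  co5 : Fin n4 → K

namespace Circuit

variable {V K : Type*}

/-- The number of vertices. -/
def size (C : Circuit V K) : ℕ := C.n0 + C.n1 + C.n2 + C.n3 + C.n4 + 1

/-- The formal degree of a leaf: `1` for a variable and `0` for a constant. -/
def leafDeg (C : Circuit V K) (l : Fin C.n0) : ℕ := Sum.elim (fun _ => 1) (fun _ => 0) (C.leaf l)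

variable [Field K]

/-- The polynomial at a leaf. -/
noncomputable def val0 (C : Circuit V K) (l : Fin C.n0) : MvPolynomial V K :=
  Sum.elim (fun v => X v) (fun c => MvPolynomial.C c) (C.leaf l)

/-- The polynomial computed by a bottom sum gate. -/
noncomputable def val1 (C : Circuit V K) (g : Fin C.n1) : MvPolynomial V K :=
  ∑ l ∈ C.in1 g, C.co1 g l • C.val0 l

/-- The polynomial computed by a lower product gate. -/
noncomputable def val2 (C : Circuit V K) (g : Fin C.n2) : MvPolynomial V K :=
  ((C.in2 g).map C.val1).prod

/-- The polynomial computed by a middle sum gate. -/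
noncomputable def val3 (C : Circuit V K) (g : Fin C.n3) : MvPolynomial V K :=
  ∑ h ∈ C.in3 g, C.co3 g h • C.val2 h

/-- The polynomial computed by an upper product gate. -/
noncomputable def val4 (C : Circuit V K) (g : Fin C.n4) : MvPolynomial V K :=
  ((C.in4 g).map C.val3).prod

/-- The polynomial computed by the circuit. -/
noncomputable def val (C : Circuit V K) : MvPolynomial V K :=
  ∑ h ∈ C.in5, C.co5 h • C.val4 h

/-- Syntactic homogeneity: the gates carry formal degrees `d1, …, d5` such that all inputs of a sum
gate have the degree of that gate, and the degree of a product gate is the sum of the degrees of its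
inputs, with multiplicity. -/
def IsHomogeneous (C : Circuit V K) : Prop :=
  ∃ (d1 : Fin C.n1 → ℕ) (d2 : Fin C.n2 → ℕ) (d3 : Fin C.n3 → ℕ) (d4 : Fin C.n4 → ℕ) (d5 : ℕ),
    (∀ g, ∀ l ∈ C.in1 g, C.leafDeg l = d1 g) ∧
    (∀ g, d2 g = ((C.in2 g).map d1).sum) ∧
    (∀ g, ∀ h ∈ C.in3 g, d2 h = d3 g) ∧
    (∀ g, d4 g = ((C.in4 g).map d3).sum) ∧
    (∀ h ∈ C.in5, d4 h = d5)

end Circuit

/-- `s_K(n)`: the minimum size of a syntactically homogeneous `ΣΠΣΠΣ` circuit over `K` computing
`IMM_{n,n}` as a formal polynomial. -/
noncomputable def sK (K : Type*) [Field K] (n : ℕ) [NeZero n] : ℕ :=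
  sInf {s | ∃ C : Circuit (Fin n × Fin n × Fin n) K,
    C.IsHomogeneous ∧ C.val = IMM K n n ∧ C.size = s}

end Vale.Agent.P346
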