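import Vale.Agent.P346.Defs

/-!
Existence of homogeneous `ΣΠΣΠΣ` circuits for iterated matrix multiplication.
-/

namespace Vale.Agent.P346

open MvPolynomial

lemma list_prod_homog {σ R : Type*} [CommSemiring R] {w : ℕ}
    (L : List (Matrix (Fin w) (Fin w) (MvPolynomial σ R)))
    (hL : ∀ M ∈ L, ∀ i j, (M i j).IsHomogeneous 1) (i j : Fin w) :
    (L.prod i j).IsHomogeneous L.length := by
  induction L generalizing i with
  | nil =>
    rw [List.prod_nil, List.length_nil]
    by_cases h : i = j
    · subst h
      rw [Matrix.one_apply_eq]
      exact isHomogeneous_one _ _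
    · rw [Matrix.one_apply_ne h]
      exact isHomogeneous_zero _ _ _
  | cons M L ih =>
    rw [List.prod_cons, List.length_cons, Matrix.mul_apply]
    apply IsHomogeneous.sum
    intro k _
    rw [add_comm]
    exact (hL M List.mem_cons_self i k).mul
      (ih (fun M' hM' => hL M' (List.mem_cons_of_mem _ hM')) k)

lemma IMM_homog (K : Type*) [Field K] (w d : ℕ) [NeZero w] : (IMM K w d).IsHomogeneous d := by
  unfold IMM
  have h := list_prod_homog (List.ofFn fun t : Fin d =>
    (Matrix.of fun i j : Fin w => (X (t, i, j) : MvPolynomial (Fin d × Fin w × Fin w) K))) (by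
      intro M hM i j
      rw [List.mem_ofFn] at hM
      obtain ⟨t, rfl⟩ := hM
      exact isHomogeneous_X _ _) 0 0
  rwa [List.length_ofFn] at h

lemma prod_toMultiset_X {V K : Type*} [Field K] (s : V →₀ ℕ) :
    ((Finsupp.toMultiset s).map fun v => (X v : MvPolynomial V K)).prod = monomial s 1 := by
  induction s using Finsupp.induction_linear with
  | zero => simp
  | add s t hs ht =>
    rw [map_add, Multiset.map_add, Multiset.prod_add, hs, ht, monomial_mul, mul_one]
  | single v n =>
    rw [Finsupp.toMultiset_single, Multiset.map_nsmul, Multiset.map_singleton,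
      Multiset.prod_nsmul, Multiset.prod_singleton, X_pow_eq_monomial]

/-- The circuit given by the expansion of a polynomial into monomials. -/
noncomputable def monCircuit {V K : Type*} [Fintype V] [Field K] (f : MvPolynomial V K) :
    Circuit V K where
  n0 := Fintype.card V
  n1 := Fintype.card V
  n2 := f.support.card
  n3 := f.support.card
  n4 := f.support.card
  leaf := fun l => Sum.inl ((Fintype.equivFin V).symm l)
  in1 := fun l => {l}
  co1 := fun _ _ => 1
  in2 := fun h => ((Finsupp.toMultiset (f.support.equivFin.symm h).1)).map (Fintype.equivFin V)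
  in3 := fun h => {h}
  co3 := fun _ _ => 1
  in4 := fun h => {h}
  in5 := Finset.univ
  co5 := fun h => coeff (f.support.equivFin.symm h).1 f

lemma monCircuit_val4 {V K : Type*} [Fintype V] [Field K] (f : MvPolynomial V K)
    (h : Fin f.support.card) :
    (monCircuit f).val4 h = monomial (f.support.equivFin.symm h).1 1 := by
  have h1 : ∀ l : Fin (Fintype.card V), (monCircuit f).val1 l
      = X ((Fintype.equivFin V).symm l) := by
    intro l
    show ∑ l' ∈ ({l} : Finset (Fin (Fintype.card V))), (1 : K) • (monCircuit f).val0 l' = _
    rw [Finset.sum_singleton, one_smul]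
    rfl
  have h2 : (monCircuit f).val2 h = monomial (f.support.equivFin.symm h).1 1 := by
    have e1 : (fun l : Fin (Fintype.card V) => (monCircuit f).val1 l)
        = fun l => X ((Fintype.equivFin V).symm l) := funext h1
    show ((((Finsupp.toMultiset (f.support.equivFin.symm h).1)).map (Fintype.equivFin V)).map
      (fun l : Fin (Fintype.card V) => (monCircuit f).val1 l)).prod = _
    rw [e1, Multiset.map_map, ← prod_toMultiset_X]
    congr 1
    apply Multiset.map_congr rfl
    intro v _
    rw [Function.comp_apply, Equiv.symm_apply_apply]
  have h3 : (monCircuit f).val3 h = monomial (f.support.equivFin.symm h).1 1 := by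
    show ∑ h' ∈ ({h} : Finset (Fin f.support.card)), (1 : K) • (monCircuit f).val2 h' = _
    rw [Finset.sum_singleton, one_smul, h2]
  show ((({h} : Multiset (Fin f.support.card))).map
    (fun l : Fin f.support.card => (monCircuit f).val3 l)).prod = _
  rw [Multiset.map_singleton, Multiset.prod_singleton, h3]

lemma exists_circuit {V K : Type*} [Fintype V] [Field K] (f : MvPolynomial V K) {n : ℕ}
    (hf : f.IsHomogeneous n) : ∃ C : Circuit V K, C.IsHomogeneous ∧ C.val = f := by
  refine ⟨monCircuit f, ?_, ?_⟩
  · refine ⟨fun _ => 1, fun _ => n, fun _ => n, fun _ => n, n, ?_, ?_, ?_, ?_, ?_⟩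
    · intro l l' _
      rfl
    · intro h
      have h1 : (f.support.equivFin.symm h).1.degree = n := by
        have h2 := hf (mem_support_iff.1 (f.support.equivFin.symm h).2)
        rw [Finsupp.degree_eq_weight_one]
        exact h2
      show n = ((((Finsupp.toMultiset (f.support.equivFin.symm h).1)).map
        (Fintype.equivFin V)).map fun _ => 1).sum
      rw [Multiset.map_map]
      simp only [Function.comp_def, Multiset.map_const', Multiset.sum_replicate, smul_eq_mul,
        mul_one]
      rw [Finsupp.card_toMultiset, ← h1, Finsupp.degree_apply]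
      rfl
    · intro h h' _
      rfl
    · have h1 : ∀ h : Fin f.support.card,
          n = ((({h} : Multiset (Fin f.support.card))).map fun _ => n).sum := by
        intro h
        rw [Multiset.map_singleton, Multiset.sum_singleton]
      exact h1
    · intro h _
      rfl
  · show ∑ h : Fin f.support.card, coeff (f.support.equivFin.symm h).1 f • (monCircuit f).val4 h
      = f
    have h1 : ∀ h : Fin f.support.card, coeff (f.support.equivFin.symm h).1 f
        • (monCircuit f).val4 h = monomial (f.support.equivFin.symm h).1
          (coeff (f.support.equivFin.symm h).1 f) := by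
      intro h
      rw [monCircuit_val4, smul_monomial, smul_eq_mul, mul_one]
    rw [Finset.sum_congr rfl fun h _ => h1 h,
      Equiv.sum_comp f.support.equivFin.symm
        (fun s : f.support => monomial s.1 (coeff s.1 f)),
      Finset.sum_coe_sort f.support (fun s => monomial s (coeff s f))]
    exact f.support_sum_monomial_coeff

end Vale.Agent.P346
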