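import Vale.Agent.P346.Core

/-!
Choice of the parameters.
-/

namespace Vale.Agent.P346

open Real

lemma exp_le_one_add_two_mul {z : ℝ} (h0 : 0 ≤ z) (h1 : z ≤ 1 / 2) : exp z ≤ 1 + 2 * z := by
  have h2 : 1 - z ≤ exp (-z) := one_sub_le_exp_neg z
  have h3 : exp z * exp (-z) = 1 := by rw [← exp_add]; simp
  have h4 : 0 < exp z := exp_pos z
  have h5 : exp z * (1 - z) ≤ 1 := by
    calc exp z * (1 - z) ≤ exp z * exp (-z) := by gcongr
      _ = 1 := h3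
  have h6 : 0 < 1 - z := by linarith
  have h7 : exp z ≤ 1 / (1 - z) := by
    rw [le_div_iff₀ h6]
    exact h5
  refine h7.trans ?_
  rw [div_le_iff₀ h6]
  nlinarith

lemma exp_neg_two_mul_le {y : ℝ} (h0 : 0 ≤ y) (h1 : y ≤ 1 / 2) : exp (-(2 * y)) ≤ 1 - y := by
  -- `exp (2 y) ≥ 1 + 2 y ≥ 1 / (1 - y)`
  have h2 : 2 * y + 1 ≤ exp (2 * y) := add_one_le_exp _
  have h3 : exp (2 * y) * exp (-(2 * y)) = 1 := by rw [← exp_add]; simp
  have h4 : 0 < exp (-(2 * y)) := exp_pos _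
  have h5 : (2 * y + 1) * exp (-(2 * y)) ≤ 1 := by
    calc (2 * y + 1) * exp (-(2 * y)) ≤ exp (2 * y) * exp (-(2 * y)) := by gcongr
      _ = 1 := h3
  have h6 : exp (-(2 * y)) ≤ 1 / (2 * y + 1) := by
    rw [le_div_iff₀ (by linarith)]
    linarith
  refine h6.trans ?_
  rw [div_le_iff₀ (by linarith)]
  nlinarith

lemma one_add_exp_neg {l : ℝ} (h0 : 0 ≤ l) (h1 : l ≤ 1) :
    2 * exp (-(l / 2)) * exp (l ^ 2 / 16) ≤ 1 + exp (-l) := by
  have hc : 1 + exp (-l) = 2 * exp (-(l / 2)) * cosh (l / 2) := by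
    rw [cosh_eq]
    have e1 : exp (-(l / 2)) * exp (l / 2) = 1 := by rw [← exp_add]; simp
    have e2 : exp (-(l / 2)) * exp (-(l / 2)) = exp (-l) := by
      rw [← exp_add]; congr 1; ring
    calc 1 + exp (-l) = exp (-(l / 2)) * exp (l / 2) + exp (-(l / 2)) * exp (-(l / 2)) := by
          rw [e1, e2]
      _ = _ := by ring
  rw [hc]
  apply mul_le_mul_of_nonneg_left _ (by positivity)
  have h2 : 1 + l ^ 2 / 8 ≤ cosh (l / 2) := by
    have e1 : cosh (l / 2) = 1 + 2 * sinh (l / 4) ^ 2 := by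
      have : l / 2 = 2 * (l / 4) := by ring
      rw [this, cosh_two_mul, cosh_sq]
      ring
    have e2 : l / 4 ≤ sinh (l / 4) := self_le_sinh_iff.2 (by linarith)
    rw [e1]
    nlinarith [sq_nonneg (sinh (l / 4) - l / 4)]
  refine le_trans ?_ h2
  refine (exp_le_one_add_two_mul (by positivity) (by nlinarith)).trans ?_
  linarith


lemma delta_bound {P x l : ℝ} (hP2 : 2 ≤ P) (hl0 : 0 < l) (hl1 : l ≤ 1) (hlx : l * x = 16 * P)
    {v q j : ℕ} (hxsq : x ^ 2 = (v : ℝ) + 1) (hq : (q : ℝ) ≤ P * x) (hj : j ≤ q) :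
    2 ^ v * (exp (-l)) ^ ((v - j) / 2 + 1) ≤ exp (-(7 * P ^ 2)) * (1 + exp (-l)) ^ v := by
  have h1 : (exp (-l)) ^ ((v - j) / 2 + 1) ≤ exp (-(l * ((v : ℝ) - (q : ℝ)) / 2)) := by
    rw [← exp_nat_mul]
    apply exp_le_exp.2
    have h2 : (v : ℝ) - (q : ℝ) ≤ 2 * (((v - j) / 2 + 1 : ℕ) : ℝ) := by
      have h3 : v ≤ q + 2 * ((v - j) / 2 + 1) := by omega
      have h4 : (v : ℝ) ≤ (q : ℝ) + 2 * (((v - j) / 2 + 1 : ℕ) : ℝ) := by
        exact_mod_cast h3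
      linarith
    nlinarith
  have h5 : (2 * exp (-(l / 2)) * exp (l ^ 2 / 16)) ^ v ≤ (1 + exp (-l)) ^ v :=
    pow_le_pow_left₀ (by positivity) (one_add_exp_neg hl0.le hl1) v
  have h6 : (2 * exp (-(l / 2)) * exp (l ^ 2 / 16)) ^ v
      = 2 ^ v * exp (-(l / 2 * v) + l ^ 2 / 16 * v) := by
    rw [mul_pow, mul_pow, mul_assoc, ← exp_nat_mul, ← exp_nat_mul, ← exp_add]
    congr 2
    ring
  rw [h6] at h5
  have e1 : l * (q : ℝ) ≤ 16 * P ^ 2 := by
    have : l * (q : ℝ) ≤ l * (P * x) := mul_le_mul_of_nonneg_left hq hl0.le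
    have e : l * (P * x) = (l * x) * P := by ring
    rw [e, hlx] at this
    nlinarith
  have e2 : l ^ 2 * v = 256 * P ^ 2 - l ^ 2 := by
    have h7 : (v : ℝ) = x ^ 2 - 1 := by linarith
    have h8 : l ^ 2 * (x ^ 2 - 1) = (l * x) ^ 2 - l ^ 2 := by ring
    rw [h7, h8, hlx]
    ring
  have e3 : l ^ 2 ≤ 1 := by nlinarith
  have e4 : exp (-(l * ((v : ℝ) - (q : ℝ)) / 2))
      ≤ exp (-(7 * P ^ 2)) * exp (-(l / 2 * v) + l ^ 2 / 16 * v) := by
    rw [← exp_add]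
    apply exp_le_exp.2
    nlinarith
  have e5 : 2 ^ v * (exp (-l)) ^ ((v - j) / 2 + 1)
      ≤ 2 ^ v * (exp (-(7 * P ^ 2)) * exp (-(l / 2 * v) + l ^ 2 / 16 * v)) :=
    mul_le_mul_of_nonneg_left (h1.trans e4) (by positivity)
  refine e5.trans ?_
  have e6 := mul_le_mul_of_nonneg_left h5 (exp_pos (-(7 * P ^ 2))).le
  refine le_trans (le_of_eq ?_) e6
  ring

lemma exp14_bound {P : ℝ} (hP2 : 2 ≤ P) : exp (-(14 * P)) ≤ 1 / (512 * P ^ 3) := by
  have h1 : P ^ 14 ≤ exp (14 * P) := by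
    have h2 : P ≤ exp P := by linarith [add_one_le_exp P]
    have h3 : exp (14 * P) = exp P ^ 14 := by
      rw [← exp_nat_mul]; norm_num
    rw [h3]
    exact pow_le_pow_left₀ (by linarith) h2 14
  have hbig : 512 * P ^ 3 ≤ exp (14 * P) := by
    refine le_trans ?_ h1
    have h4 : (2 : ℝ) ^ 11 ≤ P ^ 11 := pow_le_pow_left₀ (by norm_num) hP2 11
    have h5 : P ^ 14 = P ^ 11 * P ^ 3 := by ring
    rw [h5]
    apply mul_le_mul_of_nonneg_right _ (by positivity)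
    linarith
  rw [exp_neg, ← one_div]
  exact one_div_le_one_div_of_le (by positivity) hbig

lemma cB_bound {P x l : ℝ} (hP1 : 1 ≤ P) (hx0 : 0 < x) (hl0 : 0 < l) (hlx : l * x = 16 * P)
    {p a m : ℕ} (hpP : (p : ℝ) = P) (ha2 : (a : ℝ) ≤ x / (8 * P ^ 2))
    (hmlow : 4 * P ^ 2 * x ≤ m) :
    (1 - (exp (-l)) ^ ((p - 1) * a) / p) ^ m ≤ exp (-(x / (64 * P ^ 3))) := by
  rw [hpP]
  have hρlt : exp (-l) < 1 := by rw [exp_lt_one_iff]; linarith
  have h1 : exp (-2) ≤ (exp (-l)) ^ ((p - 1) * a) := by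
    rw [← exp_nat_mul]
    apply exp_le_exp.2
    have h2 : (((p - 1) * a : ℕ) : ℝ) ≤ P * (x / (8 * P ^ 2)) := by
      rw [Nat.cast_mul]
      have h3 : ((p - 1 : ℕ) : ℝ) ≤ P := by
        rw [← hpP]
        exact_mod_cast Nat.sub_le p 1
      exact mul_le_mul h3 ha2 (Nat.cast_nonneg _) (by linarith)
    have h3 : l * (((p - 1) * a : ℕ) : ℝ) ≤ l * (P * (x / (8 * P ^ 2))) :=
      mul_le_mul_of_nonneg_left h2 hl0.le
    have h4 : l * (P * (x / (8 * P ^ 2))) = 2 := by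
      have h5 : l * (P * (x / (8 * P ^ 2))) = (l * x) / (8 * P) := by
        field_simp
      rw [h5, hlx]
      field_simp
      norm_num
    linarith
  have h5 : 1 / 8 ≤ exp (-2) := by
    have h6 : exp 1 < 2.7182818286 := exp_one_lt_d9
    have h7 : exp (-2) = 1 / (exp 1 * exp 1) := by
      rw [← exp_add, exp_neg, ← one_div]
      norm_num
    rw [h7]
    apply one_div_le_one_div_of_le (by positivity)
    have h8 : 0 < exp 1 := exp_pos 1
    nlinarith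
  have h9 : 1 - (exp (-l)) ^ ((p - 1) * a) / P ≤ exp (-(1 / (8 * P))) := by
    have h10 : 1 / (8 * P) ≤ (exp (-l)) ^ ((p - 1) * a) / P := by
      have e : 1 / (8 * P) = (1 / 8) / P := by field_simp
      rw [e]
      apply div_le_div_of_nonneg_right _ (by linarith)
      linarith
    linarith [one_sub_le_exp_neg (1 / (8 * P))]
  have h11 : 0 ≤ 1 - (exp (-l)) ^ ((p - 1) * a) / P := by
    rw [sub_nonneg, div_le_one (by linarith)]
    exact (pow_le_one₀ (exp_pos _).le hρlt.le).trans hP1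
  calc (1 - (exp (-l)) ^ ((p - 1) * a) / P) ^ m ≤ (exp (-(1 / (8 * P)))) ^ m :=
        pow_le_pow_left₀ h11 h9 m
    _ = exp (-(m / (8 * P))) := by
        rw [← exp_nat_mul]
        congr 1
        ring
    _ ≤ exp (-(x / (64 * P ^ 3))) := by
        apply exp_le_exp.2
        apply neg_le_neg
        have e1 : x / (64 * P ^ 3) ≤ x := by
          rw [div_le_iff₀ (by positivity)]
          have : (1 : ℝ) ≤ P ^ 3 := one_le_pow₀ hP1
          nlinarith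
        have e2 : x / 2 ≤ m / (8 * P) := by
          rw [div_le_div_iff₀ (by norm_num) (by positivity)]
          nlinarith [mul_nonneg hx0.le (sub_nonneg.2 hP1)]
        have e3 : x / (64 * P ^ 3) ≤ x / 2 := by
          apply div_le_div_of_nonneg_left hx0.le (by norm_num)
          have : (1 : ℝ) ≤ P ^ 3 := one_le_pow₀ hP1
          linarith
        linarith

lemma cA_bound {P x l : ℝ} (hP1 : 1 ≤ P) (hx0 : 0 < x) (hl0 : 0 < l) (hlP : l * P ≤ 1)
    {p a : ℕ} (hpP : (p : ℝ) = P) (ha1 : x / (16 * P ^ 2) ≤ a) :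
    (1 - (exp (-l)) ^ (p - 1) / p) ^ a ≤ exp (-(x / (64 * P ^ 3))) := by
  rw [hpP]
  have hρlt : exp (-l) < 1 := by rw [exp_lt_one_iff]; linarith
  have h1 : exp (-1) ≤ (exp (-l)) ^ (p - 1) := by
    rw [← exp_nat_mul]
    apply exp_le_exp.2
    have h2 : ((p - 1 : ℕ) : ℝ) ≤ P := by
      rw [← hpP]
      exact_mod_cast Nat.sub_le p 1
    have h3 : l * ((p - 1 : ℕ) : ℝ) ≤ l * P := mul_le_mul_of_nonneg_left h2 hl0.le
    linarith
  have h5 : 1 / 4 ≤ exp (-1) := by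
    have h6 : exp 1 < 2.7182818286 := exp_one_lt_d9
    rw [exp_neg, ← one_div]
    apply one_div_le_one_div_of_le (exp_pos 1)
    linarith
  have h9 : 1 - (exp (-l)) ^ (p - 1) / P ≤ exp (-(1 / (4 * P))) := by
    have h10 : 1 / (4 * P) ≤ (exp (-l)) ^ (p - 1) / P := by
      have e : 1 / (4 * P) = (1 / 4) / P := by field_simp
      rw [e]
      apply div_le_div_of_nonneg_right _ (by linarith)
      linarith
    linarith [one_sub_le_exp_neg (1 / (4 * P))]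
  have h11 : 0 ≤ 1 - (exp (-l)) ^ (p - 1) / P := by
    rw [sub_nonneg, div_le_one (by linarith)]
    exact (pow_le_one₀ (exp_pos _).le hρlt.le).trans hP1
  calc (1 - (exp (-l)) ^ (p - 1) / P) ^ a ≤ (exp (-(1 / (4 * P)))) ^ a :=
        pow_le_pow_left₀ h11 h9 a
    _ = exp (-(a / (4 * P))) := by
        rw [← exp_nat_mul]
        congr 1
        ring
    _ ≤ exp (-(x / (64 * P ^ 3))) := by
        apply exp_le_exp.2
        apply neg_le_neg
        have e : x / (64 * P ^ 3) = (x / (16 * P ^ 2)) / (4 * P) := by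
          field_simp
          norm_num
        rw [e]
        exact div_le_div_of_nonneg_right ha1 (by positivity)

lemma lhs_bound {P x l : ℝ} (hP2 : 2 ≤ P) (hx0 : 0 < x) (hl0 : 0 < l) (hl1 : l ≤ 1)
    (hlx : l * x = 16 * P) {q M : ℕ} (hq : x ≤ q) (hM : (M : ℝ) ≤ x) :
    exp (-(x / (128 * P ^ 3))) * (1 / x)
      ≤ ((1 - (exp (-l)) ^ q) * (1 - exp (-(7 * P ^ 2)))) ^ M
        * ((1 - exp (-l)) * (1 - exp (-(7 * P ^ 2)))) := by
  set ε := exp (-(14 * P)) with hε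
  set δ := exp (-(7 * P ^ 2)) with hδ
  have hε0 : 0 < ε := exp_pos _
  have hδ0 : 0 < δ := exp_pos _
  have hδε : δ ≤ ε := by
    apply exp_le_exp.2
    nlinarith
  have hsmall : ε ≤ 1 / (512 * P ^ 3) := exp14_bound hP2
  have hP3 : (8 : ℝ) ≤ P ^ 3 := by
    have := pow_le_pow_left₀ (by norm_num : (0 : ℝ) ≤ 2) hP2 3
    linarith
  have hsmall4 : ε ≤ 1 / 4 := by
    refine hsmall.trans ?_
    apply one_div_le_one_div_of_le (by norm_num)
    linarith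
  have hLHS1 : exp (-(x / (128 * P ^ 3))) ≤ ((1 - (exp (-l)) ^ q) * (1 - δ)) ^ M := by
    have h1 : (exp (-l)) ^ q ≤ ε := by
      rw [← exp_nat_mul]
      apply exp_le_exp.2
      have h0 : l * x ≤ l * q := mul_le_mul_of_nonneg_left hq hl0.le
      rw [hlx] at h0
      linarith
    have h2 : (1 - 2 * ε) ≤ (1 - (exp (-l)) ^ q) * (1 - δ) := by
      have e1 : 1 - ε ≤ 1 - (exp (-l)) ^ q := by linarith
      have e2 : 1 - ε ≤ 1 - δ := by linarith
      have e3 : 0 ≤ 1 - ε := by linarith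
      have e4 := mul_le_mul e1 e2 e3 (by linarith : 0 ≤ 1 - (exp (-l)) ^ q)
      nlinarith [sq_nonneg ε]
    have h3 : exp (-(2 * (2 * ε))) ≤ 1 - 2 * ε := exp_neg_two_mul_le (by positivity) (by linarith)
    have h4 : 2 * (2 * ε) * (M : ℝ) ≤ 2 * (2 * (1 / (512 * P ^ 3))) * x :=
      mul_le_mul (by linarith) hM (Nat.cast_nonneg _) (by positivity)
    have h5 : 2 * (2 * (1 / (512 * P ^ 3))) * x = x / (128 * P ^ 3) := by
      field_simp
      norm_num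
    calc exp (-(x / (128 * P ^ 3))) ≤ exp ((M : ℝ) * (-(2 * (2 * ε)))) := by
          apply exp_le_exp.2
          linarith
      _ = (exp (-(2 * (2 * ε)))) ^ M := by
          rw [← exp_nat_mul]
      _ ≤ _ := pow_le_pow_left₀ (exp_pos _).le (h3.trans h2) _
  have hLHS2 : 1 / x ≤ (1 - exp (-l)) * (1 - δ) := by
    have h1 : l / 2 ≤ 1 - exp (-l) := by
      have h0 := exp_neg_two_mul_le (y := l / 2) (by positivity) (by linarith)
      have e : -(2 * (l / 2)) = -l := by ring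
      rw [e] at h0
      linarith
    have h2 : 1 / 2 ≤ 1 - δ := by linarith
    have h3 : 1 / x ≤ (l / 2) * (1 / 2) := by
      rw [div_le_iff₀ hx0]
      have e : l / 2 * (1 / 2) * x = (l * x) / 4 := by ring
      rw [e, hlx]
      linarith
    refine h3.trans ?_
    exact mul_le_mul h1 h2 (by norm_num) (by linarith)
  exact mul_le_mul hLHS1 hLHS2 (by positivity) ((exp_pos _).le.trans hLHS1)

lemma combine {P x s : ℝ} (hP1 : 1 ≤ P) (hx0 : 0 < x) (hs0 : 0 ≤ s)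
    (hxbig : 2 ^ 17 * P ^ 6 ≤ x)
    (hmain : exp (-(x / (128 * P ^ 3))) * (1 / x) ≤ s ^ 2 * exp (-(x / (64 * P ^ 3)))) :
    (2 : ℝ) ^ (x / (512 * P ^ 3)) ≤ s := by
  have hmain2 : exp (x / (128 * P ^ 3)) ≤ s ^ 2 * x := by
    have h1 : exp (x / (128 * P ^ 3)) = exp (-(x / (128 * P ^ 3))) * exp (x / (64 * P ^ 3)) := by
      rw [← exp_add]
      congr 1
      field_simp
      ring
    have h2 : exp (-(x / (64 * P ^ 3))) * exp (x / (64 * P ^ 3)) = 1 := by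
      rw [← exp_add]; simp
    rw [h1]
    have h3 : exp (-(x / (128 * P ^ 3))) ≤ s ^ 2 * exp (-(x / (64 * P ^ 3))) * x := by
      rw [mul_one_div, div_le_iff₀ hx0] at hmain
      exact hmain
    have h4 := mul_le_mul_of_nonneg_right h3 (exp_pos (x / (64 * P ^ 3))).le
    refine h4.trans (le_of_eq ?_)
    calc (s ^ 2 * exp (-(x / (64 * P ^ 3))) * x) * exp (x / (64 * P ^ 3))
        = s ^ 2 * x * (exp (-(x / (64 * P ^ 3))) * exp (x / (64 * P ^ 3))) := by ring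
      _ = s ^ 2 * x := by rw [h2, mul_one]
  have hxexp : x ≤ exp (x / (256 * P ^ 3)) := by
    have h1 := quadratic_le_exp_of_nonneg (x := x / (256 * P ^ 3)) (by positivity)
    refine le_trans ?_ h1
    have h2 : x ≤ (x / (256 * P ^ 3)) ^ 2 / 2 := by
      rw [div_pow, div_div, le_div_iff₀ (by positivity)]
      have h3 : (256 * P ^ 3) ^ 2 * 2 = 2 ^ 17 * P ^ 6 := by ring
      rw [h3, sq]
      exact mul_le_mul_of_nonneg_left hxbig hx0.le
    have h4 : 0 ≤ x / (256 * P ^ 3) := by positivity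
    linarith
  have hmain3 : exp (x / (256 * P ^ 3)) ≤ s ^ 2 := by
    have h1 : exp (x / (128 * P ^ 3)) = exp (x / (256 * P ^ 3)) * exp (x / (256 * P ^ 3)) := by
      rw [← exp_add]
      congr 1
      field_simp
      ring
    rw [h1] at hmain2
    have h2 : s ^ 2 * x ≤ s ^ 2 * exp (x / (256 * P ^ 3)) :=
      mul_le_mul_of_nonneg_left hxexp (by positivity)
    exact le_of_mul_le_mul_right (hmain2.trans h2) (exp_pos _)
  have hmain4 : exp (x / (512 * P ^ 3)) ≤ s := by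
    have h1 : exp (x / (256 * P ^ 3)) = exp (x / (512 * P ^ 3)) ^ 2 := by
      rw [← exp_nat_mul]
      congr 1
      push_cast
      field_simp
      ring
    rw [h1] at hmain3
    exact (pow_le_pow_iff_left₀ (exp_pos _).le hs0 (by norm_num)).1 hmain3
  refine le_trans ?_ hmain4
  rw [rpow_def_of_pos (by norm_num : (0 : ℝ) < 2)]
  apply exp_le_exp.2
  have h1 : log 2 ≤ 1 := by
    have := log_two_lt_d9
    linarith
  have h2 : 0 ≤ x / (512 * P ^ 3) := by positivity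
  nlinarith

lemma size_sq {V K : Type*} (C : Circuit V K) :
    (C.n4 : ℝ) + C.n4 * C.n2 ≤ (C.size : ℝ) ^ 2 := by
  have h0 : C.n4 + C.n4 * C.n2 ≤ C.size ^ 2 := by
    have h1 : C.n4 ≤ C.size := by unfold Circuit.size; omega
    have h2 : 1 + C.n2 ≤ C.size := by unfold Circuit.size; omega
    calc C.n4 + C.n4 * C.n2 = C.n4 * (1 + C.n2) := by ring
      _ ≤ C.size * C.size := Nat.mul_le_mul h1 h2
      _ = C.size ^ 2 := by ring
  exact_mod_cast h0

lemma m_low {P x : ℝ} (hP1 : 1 ≤ P) (hx1 : 1 ≤ x) {v a : ℕ} (hxsq : x ^ 2 = (v : ℝ) + 1)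
    (hapos : 0 < a) (ha2 : (a : ℝ) ≤ x / (8 * P ^ 2)) :
    4 * P ^ 2 * x ≤ (((v + 1) / a : ℕ) : ℝ) := by
  have hxpos : 0 < x := by linarith
  have h1 : (v : ℝ) + 1 < ((((v + 1) / a : ℕ) : ℝ) + 1) * a := by
    have h2 : v + 1 < ((v + 1) / a + 1) * a := by
      rw [add_mul, one_mul]
      exact Nat.lt_div_mul_add hapos
    exact_mod_cast h2
  obtain ⟨m, hm⟩ : ∃ m : ℝ, (((v + 1) / a : ℕ) : ℝ) = m := ⟨_, rfl⟩
  have hm0 : 0 ≤ m := by rw [← hm]; exact Nat.cast_nonneg _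
  rw [hm] at h1 ⊢
  have h2 : x ^ 2 < (m + 1) * (x / (8 * P ^ 2)) := by
    rw [hxsq]
    refine h1.trans_le ?_
    exact mul_le_mul_of_nonneg_left ha2 (by linarith)
  have h3 : x ^ 2 * (8 * P ^ 2) < (m + 1) * x := by
    rw [mul_div_assoc', lt_div_iff₀ (by positivity)] at h2
    exact h2
  have h4 : x * (8 * P ^ 2) < m + 1 := by
    have h5 : x * (x * (8 * P ^ 2)) < x * (m + 1) := by
      calc x * (x * (8 * P ^ 2)) = x ^ 2 * (8 * P ^ 2) := by ring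
        _ < (m + 1) * x := h3
        _ = x * (m + 1) := by ring
    exact lt_of_mul_lt_mul_left h5 hxpos.le
  have h6 : 1 ≤ P ^ 2 := one_le_pow₀ hP1
  have h7 : 1 ≤ P ^ 2 * x := by
    calc (1 : ℝ) = 1 * 1 := by ring
      _ ≤ P ^ 2 * x := mul_le_mul h6 hx1 (by norm_num) (by linarith)
  linarith

lemma M_bound {x : ℝ} (hx0 : 0 < x) {v q : ℕ} (hxsq : x ^ 2 = (v : ℝ) + 1) (hq : x ≤ q) :
    ((v / q : ℕ) : ℝ) ≤ x := by
  have h1 : ((v / q : ℕ) : ℝ) ≤ (v : ℝ) / (q : ℝ) := Nat.cast_div_le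
  have h2 : (v : ℝ) / (q : ℝ) ≤ (v : ℝ) / x :=
    div_le_div_of_nonneg_left (Nat.cast_nonneg _) hx0 hq
  have h3 : (v : ℝ) / x ≤ x := by
    rw [div_le_iff₀ hx0]
    linarith [sq x]
  linarith

lemma exists_f {p : ℕ} (hp : 2 ≤ p) {P x : ℝ} (hpP : (p : ℝ) = P) (hx1 : 1 ≤ x) :
    ∃ f : ℕ, ((p ^ f : ℕ) : ℝ) ≤ P * x ∧ x ≤ ((p ^ f : ℕ) : ℝ) := by
  have hP2 : 2 ≤ P := by rw [← hpP]; exact_mod_cast hp
  have hPx : 1 ≤ P * x := by
    calc (1 : ℝ) = 1 * 1 := by ring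
      _ ≤ P * x := mul_le_mul (by linarith) hx1 (by norm_num) (by linarith)
  have hfl : ⌊P * x⌋₊ ≠ 0 := by
    have : 1 ≤ ⌊P * x⌋₊ := by
      rw [Nat.one_le_floor_iff]
      exact hPx
    omega
  refine ⟨Nat.log p ⌊P * x⌋₊, ?_, ?_⟩
  · have h1 : p ^ (Nat.log p ⌊P * x⌋₊) ≤ ⌊P * x⌋₊ := Nat.pow_log_le_self p hfl
    have h2 : ((p ^ (Nat.log p ⌊P * x⌋₊) : ℕ) : ℝ) ≤ (⌊P * x⌋₊ : ℝ) := by exact_mod_cast h1
    exact h2.trans (Nat.floor_le (by linarith))
  · have h1 : ⌊P * x⌋₊ < p ^ (Nat.log p ⌊P * x⌋₊ + 1) := Nat.lt_pow_succ_log_self (by omega) _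
    rw [Nat.floor_lt (by linarith), pow_succ, Nat.cast_mul, hpP, mul_comm _ P] at h1
    exact (lt_of_mul_lt_mul_left h1 (by linarith)).le

lemma exists_a {P x : ℝ} (hP1 : 1 ≤ P) (hx16 : 16 * P ^ 2 ≤ x) :
    ∃ a : ℕ, 0 < a ∧ x / (16 * P ^ 2) ≤ a ∧ (a : ℝ) ≤ x / (8 * P ^ 2) := by
  have hP0 : 0 < P := by linarith
  have hxpos : 0 < x := lt_of_lt_of_le (by positivity) hx16
  have ha0 : 0 < x / (16 * P ^ 2) := by positivity
  refine ⟨⌈x / (16 * P ^ 2)⌉₊, Nat.ceil_pos.2 ha0, Nat.le_ceil _, ?_⟩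
  have h1 : (⌈x / (16 * P ^ 2)⌉₊ : ℝ) < x / (16 * P ^ 2) + 1 := Nat.ceil_lt_add_one ha0.le
  have h2 : 1 ≤ x / (16 * P ^ 2) := by
    rw [le_div_iff₀ (by positivity)]
    linarith
  have h3 : x / (8 * P ^ 2) = x / (16 * P ^ 2) + x / (16 * P ^ 2) := by
    field_simp
    ring
  linarith

lemma size_lower_aux (p : ℕ) [hpf : Fact p.Prime] {K : Type*} [Field K] [CharP K p] {v : ℕ}
    {P x : ℝ} (hpP : (p : ℝ) = P) (hP2 : 2 ≤ P) (hxsq : x ^ 2 = (v : ℝ) + 1)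
    (hxbig : 2 ^ 17 * P ^ 6 ≤ x) (hx16 : 16 * P ^ 2 ≤ x) (hx64 : 64 ≤ x)
    (C : Circuit (Fin (v + 1) × Fin (v + 1) × Fin (v + 1)) K) (hC : C.IsHomogeneous)
    (hval : C.val = IMM K (v + 1) (v + 1)) :
    (2 : ℝ) ^ (x / (512 * P ^ 3)) ≤ C.size := by
  have hP1 : 1 ≤ P := by linarith
  have hxpos : 0 < x := by linarith
  obtain ⟨f, hq1, hq2⟩ := exists_f hpf.out.two_le hpP (by linarith : 1 ≤ x)
  have hqv : p ^ f ≤ v := by
    have h1 : ((p ^ f : ℕ) : ℝ) ≤ (v : ℝ) := by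
      have hvx : (v : ℝ) = x ^ 2 - 1 := by linarith
      rw [hvx]
      have h2 : P * x ≤ (x / 16) * x := by
        apply mul_le_mul_of_nonneg_right _ hxpos.le
        have : P ≤ P ^ 2 := by nlinarith
        linarith
      nlinarith
    exact_mod_cast h1
  obtain ⟨l, hl⟩ : ∃ l : ℝ, 16 * P / x = l := ⟨_, rfl⟩
  have hl0 : 0 < l := by rw [← hl]; positivity
  have hlx : l * x = 16 * P := by rw [← hl]; field_simp
  have hlP : l * P ≤ 1 := by
    rw [← hl, div_mul_eq_mul_div, div_le_one hxpos]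
    linarith [sq P]
  have hl1 : l ≤ 1 := by nlinarith
  have hρlt : exp (-l) < 1 := by rw [exp_lt_one_iff]; linarith
  have hδlt : exp (-(7 * P ^ 2)) < 1 := by
    rw [exp_lt_one_iff]
    have : 0 < P ^ 2 := by positivity
    linarith
  obtain ⟨a, hapos, ha1, ha2⟩ := exists_a hP1 hx16
  have hmlow := m_low hP1 (by linarith : 1 ≤ x) hxsq hapos ha2
  have hcore := core p hqv (exp_pos (-l)) hρlt.le
    (fun j hj => delta_bound hP2 hl0 hl1 hlx hxsq hq1 hj) hapos (Nat.div_mul_le_self _ _)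
    C hC hval hρlt hδlt
  have hcB := cB_bound hP1 hxpos hl0 hlx hpP ha2 hmlow
  have hcA := cA_bound hP1 hxpos hl0 hlP hpP ha1
  have hlhs := lhs_bound hP2 hxpos hl0 hl1 hlx hq2 (M_bound hxpos hxsq hq2)
  refine combine hP1 hxpos (Nat.cast_nonneg _) hxbig (hlhs.trans (hcore.trans ?_))
  have h3 : (0 : ℝ) ≤ C.n4 := Nat.cast_nonneg _
  have h4 : (0 : ℝ) ≤ C.n2 := Nat.cast_nonneg _
  have hE := (exp_pos (-(x / (64 * P ^ 3)))).le
  have i1 := mul_le_mul_of_nonneg_left hcB h3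
  have i2 := mul_le_mul_of_nonneg_left (mul_le_mul_of_nonneg_left hcA h4) h3
  have i3 := mul_le_mul_of_nonneg_right (size_sq C) hE
  refine (add_le_add i1 i2).trans ?_
  refine le_trans (le_of_eq ?_) i3
  ring

/-- The lower bound on the size. -/
theorem size_lower (p : ℕ) [hpf : Fact p.Prime] {K : Type*} [Field K] [CharP K p] {v : ℕ}
    (hv : 2 ^ 34 * p ^ 12 ≤ v + 1)
    (C : Circuit (Fin (v + 1) × Fin (v + 1) × Fin (v + 1)) K) (hC : C.IsHomogeneous)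
    (hval : C.val = IMM K (v + 1) (v + 1)) :
    (2 : ℝ) ^ (√((v + 1 : ℕ) : ℝ) / (512 * (p : ℝ) ^ 3)) ≤ C.size := by
  obtain ⟨P, hpP⟩ : ∃ P : ℝ, (p : ℝ) = P := ⟨_, rfl⟩
  obtain ⟨x, hx⟩ : ∃ x : ℝ, √((v + 1 : ℕ) : ℝ) = x := ⟨_, rfl⟩
  rw [hpP, hx]
  have hP2 : 2 ≤ P := by rw [← hpP]; exact_mod_cast hpf.out.two_le
  have hxsq : x ^ 2 = (v : ℝ) + 1 := by
    rw [← hx, sq_sqrt (by positivity)]
    push_cast
    ring
  have hxbig : 2 ^ 17 * P ^ 6 ≤ x := by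
    rw [← hx, ← hpP]
    apply le_sqrt_of_sq_le
    have h : ((2 ^ 34 * p ^ 12 : ℕ) : ℝ) ≤ ((v + 1 : ℕ) : ℝ) := Nat.cast_le.2 hv
    refine le_trans (le_of_eq ?_) h
    rw [Nat.cast_mul, Nat.cast_pow, Nat.cast_pow]
    push_cast
    ring
  have hP1 : 1 ≤ P := by linarith
  have hP26 : P ^ 2 ≤ P ^ 6 := pow_le_pow_right₀ hP1 (by norm_num)
  have hPsq : 4 ≤ P ^ 2 := by nlinarith
  exact size_lower_aux p hpP hP2 hxsq hxbig (by linarith) (by linarith) C hC hval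

end Vale.Agent.P346
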