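import Vale.Agent.P346.Core0

/-!
The choice of the parameters in characteristic zero.
-/

namespace Vale.Agent.P346

open Finset MvPolynomial

/-- Bounds for the numbers of blocks and pairs. -/
lemma BQ_bounds {n : ℕ} {y : ℝ} (hy : 10 ≤ y) (hn : (n : ℝ) = y ^ 10) {B Q : ℕ}
    (hB : B = 2 * (Nat.sqrt n / 16) + n % 2) (hQ : Q = (n - B) / 2) :
    y ^ 5 / 9 ≤ B ∧ (B : ℝ) ≤ y ^ 5 / 7 ∧ 2 * Q + B = n ∧ (Q : ℝ) ≤ y ^ 10 / 2 ∧
      0.49 * y ^ 10 ≤ (Q : ℝ) := by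
  have hy0 : 0 < y := by linarith
  obtain ⟨z, hz⟩ : ∃ z : ℝ, z = y ^ 5 := ⟨_, rfl⟩
  have hz5 : 100000 ≤ z := by
    rw [hz]
    calc (100000 : ℝ) = 10 ^ 5 := by norm_num
      _ ≤ y ^ 5 := pow_le_pow_left₀ (by norm_num) hy 5
  have hnz : (n : ℝ) = z ^ 2 := by rw [hn, hz]; ring
  set r := Nat.sqrt n with hr
  have h1 : (r : ℝ) ≤ z := by
    have := Nat.sqrt_le' n
    have h2 : ((r : ℝ)) ^ 2 ≤ z ^ 2 := by
      rw [← hnz]
      exact_mod_cast this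
    exact le_of_sq_le_sq h2 (by linarith)
  have h2 : z < r + 1 := by
    have := Nat.lt_succ_sqrt' n
    have h3 : z ^ 2 < ((r : ℝ) + 1) ^ 2 := by
      rw [← hnz]
      exact_mod_cast this
    exact lt_of_pow_lt_pow_left₀ 2 (by positivity) h3
  have h3 : n % 2 < 2 := Nat.mod_lt _ (by norm_num)
  have h4 := Nat.div_add_mod r 16
  have h5 : r % 16 < 16 := Nat.mod_lt _ (by norm_num)
  have hB1 : 8 * B ≤ r + 8 := by omega
  have hB2 : r ≤ 8 * B + 15 := by omega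
  have hB1' : 8 * (B : ℝ) ≤ r + 8 := by exact_mod_cast hB1
  have hB2' : (r : ℝ) ≤ 8 * B + 15 := by exact_mod_cast hB2
  have hBu : (B : ℝ) ≤ z / 7 := by linarith
  have hBl : z / 9 ≤ B := by linarith
  have hzz : z * 100000 ≤ z ^ 2 := by nlinarith
  have hBn : B ≤ n := by
    have : (B : ℝ) ≤ n := by rw [hnz]; linarith
    exact_mod_cast this
  have hpar : (n - B) % 2 = 0 := by omega
  have hQB : 2 * Q + B = n := by omega
  have hQB' : 2 * (Q : ℝ) + B = z ^ 2 := by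
    rw [← hnz]
    exact_mod_cast hQB
  have hz10 : y ^ 10 = z ^ 2 := by rw [hz]; ring
  rw [← hz, hz10]
  refine ⟨hBl, hBu, hQB, ?_, ?_⟩
  · have : (0 : ℝ) ≤ B := Nat.cast_nonneg _
    linarith
  · linarith

/-- The exponential parameter. -/
lemma t_bounds {y ℓ B Q : ℝ} (hy : 10 ≤ y) (hℓ : ℓ = Real.log y) (hB1 : y ^ 5 / 9 ≤ B)
    (hB2 : B ≤ y ^ 5 / 7) (hQ1 : Q ≤ y ^ 10 / 2) (hQ2 : 0.49 * y ^ 10 ≤ Q) :
    1 / y ^ 5 ≤ 6 * B * ℓ / Q ∧ 6 * B * ℓ / Q ≤ 1 / 2 := by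
  have hy0 : 0 < y := by linarith
  have hy10 : 0 < y ^ 10 := by positivity
  have hQ0 : 0 < Q := by linarith
  have hℓ1 : 3 / 4 ≤ ℓ := by
    rw [hℓ, Real.le_log_iff_exp_le hy0]
    have h1 : Real.exp (3 / 4) ≤ Real.exp 1 := Real.exp_le_exp.2 (by norm_num)
    have h2 := Real.exp_one_lt_d9
    linarith
  have hℓ2 : ℓ ≤ y := by
    rw [hℓ]
    exact (Real.log_le_sub_one_of_pos hy0).trans (by linarith)
  have hB0 : 0 < B := by
    have : 0 < y ^ 5 / 9 := by positivity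
    linarith
  constructor
  · rw [div_le_div_iff₀ (by positivity) hQ0, one_mul]
    have h1 : y ^ 5 / 9 * (3 / 4) ≤ B * ℓ := mul_le_mul hB1 hℓ1 (by norm_num) hB0.le
    have h2 : 6 * (y ^ 5 / 9 * (3 / 4)) * y ^ 5 ≤ 6 * (B * ℓ) * y ^ 5 := by
      apply mul_le_mul_of_nonneg_right _ (by positivity)
      linarith
    have h3 : 6 * (y ^ 5 / 9 * (3 / 4)) * y ^ 5 = y ^ 10 / 2 := by ring
    have h4 : 6 * B * ℓ * y ^ 5 = 6 * (B * ℓ) * y ^ 5 := by ring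
    rw [h4]
    linarith
  · rw [div_le_iff₀ hQ0]
    have h1 : B * ℓ ≤ y ^ 5 / 7 * y := mul_le_mul hB2 hℓ2 (by linarith) (by positivity)
    have h2 : y ^ 5 / 7 * y * 1000 ≤ y ^ 10 := by
      have h3 : (1000 : ℝ) ≤ y ^ 4 := by
        calc (1000 : ℝ) ≤ 10 ^ 4 := by norm_num
          _ ≤ y ^ 4 := pow_le_pow_left₀ (by norm_num) hy 4
      have h4 : y ^ 10 = y ^ 6 * y ^ 4 := by ring
      have h5 : y ^ 5 / 7 * y = y ^ 6 / 7 := by ring
      rw [h4, h5]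
      have h6 : 0 < y ^ 6 := by positivity
      nlinarith
    linarith

/-- The lengths of the blocks. -/
def qlist (B Q : ℕ) : List ℕ :=
  List.replicate (Q % B) (Q / B + 1) ++ List.replicate (B - Q % B) (Q / B)

lemma qlist_length {B Q : ℕ} (hB : 0 < B) : (qlist B Q).length = B := by
  unfold qlist
  rw [List.length_append, List.length_replicate, List.length_replicate]
  have := Nat.mod_lt Q hB
  omega

lemma qlist_sum {B Q : ℕ} (hB : 0 < B) : (qlist B Q).sum = Q := by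
  unfold qlist
  rw [List.sum_append, List.sum_replicate, List.sum_replicate, smul_eq_mul, smul_eq_mul]
  have h1 := Nat.mod_lt Q hB
  have h2 := Nat.div_add_mod Q B
  obtain ⟨k, hk⟩ := Nat.exists_eq_add_of_le h1.le
  have h3 : B - Q % B = k := by omega
  rw [h3]
  calc Q % B * (Q / B + 1) + k * (Q / B) = (Q % B + k) * (Q / B) + Q % B := by ring
    _ = B * (Q / B) + Q % B := by rw [← hk]
    _ = Q := h2

lemma qlist_le {B Q q : ℕ} (hq : q ∈ qlist B Q) : q ≤ Q / B + 1 := by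
  unfold qlist at hq
  rw [List.mem_append, List.mem_replicate, List.mem_replicate] at hq
  omega

lemma exp_half_le_two : Real.exp (1 / 2) ≤ 2 := by
  have h1 : Real.exp (1 / 2) ^ 2 = Real.exp 1 := by
    rw [← Real.exp_nat_mul]
    norm_num
  have h2 := Real.exp_one_lt_d9
  have h3 : Real.exp (1 / 2) ^ 2 ≤ 2 ^ 2 := by
    rw [h1]
    linarith
  exact le_of_sq_le_sq h3 (by norm_num)

/-- The parameters of the construction. -/
lemma params {n : ℕ} {y : ℝ} (hy : 10 ≤ y) (hn : (n : ℝ) = y ^ 10) {B Q a : ℕ}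
    (hB : B = 2 * (Nat.sqrt n / 16) + n % 2) (hQ : Q = (n - B) / 2) (ha : a = Q / (3 * B)) :
    ∃ κ : ℝ, 1 ≤ κ ∧ κ ^ a ≤ y ∧ 0 < B ∧ 2 * Q + B = n ∧
      (y ^ 3) ^ (Q + B) = (κ * y ^ 3) ^ Q ∧ 1 + 1 / y ^ 5 ≤ κ ^ 2 ∧ κ ^ 2 ≤ 2 ∧
      (∀ q ≤ Q / B + 1, (κ ^ 2) ^ q ≤ 2 * y ^ 6 ∧ (q : ℝ) ≤ 10 * y ^ 5) := by
  have hy0 : 0 < y := by linarith
  obtain ⟨hB1, hB2, hQB, hQ1, hQ2⟩ := BQ_bounds hy hn hB hQ
  obtain ⟨ℓ, hℓ⟩ : ∃ ℓ : ℝ, ℓ = Real.log y := ⟨_, rfl⟩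
  have hyℓ : Real.exp ℓ = y := by rw [hℓ, Real.exp_log hy0]
  have hℓ0 : 0 ≤ ℓ := by
    rw [hℓ]
    exact Real.log_nonneg (by linarith)
  obtain ⟨t1, t2⟩ := t_bounds hy hℓ hB1 hB2 hQ1 hQ2
  have hy5 : 0 < y ^ 5 := by positivity
  have hy10 : 0 < y ^ 10 := by positivity
  have hB0' : (0 : ℝ) < B := by linarith
  have hQ0' : (0 : ℝ) < Q := by linarith
  have hB0 : 0 < B := by exact_mod_cast hB0'
  have hQ0 : 0 < Q := by exact_mod_cast hQ0'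
  obtain ⟨t, ht⟩ : ∃ t : ℝ, t = 6 * B * ℓ / Q := ⟨_, rfl⟩
  rw [← ht] at t1 t2
  have ht0 : 0 ≤ t := by
    have : 0 < 1 / y ^ 5 := by positivity
    linarith
  have htQ : t * Q = 6 * B * ℓ := by
    rw [ht]
    field_simp
  have hsq : Real.exp (t / 2) ^ 2 = Real.exp t := by
    rw [← Real.exp_nat_mul]
    congr 1
    push_cast
    ring
  refine ⟨Real.exp (t / 2), ?_, ?_, hB0, hQB, ?_, ?_, ?_, ?_⟩
  · exact Real.one_le_exp (by linarith)
  · rw [← Real.exp_nat_mul, ← hyℓ]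
    apply Real.exp_le_exp.2
    have h1 : a * (3 * B) ≤ Q := by
      rw [ha]
      exact Nat.div_mul_le_self _ _
    have h2 : (a : ℝ) * (3 * B) ≤ Q := by exact_mod_cast h1
    have h3 : (a : ℝ) * (t / 2) * Q = a * (3 * B) * ℓ := by
      calc (a : ℝ) * (t / 2) * Q = a / 2 * (t * Q) := by ring
        _ = _ := by rw [htQ]; ring
    have h4 : (a : ℝ) * (t / 2) * Q ≤ ℓ * Q := by
      rw [h3]
      have := mul_le_mul_of_nonneg_right h2 hℓ0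
      linarith
    exact le_of_mul_le_mul_right h4 hQ0'
  · rw [mul_pow, ← Real.exp_nat_mul, pow_add]
    have h1 : (Q : ℝ) * (t / 2) = (3 * B : ℕ) * ℓ := by
      push_cast
      calc (Q : ℝ) * (t / 2) = t * Q / 2 := by ring
        _ = _ := by rw [htQ]; ring
    rw [h1, Real.exp_nat_mul, hyℓ, ← pow_mul y 3 B, mul_comm]
  · rw [hsq]
    have := Real.add_one_le_exp t
    linarith
  · rw [hsq]
    exact (Real.exp_le_exp.2 t2).trans exp_half_le_two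
  · intro q hq
    constructor
    · have h1 : (Real.exp (t / 2) ^ 2) ^ q ≤ (Real.exp (t / 2) ^ 2) ^ (Q / B + 1) := by
        apply pow_le_pow_right₀ _ hq
        rw [hsq]
        exact Real.one_le_exp ht0
      refine h1.trans ?_
      rw [hsq, pow_succ, ← Real.exp_nat_mul]
      have h2 : ((Q / B : ℕ) : ℝ) * t ≤ 6 * ℓ := by
        have h3 : ((Q / B : ℕ) : ℝ) * B ≤ Q := by exact_mod_cast Nat.div_mul_le_self Q B
        have h4 : ((Q / B : ℕ) : ℝ) * t * Q ≤ 6 * ℓ * Q := by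
          calc ((Q / B : ℕ) : ℝ) * t * Q = ((Q / B : ℕ) : ℝ) * (t * Q) := by ring
            _ = (((Q / B : ℕ) : ℝ) * B) * (6 * ℓ) := by rw [htQ]; ring
            _ ≤ Q * (6 * ℓ) := mul_le_mul_of_nonneg_right h3 (by linarith)
            _ = _ := by ring
        exact le_of_mul_le_mul_right h4 hQ0'
      have h5 : Real.exp (((Q / B : ℕ) : ℝ) * t) ≤ y ^ 6 := by
        have h6 : y ^ 6 = Real.exp (6 * ℓ) := by
          rw [← hyℓ, ← Real.exp_nat_mul]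
          norm_num
        rw [h6]
        exact Real.exp_le_exp.2 h2
      have h7 : Real.exp t ≤ 2 := (Real.exp_le_exp.2 t2).trans exp_half_le_two
      have h8 := mul_le_mul h5 h7 (Real.exp_pos t).le (by positivity)
      linarith
    · have h1 : (q : ℝ) ≤ ((Q / B : ℕ) : ℝ) + 1 := by exact_mod_cast hq
      have h2 : ((Q / B : ℕ) : ℝ) ≤ Q / B := Nat.cast_div_le
      have h3 : (Q : ℝ) / B ≤ 9 / 2 * y ^ 5 := by
        rw [div_le_iff₀ hB0']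
        have h4 : 9 / 2 * y ^ 5 * (y ^ 5 / 9) ≤ 9 / 2 * y ^ 5 * B :=
          mul_le_mul_of_nonneg_left hB1 (by positivity)
        have h5 : 9 / 2 * y ^ 5 * (y ^ 5 / 9) = y ^ 10 / 2 := by ring
        linarith
      have h6 : (1 : ℝ) ≤ y ^ 5 := one_le_pow₀ (by linarith)
      linarith

theorem size_lower0 : ∃ N₀ : ℕ, ∀ (K : Type*) [Field K] [CharZero K] (v : ℕ), N₀ ≤ v + 1 →
    ∀ C : Circuit (Fin (v + 1) × Fin (v + 1) × Fin (v + 1)) K, C.IsHomogeneous →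
      C.val = IMM K (v + 1) (v + 1) →
      ((v + 1 : ℕ) : ℝ) ^ (√((v + 1 : ℕ) : ℝ) / 100) ≤ (C.size : ℝ) := by
  obtain ⟨y₀, hy₀, hrec⟩ := recur_bound
  obtain ⟨N₁, hN₁⟩ := final_numeric
  obtain ⟨N₂, hN₂⟩ := exists_nat_ge ((max y₀ 10) ^ 10)
  refine ⟨max N₁ (max N₂ 2), ?_⟩
  intro K _ _ v hv C hC hval
  have hv1 : N₁ ≤ v + 1 := (le_max_left _ _).trans hv
  have hv2 : N₂ ≤ v + 1 := ((le_max_left _ _).trans (le_max_right _ _)).trans hv
  have hv3 : 2 ≤ v + 1 := ((le_max_right _ _).trans (le_max_right _ _)).trans hv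
  obtain ⟨y, hy⟩ : ∃ y : ℝ, y = ((v + 1 : ℕ) : ℝ) ^ ((1 : ℝ) / 10) := ⟨_, rfl⟩
  have hn : ((v + 1 : ℕ) : ℝ) = y ^ 10 := by
    rw [hy, ← Real.rpow_natCast, ← Real.rpow_mul (Nat.cast_nonneg _)]
    norm_num
  have hy0 : 0 ≤ y := by
    rw [hy]
    exact Real.rpow_nonneg (Nat.cast_nonneg _) _
  have hymax : max y₀ 10 ≤ y := by
    have h1 : (max y₀ 10) ^ 10 ≤ y ^ 10 := by
      rw [← hn]
      exact hN₂.trans (by exact_mod_cast hv2)
    exact le_of_pow_le_pow_left₀ (by norm_num) hy0 h1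
  have hyy : y₀ ≤ y := (le_max_left _ _).trans hymax
  have hy10 : 10 ≤ y := (le_max_right _ _).trans hymax
  have hypos : 0 < y := by linarith
  obtain ⟨B, hB⟩ : ∃ B, B = 2 * (Nat.sqrt (v + 1) / 16) + (v + 1) % 2 := ⟨_, rfl⟩
  obtain ⟨Q, hQ⟩ : ∃ Q, Q = (v + 1 - B) / 2 := ⟨_, rfl⟩
  obtain ⟨a, ha⟩ : ∃ a, a = Q / (3 * B) := ⟨_, rfl⟩
  obtain ⟨κ, hκ1, hκa, hB0, hQB, hbal, hg1, hg2, hq⟩ := params hy10 hn hB hQ ha
  have hlen := qlist_length (Q := Q) hB0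
  have hsum := qlist_sum (Q := Q) hB0
  -- the bound for a block
  have hE : ∀ q ∈ qlist B Q, (eij (v + 1 : ℝ) (1 / (y ^ 3) ^ 2) ((κ * y ^ 3) ^ 2) q).1
      ≤ 1000 * y ^ 2 := by
    intro q hqm
    obtain ⟨h1, h2⟩ := hq q (qlist_le hqm)
    have hD : (y ^ 3) ^ 2 = y ^ 6 := by ring
    have hD' : (κ * y ^ 3) ^ 2 = κ ^ 2 * y ^ 6 := by ring
    have hnn := fun k => eij_nonneg (n := (v + 1 : ℝ)) (wx := 1 / (y ^ 3) ^ 2)
      (wy := (κ * y ^ 3) ^ 2) (by positivity) (by positivity) (by positivity) k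
    set e := eij (v + 1 : ℝ) (1 / (y ^ 3) ^ 2) ((κ * y ^ 3) ^ 2) with he
    refine hrec y (v + 1 : ℝ) (y ^ 6) (κ ^ 2) (κ ^ 2 * y ^ 6) q (fun k => (e k).1)
      (fun k => (e k).2.1) (fun k => (e k).2.2)
      (fun k => (1 + κ ^ 2 * y ^ 6) / (v + 1 : ℝ) * (e k).1 + (e k).2.1
        + κ ^ 2 * y ^ 6 * (e k).2.2)
      (fun k => (e k).1 / (v + 1 : ℝ) + (e k).2.1)
      (fun k => κ ^ 2 * y ^ 6 * ((e k).1 / (v + 1 : ℝ) + (e k).2.2))
      hyy (by rw [← hn]; push_cast; ring) rfl hg1 hg2 rfl h1 h2 hnn ?_ ?_ ?_ ?_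
    · show 1 + 1 / (y ^ 3) ^ 2 ≤ 1 + 1 / y ^ 6
      rw [hD]
    · exact le_rfl
    · show 1 / (y ^ 3) ^ 2 ≤ 1 / y ^ 6
      rw [hD]
    · intro k _
      refine ⟨le_rfl, le_rfl, le_rfl, ?_, ?_, ?_⟩
      · apply le_of_eq
        show (1 + 1 / (y ^ 3) ^ 2) / (v + 1 : ℝ) * ((1 + (κ * y ^ 3) ^ 2) / (v + 1 : ℝ) * (e k).1
          + (e k).2.1 + (κ * y ^ 3) ^ 2 * (e k).2.2) + ((e k).1 / (v + 1 : ℝ) + (e k).2.1)
          + 1 / (y ^ 3) ^ 2 * ((κ * y ^ 3) ^ 2 * ((e k).1 / (v + 1 : ℝ) + (e k).2.2)) = _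
        rw [hD, hD']
        ring
      · apply le_of_eq
        show ((1 + (κ * y ^ 3) ^ 2) / (v + 1 : ℝ) * (e k).1
          + (e k).2.1 + (κ * y ^ 3) ^ 2 * (e k).2.2) / (v + 1 : ℝ)
          + ((e k).1 / (v + 1 : ℝ) + (e k).2.1) = _
        rw [hD']
      · apply le_of_eq
        show 1 / (y ^ 3) ^ 2 * (((1 + (κ * y ^ 3) ^ 2) / (v + 1 : ℝ) * (e k).1
          + (e k).2.1 + (κ * y ^ 3) ^ 2 * (e k).2.2) / (v + 1 : ℝ)
          + (κ * y ^ 3) ^ 2 * ((e k).1 / (v + 1 : ℝ) + (e k).2.2)) = _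
        rw [hD, hD']
  have hcore := core0 (K := K) (v := v) (by omega) (by linarith : (2 : ℝ) ≤ y) hκ1 hκa (qlist B Q)
    (by rw [hlen, hsum, hQB]) (by rw [hlen, hsum]; exact hbal) hE C hC hval
  rw [hlen] at hcore
  apply hN₁ (v + 1) hv1 y (C.size : ℝ) B Q a hy hB hQ ha (Nat.cast_nonneg _)
  -- the final inequality
  have hκ0 : 0 < κ := by linarith
  have e1 : 2 * ((v + 1 : ℕ) : ℝ) / y ^ 5 = 2 * y ^ 5 := by
    rw [hn]
    field_simp
  rw [e1] at hcore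
  have hs4 : (C.n4 : ℝ) ≤ C.size := by
    unfold Circuit.size
    push_cast
    have h1 : (0 : ℝ) ≤ C.n0 := Nat.cast_nonneg _
    have h2 : (0 : ℝ) ≤ C.n1 := Nat.cast_nonneg _
    have h3 : (0 : ℝ) ≤ C.n2 := Nat.cast_nonneg _
    have h4 : (0 : ℝ) ≤ C.n3 := Nat.cast_nonneg _
    linarith
  have hs2 : (C.n2 : ℝ) ≤ C.size := by
    unfold Circuit.size
    push_cast
    have h1 : (0 : ℝ) ≤ C.n0 := Nat.cast_nonneg _
    have h2 : (0 : ℝ) ≤ C.n1 := Nat.cast_nonneg _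
    have h3 : (0 : ℝ) ≤ C.n3 := Nat.cast_nonneg _
    have h4 : (0 : ℝ) ≤ C.n4 := Nat.cast_nonneg _
    linarith
  have hT : 0 < (1000 * y ^ 2) ^ B := by positivity
  rw [inv_le_iff_one_le_mul₀ hT]
  refine hcore.trans ?_
  apply mul_le_mul_of_nonneg_right _ hT.le
  apply add_le_add
  · rw [mul_assoc]
    apply mul_le_mul hs4 _ (by positivity) (Nat.cast_nonneg _)
    apply mul_le_mul_of_nonneg_right _ (Real.exp_pos _).le
    rw [one_div]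
    apply inv_anti₀ (by positivity)
    apply pow_le_pow_left₀ (by positivity)
    exact le_mul_of_one_le_left (by positivity) hκ1
  · rw [sq, mul_assoc (C.size : ℝ)]
    apply mul_le_mul hs4 _ (by positivity) (Nat.cast_nonneg _)
    exact mul_le_mul_of_nonneg_right hs2 (by positivity)

end Vale.Agent.P346
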