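import Vale.Agent.P346.TypeAB

/-!
Bound for the factor `Gd`.
-/

namespace Vale.Agent.P346

open Finset

/-- The main part of the coefficients. -/
noncomputable def cmain (d i : ℕ) : ℝ :=
  (if 2 * i = d then 1 else 0) + (if 2 * i + 1 = d then 1 / 2 else 0)
    + (if 2 * i = d + 1 then 1 / 2 else 0)

lemma cmain_nonneg (d i : ℕ) : 0 ≤ cmain d i := by
  unfold cmain
  split_ifs <;> norm_num

lemma sum_cmain_le (d : ℕ) : ∑ i ∈ range (d + 1), cmain d i ≤ 1 := by
  unfold cmain
  rw [Finset.sum_add_distrib, Finset.sum_add_distrib]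
  rcases Nat.even_or_odd' d with ⟨e, rfl | rfl⟩
  · have h1 : ∀ i ∈ range (2 * e + 1), (if 2 * i = 2 * e then (1 : ℝ) else 0)
        = if i = e then 1 else 0 := by
      intro i _
      by_cases h : i = e
      · rw [if_pos h, if_pos (by omega)]
      · rw [if_neg h, if_neg (by omega)]
    have h2 : ∀ i ∈ range (2 * e + 1), (if 2 * i + 1 = 2 * e then (1 / 2 : ℝ) else 0) = 0 := by
      intro i _
      exact if_neg (by omega)
    have h3 : ∀ i ∈ range (2 * e + 1), (if 2 * i = 2 * e + 1 then (1 / 2 : ℝ) else 0) = 0 := by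
      intro i _
      exact if_neg (by omega)
    rw [Finset.sum_congr rfl h1, Finset.sum_congr rfl h2, Finset.sum_congr rfl h3,
      Finset.sum_ite_eq', if_pos (by rw [Finset.mem_range]; omega)]
    simp
  · have h1 : ∀ i ∈ range (2 * e + 1 + 1), (if 2 * i = 2 * e + 1 then (1 : ℝ) else 0) = 0 := by
      intro i _
      exact if_neg (by omega)
    have h2 : ∀ i ∈ range (2 * e + 1 + 1), (if 2 * i + 1 = 2 * e + 1 then (1 / 2 : ℝ) else 0)
        = if i = e then 1 / 2 else 0 := by
      intro i _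
      by_cases h : i = e
      · rw [if_pos h, if_pos (by omega)]
      · rw [if_neg h, if_neg (by omega)]
    have h3 : ∀ i ∈ range (2 * e + 1 + 1), (if 2 * i = 2 * e + 1 + 1 then (1 / 2 : ℝ) else 0)
        = if i = e + 1 then 1 / 2 else 0 := by
      intro i _
      by_cases h : i = e + 1
      · rw [if_pos h, if_pos (by omega)]
      · rw [if_neg h, if_neg (by omega)]
    rw [Finset.sum_congr rfl h1, Finset.sum_congr rfl h2, Finset.sum_congr rfl h3,
      Finset.sum_ite_eq', Finset.sum_ite_eq', if_pos (by rw [Finset.mem_range]; omega)]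
    split_ifs <;> norm_num

lemma Gd_term_le {y κ : ℝ} (hy : 2 ≤ y) (hκ : 1 ≤ κ) {d i : ℕ} (hi : i ≤ d) (hd : κ ^ d ≤ y) :
    min (1 / (κ * y ^ 3) ^ (2 * (d - i))) (1 / (y ^ 3) ^ (2 * i))
      ≤ 1 / (κ * y ^ 3) ^ d * (cmain d i + 1 / y ^ 5) := by
  have hy0 : 0 < y := by linarith
  have hκ0 : 0 < κ := by linarith
  have hx0 : 0 < κ * y ^ 3 := by positivity
  have h5 : 0 < 1 / y ^ 5 := by positivity
  have hy3 : (1 : ℝ) ≤ y ^ 3 := one_le_pow₀ (by linarith)
  have hy8 : (2 : ℝ) ≤ y ^ 3 := by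
    calc (2 : ℝ) ≤ 2 ^ 3 := by norm_num
      _ ≤ y ^ 3 := pow_le_pow_left₀ (by norm_num) hy 3
  rcases Nat.lt_or_ge d (2 * i) with h | h
  swap
  · -- first half
    refine (min_le_left _ _).trans ?_
    obtain ⟨k, hk⟩ := Nat.exists_eq_add_of_le h
    have e1 : 2 * (d - i) = d + k := by omega
    rw [e1, pow_add, one_div, mul_inv, one_div]
    apply mul_le_mul_of_nonneg_left _ (by positivity)
    have h6 : ((κ * y ^ 3) ^ k)⁻¹ ≤ ((y ^ 3) ^ k)⁻¹ := by
      apply inv_anti₀ (by positivity)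
      apply pow_le_pow_left₀ (by positivity)
      exact le_mul_of_one_le_left (by positivity) hκ
    refine h6.trans ?_
    rcases Nat.lt_or_ge k 2 with hk2 | hk2
    · interval_cases k
      · have : cmain d i = 1 := by
          unfold cmain
          rw [if_pos (by omega), if_neg (by omega), if_neg (by omega)]
          norm_num
        rw [this, pow_zero, inv_one]
        linarith
      · have : cmain d i = 1 / 2 := by
          unfold cmain
          rw [if_neg (by omega), if_pos (by omega), if_neg (by omega)]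
          norm_num
        rw [this, pow_one]
        have h7 : (y ^ 3)⁻¹ ≤ 1 / 2 := by
          rw [one_div]
          exact inv_anti₀ (by norm_num) hy8
        linarith
    · have h8 : ((y ^ 3) ^ k)⁻¹ ≤ 1 / y ^ 5 := by
        rw [one_div]
        apply inv_anti₀ (by positivity)
        calc y ^ 5 ≤ y ^ 6 := pow_le_pow_right₀ (by linarith) (by norm_num)
          _ = (y ^ 3) ^ 2 := by ring
          _ ≤ (y ^ 3) ^ k := pow_le_pow_right₀ hy3 hk2
      have := cmain_nonneg d i
      linarith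
  · refine (min_le_right _ _).trans ?_
    obtain ⟨k, hk⟩ := Nat.exists_eq_add_of_le h.le
    have e1 : 1 / (y ^ 3) ^ (2 * i) = 1 / (κ * y ^ 3) ^ d * (κ ^ d * ((y ^ 3) ^ k)⁻¹) := by
      rw [hk, pow_add, mul_pow]
      field_simp
    rw [e1]
    apply mul_le_mul_of_nonneg_left _ (by positivity)
    have h6 : κ ^ d * ((y ^ 3) ^ k)⁻¹ ≤ y * ((y ^ 3) ^ k)⁻¹ :=
      mul_le_mul_of_nonneg_right hd (by positivity)
    rcases Nat.lt_or_ge k 2 with hk2 | hk2
    · interval_cases k
      · omega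
      · have : cmain d i = 1 / 2 := by
          unfold cmain
          rw [if_neg (by omega), if_neg (by omega), if_pos (by omega)]
          norm_num
        rw [this]
        refine h6.trans ?_
        rw [pow_one]
        have h7 : y * (y ^ 3)⁻¹ ≤ 1 / 2 := by
          have e2 : y * (y ^ 3)⁻¹ = (y ^ 2)⁻¹ := by
            field_simp
          rw [e2, one_div]
          apply inv_anti₀ (by norm_num)
          nlinarith
        linarith
    · refine h6.trans ?_
      have h8 : y * ((y ^ 3) ^ k)⁻¹ ≤ 1 / y ^ 5 := by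
        have h9 : (y ^ 3) ^ 2 ≤ (y ^ 3) ^ k := pow_le_pow_right₀ hy3 hk2
        have h10 : ((y ^ 3) ^ k)⁻¹ ≤ ((y ^ 3) ^ 2)⁻¹ := inv_anti₀ (by positivity) h9
        refine (mul_le_mul_of_nonneg_left h10 hy0.le).trans (le_of_eq ?_)
        field_simp
      have := cmain_nonneg d i
      linarith

lemma Gd_le {y κ : ℝ} (hy : 2 ≤ y) (hκ : 1 ≤ κ) {d : ℕ} (hd : κ ^ d ≤ y) :
    Gd (y ^ 3) (κ * y ^ 3) d ≤ 1 / (κ * y ^ 3) ^ d * Real.exp (2 * d / y ^ 5) := by
  have hy0 : 0 < y := by linarith
  have hκ0 : 0 < κ := by linarith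
  rcases Nat.eq_zero_or_pos d with h0 | h0
  · subst h0
    unfold Gd
    simp
  · have h1 : Gd (y ^ 3) (κ * y ^ 3) d
        ≤ ∑ i ∈ range (d + 1), 1 / (κ * y ^ 3) ^ d * (cmain d i + 1 / y ^ 5) := by
      unfold Gd
      apply Finset.sum_le_sum
      intro i hi
      rw [Finset.mem_range] at hi
      exact Gd_term_le hy hκ (by omega) hd
    refine h1.trans ?_
    rw [← Finset.mul_sum]
    apply mul_le_mul_of_nonneg_left _ (by positivity)
    rw [Finset.sum_add_distrib, Finset.sum_const, card_range, nsmul_eq_mul]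
    have h2 := sum_cmain_le d
    have h3 := Real.add_one_le_exp (2 * (d : ℝ) / y ^ 5)
    have h4 : ((d + 1 : ℕ) : ℝ) * (1 / y ^ 5) ≤ 2 * d / y ^ 5 := by
      rw [mul_one_div]
      apply div_le_div_of_nonneg_right _ (by positivity)
      push_cast
      have : (1 : ℝ) ≤ d := by exact_mod_cast h0
      linarith
    linarith

/-- The product of the factors. -/
lemma prod_Gd_le {y κ : ℝ} (hy : 2 ≤ y) (hκ : 1 ≤ κ) {a : ℕ} (ha : κ ^ a ≤ y) {γ : Type*}
    (d : γ → ℕ) (s : Multiset γ) (hs : ∀ c ∈ s, d c ≤ a) :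
    (s.map fun c => Gd (y ^ 3) (κ * y ^ 3) (d c)).prod
      ≤ 1 / (κ * y ^ 3) ^ (s.map d).sum * Real.exp (2 * (s.map d).sum / y ^ 5) := by
  have hy0 : 0 < y := by linarith
  have hκ0 : 0 < κ := by linarith
  induction s using Multiset.induction_on with
  | empty => simp
  | cons c s ih =>
    have ih' := ih fun b hb => hs b (Multiset.mem_cons_of_mem hb)
    have hc := hs c (Multiset.mem_cons_self c s)
    have h1 := Gd_le hy hκ (d := d c) ((pow_le_pow_right₀ hκ hc).trans ha)
    have h2 : 0 ≤ (s.map fun c => Gd (y ^ 3) (κ * y ^ 3) (d c)).prod := Multiset.prod_nonneg (by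
      intro z hz
      obtain ⟨b, _, rfl⟩ := Multiset.mem_map.1 hz
      exact Gd_nonneg (by positivity) (by positivity) _)
    rw [Multiset.map_cons, Multiset.prod_cons, Multiset.map_cons, Multiset.sum_cons]
    refine (mul_le_mul h1 ih' h2 (by positivity)).trans (le_of_eq ?_)
    rw [pow_add, Nat.cast_add]
    have e1 : 2 * ((d c : ℝ) + ((s.map d).sum : ℝ)) / y ^ 5
        = 2 * (d c : ℝ) / y ^ 5 + 2 * ((s.map d).sum : ℝ) / y ^ 5 := by ring
    rw [e1, Real.exp_add]
    field_simp

end Vale.Agent.P346
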