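import Mathlib

/-!
Ranks of inclusion matrices over fields of positive characteristic.
-/

namespace Vale.Agent.P346

open Finset

variable {α : Type*} [DecidableEq α]

/-- The indicator, on the `k`-subsets of `V`, of containing `S`. -/
def row (R : Type*) [CommRing R] (V : Finset α) (k : ℕ) (S : Finset α) : Finset α → R :=
  fun T => if T ∈ powersetCard k V ∧ S ⊆ T then 1 else 0

/-- The span of the rows of size at most `t`. -/
def spanLe (R : Type*) [CommRing R] (V : Finset α) (k t : ℕ) : Submodule R (Finset α → R) :=
  Submodule.span R {f | ∃ S, S ⊆ V ∧ S.card ≤ t ∧ f = row R V k S}

/-- The span of the rows of size exactly `t`. -/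
def spanEq (R : Type*) [CommRing R] (V : Finset α) (k t : ℕ) : Submodule R (Finset α → R) :=
  Submodule.span R {f | ∃ S, S ⊆ V ∧ S.card = t ∧ f = row R V k S}

lemma card_between {S T : Finset α} (h : S ⊆ T) (s : ℕ) (hs : S.card ≤ s) (V : Finset α)
    (hT : T ⊆ V) :
    ((powersetCard s V).filter (fun S' => S ⊆ S' ∧ S' ⊆ T)).card
      = (T.card - S.card).choose (s - S.card) := by
  rw [← card_sdiff_of_subset h, ← card_powersetCard]
  apply Finset.card_nbij' (fun S' => S' \ S) (fun A => A ∪ S)
  · intro S' hS'
    rw [Finset.mem_coe, mem_filter, mem_powersetCard] at hS'
    rw [Finset.mem_coe, mem_powersetCard]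
    obtain ⟨⟨h1, h2⟩, h3, h4⟩ := hS'
    exact ⟨sdiff_subset_sdiff h4 (subset_refl _), by rw [card_sdiff_of_subset h3, h2]⟩
  · intro A hA
    rw [Finset.mem_coe, mem_powersetCard] at hA
    rw [Finset.mem_coe, mem_filter, mem_powersetCard]
    obtain ⟨h1, h2⟩ := hA
    have hd : Disjoint A S := by
      apply disjoint_of_subset_left h1
      exact sdiff_disjoint
    refine ⟨⟨union_subset (h1.trans (sdiff_subset.trans hT)) (h.trans hT), ?_⟩,
      subset_union_right, union_subset (h1.trans sdiff_subset) h⟩
    rw [card_union_of_disjoint hd, h2]
    omega
  · intro S' hS'
    rw [Finset.mem_coe, mem_filter, mem_powersetCard] at hS'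
    exact sdiff_union_of_subset hS'.2.1
  · intro A hA
    rw [Finset.mem_coe, mem_powersetCard] at hA
    show (A ∪ S) \ S = A
    rw [union_sdiff_right]
    apply sdiff_eq_self_of_disjoint
    apply disjoint_of_subset_left hA.1
    exact sdiff_disjoint

lemma sum_row (R : Type*) [CommRing R] (V : Finset α) (k s : ℕ) (S : Finset α)
    (hs : S.card ≤ s) :
    ∑ S' ∈ (powersetCard s V).filter (fun S' => S ⊆ S'), row R V k S'
      = ((k - S.card).choose (s - S.card) : R) • row R V k S := by
  funext T
  rw [Finset.sum_apply, Pi.smul_apply, smul_eq_mul]
  unfold row
  by_cases hT : T ∈ powersetCard k V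
  · simp only [hT, true_and]
    rw [← Finset.sum_filter, Finset.filter_filter, Finset.sum_const, nsmul_eq_mul, mul_one]
    by_cases h : S ⊆ T
    · rw [if_pos h, mul_one, card_between h s hs V (mem_powersetCard.1 hT).1,
        (mem_powersetCard.1 hT).2]
    · rw [if_neg h, mul_zero]
      have : ((powersetCard s V).filter (fun S' => S ⊆ S' ∧ S' ⊆ T)) = ∅ := by
        apply Finset.filter_eq_empty_iff.2
        intro S' _ h'
        exact h (h'.1.trans h'.2)
      rw [this]
      simp
  · simp [hT]

variable [Fintype α]

/-- All delta functions on the slice lie in `W` implies `W` is large. -/
lemma choose_le_finrank_of_deltas (K : Type*) [Field K] (V : Finset α) (k : ℕ)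
    (W : Submodule K (Finset α → K))
    (hW : ∀ T ∈ powersetCard k V, (Pi.single T (1 : K) : Finset α → K) ∈ W) :
    V.card.choose k ≤ Module.finrank K W := by
  have h1 : LinearIndependent K
      (fun T : powersetCard k V => (⟨Pi.single T.1 (1 : K), hW T.1 T.2⟩ : W)) := by
    apply LinearIndependent.of_comp W.subtype
    have h2 : (⇑W.subtype ∘ fun T : powersetCard k V =>
        (⟨Pi.single T.1 (1 : K), hW T.1 T.2⟩ : W))
        = (fun T : Finset α => (Pi.single T (1 : K) : Finset α → K)) ∘
          (fun T : powersetCard k V => T.1) := rfl
    rw [h2]
    exact (Pi.linearIndependent_single_one (Finset α) K).comp _ Subtype.val_injective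
  have h3 := h1.fintype_card_le_finrank
  rw [Fintype.card_coe, card_powersetCard] at h3
  exact h3

/-- Lower bound for the number of functions of degree at most `t` on a slice. -/
lemma le_finrank_spanLe (K : Type*) [Field K] (V : Finset α) :
    ∀ k t : ℕ, t ≤ k → t + k ≤ V.card →
      V.card.choose t ≤ Module.finrank K (spanLe K V k t) := by
  induction V using Finset.induction_on with
  | empty =>
    intro k t htk hcard
    rw [card_empty] at hcard
    have hk : k = 0 := by omega
    have ht : t = 0 := by omega
    subst hk; subst ht
    apply choose_le_finrank_of_deltas
    intro T hT
    have hT' : T = ∅ := by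
      have := (mem_powersetCard.1 hT).1
      exact subset_empty.1 this
    apply Submodule.subset_span
    refine ⟨∅, subset_refl _, by simp, ?_⟩
    funext T'
    unfold row
    by_cases h : T' = ∅
    · subst h
      rw [hT']
      simp
    · rw [hT', Pi.single_eq_of_ne h, if_neg]
      rintro ⟨h1, _⟩
      exact h (subset_empty.1 (mem_powersetCard.1 h1).1)
  | insert a V ha ih =>
    intro k t htk hcard
    rw [card_insert_of_notMem ha] at hcard
    rcases Nat.lt_or_ge t k with htk' | htk'
    · rcases Nat.lt_or_ge V.card (t + k) with hc | hc
      · -- `t + k = card V + 1`
        have heq : t + k = (insert a V).card := by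
          rw [card_insert_of_notMem ha]; omega
        have h1 : (insert a V).card.choose t = (insert a V).card.choose k := by
          rw [← heq, Nat.choose_symm_add]
        rw [h1]
        apply choose_le_finrank_of_deltas
        intro T hT
        obtain ⟨hTV, hTc⟩ := mem_powersetCard.1 hT
        have hexp : (Pi.single T (1 : K) : Finset α → K)
            = ∑ A ∈ (insert a V \ T).powerset, ((-1) ^ A.card : K) • row K (insert a V) k A := by
          funext T'
          rw [Finset.sum_apply]
          simp only [Pi.smul_apply, smul_eq_mul]
          unfold row
          by_cases hT' : T' ∈ powersetCard k (insert a V)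
          · simp only [hT', true_and, mul_ite, mul_one, mul_zero]
            rw [← Finset.sum_filter]
            have h2 : (insert a V \ T).powerset.filter (fun A => A ⊆ T')
                = ((insert a V \ T) ∩ T').powerset := by
              ext A
              simp only [mem_filter, mem_powerset, subset_inter_iff]
            rw [h2]
            have h3 : ∑ A ∈ ((insert a V \ T) ∩ T').powerset, ((-1 : K)) ^ A.card
                = if ((insert a V \ T) ∩ T') = ∅ then 1 else 0 := by
              have := Finset.sum_powerset_neg_one_pow_card (x := ((insert a V \ T) ∩ T'))
              have h4 := congrArg (Int.cast : ℤ → K) this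
              push_cast at h4
              rw [h4]
            rw [h3]
            by_cases hTT : T' = T
            · subst hTT
              rw [Pi.single_eq_same, if_pos]
              rw [← disjoint_iff_inter_eq_empty]
              exact sdiff_disjoint
            · rw [Pi.single_eq_of_ne hTT, if_neg]
              intro hemp
              apply hTT
              obtain ⟨hT'V, hT'c⟩ := mem_powersetCard.1 hT'
              apply Finset.eq_of_subset_of_card_le
              · intro x hx
                by_contra hxT
                have : x ∈ (insert a V \ T) ∩ T' :=
                  mem_inter.2 ⟨mem_sdiff.2 ⟨hT'V hx, hxT⟩, hx⟩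
                rw [hemp] at this
                exact absurd this (notMem_empty _)
              · omega
          · simp only [hT', false_and, if_false, mul_zero, Finset.sum_const_zero]
            rw [Pi.single_eq_of_ne]
            rintro rfl
            exact hT' hT
        rw [hexp]
        apply Submodule.sum_mem
        intro A hA
        apply Submodule.smul_mem
        apply Submodule.subset_span
        rw [mem_powerset] at hA
        refine ⟨A, hA.trans sdiff_subset, ?_, rfl⟩
        have h5 := card_le_card hA
        rw [card_sdiff_of_subset hTV] at h5
        omega
      · -- main recursion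
        rcases Nat.eq_zero_or_pos t with ht0 | ht0
        · subst ht0
          simp only [Nat.choose_zero_right]
          rw [Nat.succ_le_iff, Module.finrank_pos_iff_exists_ne_zero]
          obtain ⟨T, hT⟩ : (powersetCard k (insert a V)).Nonempty := by
            rw [powersetCard_nonempty, card_insert_of_notMem ha]
            omega
          refine ⟨⟨row K (insert a V) k ∅, Submodule.subset_span
            ⟨∅, empty_subset _, by simp, rfl⟩⟩, ?_⟩
          intro h0
          have h1 : row K (insert a V) k ∅ = 0 := congrArg Subtype.val h0
          have h2 := congrFun h1 T
          unfold row at h2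
          simp [hT] at h2
        · obtain ⟨t', rfl⟩ : ∃ t', t = t' + 1 := ⟨t - 1, by omega⟩
          obtain ⟨k', rfl⟩ : ∃ k', k = k' + 1 := ⟨k - 1, by omega⟩
          rw [card_insert_of_notMem ha, Nat.choose_succ_succ', add_comm]
          have ih1 := ih (k' + 1) (t' + 1) (by omega) (by omega)
          have ih2 := ih k' t' (by omega) (by omega)
          -- restriction to `a ∉ T`
          let res : (Finset α → K) →ₗ[K] (Finset α → K) :=
            { toFun := fun f T => if a ∈ T then 0 else f T
              map_add' := by
                intro f g; funext T; by_cases h : a ∈ T <;> simp [h]
              map_smul' := by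
                intro c f; funext T; by_cases h : a ∈ T <;> simp [h] }
          let lnk : (Finset α → K) →ₗ[K] (Finset α → K) :=
            { toFun := fun f T => if a ∈ T then 0 else f (insert a T)
              map_add' := by
                intro f g; funext T; by_cases h : a ∈ T <;> simp [h]
              map_smul' := by
                intro c f; funext T; by_cases h : a ∈ T <;> simp [h] }
          set X := spanLe K (insert a V) (k' + 1) (t' + 1) with hX
          have hres : spanLe K V (k' + 1) (t' + 1) ≤ Submodule.map res X := by
            unfold spanLe
            rw [Submodule.span_le]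
            rintro _ ⟨S, hS, hSc, rfl⟩
            refine ⟨row K (insert a V) (k' + 1) S, Submodule.subset_span
              ⟨S, hS.trans (subset_insert _ _), hSc, rfl⟩, ?_⟩
            funext T
            show (if a ∈ T then 0 else row K (insert a V) (k' + 1) S T) = row K V (k' + 1) S T
            unfold row
            by_cases haT : a ∈ T
            · rw [if_pos haT, if_neg]
              rintro ⟨h1, _⟩
              exact ha ((mem_powersetCard.1 h1).1 haT)
            · rw [if_neg haT]
              have : T ∈ powersetCard (k' + 1) (insert a V) ↔ T ∈ powersetCard (k' + 1) V := by
                rw [mem_powersetCard, mem_powersetCard, subset_insert_iff_of_notMem haT]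
              simp only [this]
          set Y := LinearMap.ker res ⊓ X with hY
          have hlnk : spanLe K V k' t' ≤ Submodule.map lnk Y := by
            unfold spanLe
            rw [Submodule.span_le]
            rintro _ ⟨S, hS, hSc, rfl⟩
            have haS : a ∉ S := fun h => ha (hS h)
            refine ⟨row K (insert a V) (k' + 1) (insert a S), ⟨?_, Submodule.subset_span
              ⟨insert a S, insert_subset_insert _ hS, ?_, rfl⟩⟩, ?_⟩
            · rw [SetLike.mem_coe, LinearMap.mem_ker]
              funext T
              show (if a ∈ T then 0 else row K (insert a V) (k' + 1) (insert a S) T) = 0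
              by_cases haT : a ∈ T
              · rw [if_pos haT]
              · rw [if_neg haT]
                unfold row
                rw [if_neg]
                rintro ⟨_, h2⟩
                exact haT (h2 (mem_insert_self _ _))
            · rw [card_insert_of_notMem haS]
              omega
            · funext T
              show (if a ∈ T then 0 else row K (insert a V) (k' + 1) (insert a S) (insert a T))
                = row K V k' S T
              unfold row
              by_cases haT : a ∈ T
              · rw [if_pos haT, if_neg]
                rintro ⟨h1, _⟩
                exact ha ((mem_powersetCard.1 h1).1 haT)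
              · rw [if_neg haT]
                have h1 : insert a T ∈ powersetCard (k' + 1) (insert a V)
                    ↔ T ∈ powersetCard k' V := by
                  rw [mem_powersetCard, mem_powersetCard, card_insert_of_notMem haT,
                    insert_subset_insert_iff haT, Nat.add_right_cancel_iff]
                have h2 : insert a S ⊆ insert a T ↔ S ⊆ T := insert_subset_insert_iff haS
                simp only [h1, h2]
          have hrn := LinearMap.finrank_range_add_finrank_ker (res.domRestrict X)
          have e1 : LinearMap.range (res.domRestrict X) = Submodule.map res X := by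
            rw [LinearMap.range_domRestrict]
          have e2 : Module.finrank K (LinearMap.ker (res.domRestrict X))
              = Module.finrank K Y := by
            have e : Submodule.map X.subtype (LinearMap.ker (res.domRestrict X)) = Y := by
              ext x
              simp only [Submodule.mem_map, LinearMap.mem_ker, LinearMap.domRestrict_apply,
                Submodule.subtype_apply, hY, Submodule.mem_inf]
              constructor
              · rintro ⟨y, hy, rfl⟩
                exact ⟨hy, y.2⟩
              · rintro ⟨h1, h2⟩
                exact ⟨⟨x, h2⟩, h1, rfl⟩
            rw [← e]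
            exact (LinearEquiv.finrank_eq
              (Submodule.equivMapOfInjective X.subtype X.injective_subtype _))
          rw [e1, e2] at hrn
          have i1 := Submodule.finrank_mono hres
          have i2 := (Submodule.finrank_mono hlnk).trans (Submodule.finrank_map_le lnk Y)
          omega
    · -- `t = k`
      have htk'' : t = k := le_antisymm htk htk'
      subst htk''
      apply choose_le_finrank_of_deltas
      intro T hT
      apply Submodule.subset_span
      refine ⟨T, (mem_powersetCard.1 hT).1, (mem_powersetCard.1 hT).2.le, ?_⟩
      funext T'
      unfold row
      by_cases h : T' = T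
      · subst h
        simp [hT]
      · rw [Pi.single_eq_of_ne h, if_neg]
        rintro ⟨h1, h2⟩
        apply h
        symm
        apply Finset.eq_of_subset_of_card_le h2
        rw [(mem_powersetCard.1 h1).2, (mem_powersetCard.1 hT).2]

end Vale.Agent.P346
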