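import Mathlib

/-!
A degree-weighted rank of multiplication operators on a finite-dimensional graded algebra, and the
fact that multiplying by a nilpotent homogeneous element decreases it by a constant factor.
-/

namespace Vale.Agent.P346

open Finset

variable {K A : Type*} [Field K] [CommRing A] [Algebra K A] [Module.Finite K A]

/-- The rank of multiplication by `P` on the subspace `𝒜 k`. -/
noncomputable def rk (𝒜 : ℕ → Submodule K A) (P : A) (k : ℕ) : ℕ :=
  Module.finrank K (Submodule.map (LinearMap.mulLeft K P) (𝒜 k))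

/-- The weighted rank of multiplication by `P`. -/
noncomputable def wrk (𝒜 : ℕ → Submodule K A) (ρ : ℝ) (N : ℕ) (P : A) : ℝ :=
  ∑ k ∈ range (N + 1), ρ ^ k * (rk 𝒜 P k : ℝ)

omit [Module.Finite K A] in
lemma wrk_nonneg (𝒜 : ℕ → Submodule K A) {ρ : ℝ} (hρ : 0 ≤ ρ) (N : ℕ) (P : A) :
    0 ≤ wrk 𝒜 ρ N P :=
  Finset.sum_nonneg fun k _ => mul_nonneg (pow_nonneg hρ k) (Nat.cast_nonneg _)

omit [Module.Finite K A] in
lemma map_mulLeft_mul (𝒜 : ℕ → Submodule K A) (Q P : A) (k : ℕ) :
    Submodule.map (LinearMap.mulLeft K (Q * P)) (𝒜 k)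
      = Submodule.map (LinearMap.mulLeft K Q) (Submodule.map (LinearMap.mulLeft K P) (𝒜 k)) := by
  rw [LinearMap.mulLeft_mul, Submodule.map_comp]

lemma rk_mul_le (𝒜 : ℕ → Submodule K A) (Q P : A) (k : ℕ) : rk 𝒜 (Q * P) k ≤ rk 𝒜 P k := by
  unfold rk
  rw [map_mulLeft_mul]
  exact Submodule.finrank_map_le _ _

lemma wrk_mul_le (𝒜 : ℕ → Submodule K A) {ρ : ℝ} (hρ : 0 ≤ ρ) (N : ℕ) (Q P : A) :
    wrk 𝒜 ρ N (Q * P) ≤ wrk 𝒜 ρ N P := by
  unfold wrk
  gcongr
  exact_mod_cast rk_mul_le 𝒜 Q P _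

lemma wrk_zero (𝒜 : ℕ → Submodule K A) (ρ : ℝ) (N : ℕ) : wrk 𝒜 ρ N (0 : A) = 0 := by
  unfold wrk rk
  apply Finset.sum_eq_zero
  intro k _
  have : LinearMap.mulLeft K (0 : A) = 0 := by ext x; simp
  rw [this]
  simp

lemma rk_sum_le {ι : Type*} (𝒜 : ℕ → Submodule K A) (s : Finset ι) (c : ι → K) (P : ι → A)
    (k : ℕ) : rk 𝒜 (∑ i ∈ s, c i • P i) k ≤ ∑ i ∈ s, rk 𝒜 (P i) k := by
  classical
  unfold rk
  have h1 : Submodule.map (LinearMap.mulLeft K (∑ i ∈ s, c i • P i)) (𝒜 k)
      ≤ s.sup fun i => Submodule.map (LinearMap.mulLeft K (P i)) (𝒜 k) := by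
    rintro _ ⟨x, hx, rfl⟩
    simp only [LinearMap.mulLeft_apply, Finset.sum_mul]
    apply Submodule.sum_mem
    intro i hi
    rw [smul_mul_assoc]
    apply Submodule.smul_mem
    have : Submodule.map (LinearMap.mulLeft K (P i)) (𝒜 k)
        ≤ s.sup fun i => Submodule.map (LinearMap.mulLeft K (P i)) (𝒜 k) :=
      Finset.le_sup (f := fun i => Submodule.map (LinearMap.mulLeft K (P i)) (𝒜 k)) hi
    exact this ⟨x, hx, rfl⟩
  refine (Submodule.finrank_mono h1).trans ?_
  clear h1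
  induction s using Finset.induction_on with
  | empty => simp
  | insert a s ha ih =>
    rw [Finset.sup_insert, Finset.sum_insert ha]
    exact (Submodule.finrank_add_le_finrank_add_finrank _ _).trans (by gcongr)

lemma wrk_sum_le {ι : Type*} (𝒜 : ℕ → Submodule K A) {ρ : ℝ} (hρ : 0 ≤ ρ) (N : ℕ)
    (s : Finset ι) (c : ι → K) (P : ι → A) :
    wrk 𝒜 ρ N (∑ i ∈ s, c i • P i) ≤ ∑ i ∈ s, wrk 𝒜 ρ N (P i) := by
  unfold wrk
  rw [Finset.sum_comm]
  apply Finset.sum_le_sum
  intro k _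
  rw [← Finset.mul_sum]
  apply mul_le_mul_of_nonneg_left _ (pow_nonneg hρ k)
  exact_mod_cast rk_sum_le 𝒜 s c P k

/-- Multiplying by a homogeneous element `Q` of degree `d` with `Q ^ p = 0` shrinks the weighted
rank. -/
lemma wrk_kill (𝒜 : ℕ → Submodule K A) {ρ : ℝ} (hρ : 0 ≤ ρ) (hρ1 : ρ ≤ 1) {N : ℕ}
    (hN : ∀ k, N < k → 𝒜 k = ⊥) {d : ℕ} {Q : A}
    (hQ : ∀ k, Submodule.map (LinearMap.mulLeft K Q) (𝒜 k) ≤ 𝒜 (k + d))
    {p : ℕ} (hp : 0 < p) (hQp : Q ^ p = 0) (P : A) :
    wrk 𝒜 ρ N (Q * P) ≤ (1 - ρ ^ ((p - 1) * d) / p) * wrk 𝒜 ρ N P := by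
  classical
  -- dimension of the kernel of `Q` on `P 𝒜 k`
  set κ : ℕ → ℕ := fun k => Module.finrank K
    (LinearMap.ker (LinearMap.mulLeft K Q) ⊓ Submodule.map (LinearMap.mulLeft K P) (𝒜 k) :
      Submodule K A) with hκ
  have rank_nullity : ∀ V : Submodule K A,
      Module.finrank K (Submodule.map (LinearMap.mulLeft K Q) V)
        + Module.finrank K (LinearMap.ker (LinearMap.mulLeft K Q) ⊓ V : Submodule K A)
        = Module.finrank K V := by
    intro V
    have h := LinearMap.finrank_range_add_finrank_ker ((LinearMap.mulLeft K Q).domRestrict V)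
    have h1 : LinearMap.range ((LinearMap.mulLeft K Q).domRestrict V)
        = Submodule.map (LinearMap.mulLeft K Q) V := by
      rw [LinearMap.range_domRestrict]
    have h2 : Module.finrank K (LinearMap.ker ((LinearMap.mulLeft K Q).domRestrict V))
        = Module.finrank K (LinearMap.ker (LinearMap.mulLeft K Q) ⊓ V : Submodule K A) := by
      have e : Submodule.map V.subtype (LinearMap.ker ((LinearMap.mulLeft K Q).domRestrict V))
          = (LinearMap.ker (LinearMap.mulLeft K Q) ⊓ V : Submodule K A) := by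
        ext x
        simp only [Submodule.mem_map, LinearMap.mem_ker, LinearMap.domRestrict_apply,
          Submodule.subtype_apply, Submodule.mem_inf]
        constructor
        · rintro ⟨y, hy, rfl⟩
          exact ⟨hy, y.2⟩
        · rintro ⟨h1, h2⟩
          exact ⟨⟨x, h2⟩, h1, rfl⟩
      rw [← e]
      exact (LinearEquiv.finrank_eq
        (Submodule.equivMapOfInjective V.subtype V.injective_subtype _))
    rw [h1, h2] at h
    exact h
  have hshift : ∀ i k, Submodule.map (LinearMap.mulLeft K (Q ^ i)) (𝒜 k) ≤ 𝒜 (k + i * d) := by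
    intro i
    induction i with
    | zero =>
      intro k
      rintro _ ⟨x, hx, rfl⟩
      simpa using hx
    | succ i ih =>
      intro k
      rw [pow_succ', map_mulLeft_mul]
      refine (Submodule.map_mono (ih k)).trans ((hQ _).trans ?_)
      have : k + i * d + d = k + (i + 1) * d := by ring
      rw [this]
  have step : ∀ i k, rk 𝒜 (Q ^ i * P) k ≤ rk 𝒜 (Q ^ (i + 1) * P) k + κ (k + i * d) := by
    intro i k
    have h := rank_nullity (Submodule.map (LinearMap.mulLeft K (Q ^ i * P)) (𝒜 k))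
    rw [← map_mulLeft_mul, ← mul_assoc, ← pow_succ'] at h
    unfold rk
    rw [← h]
    gcongr
    simp only [hκ]
    apply Submodule.finrank_mono
    apply inf_le_inf_left
    rw [mul_comm (Q ^ i) P, map_mulLeft_mul]
    exact Submodule.map_mono (hshift i k)
  have total : ∀ k m, rk 𝒜 P k ≤ rk 𝒜 (Q ^ m * P) k + ∑ i ∈ range m, κ (k + i * d) := by
    intro k m
    induction m with
    | zero => simp
    | succ m ih =>
      rw [Finset.sum_range_succ]
      have := step m k
      omega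
  have total' : ∀ k, rk 𝒜 P k ≤ ∑ i ∈ range p, κ (k + i * d) := by
    intro k
    have h := total k p
    rw [hQp, zero_mul] at h
    have h0 : rk 𝒜 (0 : A) k = 0 := by
      unfold rk
      have : LinearMap.mulLeft K (0 : A) = 0 := by ext x; simp
      rw [this]; simp
    omega
  have hκ0 : ∀ k, N < k → κ k = 0 := by
    intro k hk
    simp only [hκ]
    rw [hN k hk]
    simp
  have hker : ∀ k, rk 𝒜 P k = rk 𝒜 (Q * P) k + κ k := by
    intro k
    have h := rank_nullity (Submodule.map (LinearMap.mulLeft K P) (𝒜 k))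
    rw [← map_mulLeft_mul] at h
    unfold rk
    rw [← h]
  set 𝒦 : ℝ := ∑ k ∈ range (N + 1), ρ ^ k * (κ k : ℝ) with h𝒦
  have h𝒦eq : wrk 𝒜 ρ N P = wrk 𝒜 ρ N (Q * P) + 𝒦 := by
    unfold wrk
    rw [h𝒦, ← Finset.sum_add_distrib]
    apply Finset.sum_congr rfl
    intro k _
    rw [hker k]
    push_cast
    ring
  -- a shifted sum is bounded by `𝒦`
  have hsh : ∀ i, ∑ k ∈ range (N + 1), ρ ^ (k + i * d) * (κ (k + i * d) : ℝ) ≤ 𝒦 := by
    intro i
    have h1 : ∑ k ∈ range (N + 1), ρ ^ (k + i * d) * (κ (k + i * d) : ℝ)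
        = ∑ k ∈ (range (N + 1)).map (addRightEmbedding (i * d)), ρ ^ k * (κ k : ℝ) := by
      rw [Finset.sum_map]
      rfl
    rw [h1, h𝒦]
    have hz : ∀ k ∈ (range (N + 1)).map (addRightEmbedding (i * d)), k ∉ range (N + 1) →
        ρ ^ k * (κ k : ℝ) = 0 := by
      intro k _ hk
      rw [Finset.mem_range, not_lt] at hk
      rw [hκ0 k (by omega)]
      simp
    rw [← Finset.sum_filter_add_sum_filter_not _ (fun k => k ∈ range (N + 1))]
    have h2 : ∑ k ∈ ((range (N + 1)).map (addRightEmbedding (i * d))).filter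
        (fun k => ¬ k ∈ range (N + 1)), ρ ^ k * (κ k : ℝ) = 0 := by
      apply Finset.sum_eq_zero
      intro k hk
      rw [Finset.mem_filter] at hk
      exact hz k hk.1 hk.2
    rw [h2, add_zero]
    apply Finset.sum_le_sum_of_subset_of_nonneg
    · intro k hk
      exact (Finset.mem_filter.1 hk).2
    · intro k _ _
      exact mul_nonneg (pow_nonneg hρ k) (Nat.cast_nonneg _)
  have hmain : ρ ^ ((p - 1) * d) * wrk 𝒜 ρ N P ≤ p * 𝒦 := by
    have h1 : ρ ^ ((p - 1) * d) * wrk 𝒜 ρ N P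
        ≤ ∑ i ∈ range p, ∑ k ∈ range (N + 1), ρ ^ (k + i * d) * (κ (k + i * d) : ℝ) := by
      unfold wrk
      rw [Finset.sum_comm, Finset.mul_sum]
      apply Finset.sum_le_sum
      intro k _
      have h2 : (rk 𝒜 P k : ℝ) ≤ ∑ i ∈ range p, (κ (k + i * d) : ℝ) := by
        exact_mod_cast total' k
      calc ρ ^ ((p - 1) * d) * (ρ ^ k * (rk 𝒜 P k : ℝ))
          ≤ ρ ^ ((p - 1) * d) * (ρ ^ k * ∑ i ∈ range p, (κ (k + i * d) : ℝ)) := by
            gcongr
        _ = ∑ i ∈ range p, ρ ^ ((p - 1) * d) * (ρ ^ k * (κ (k + i * d) : ℝ)) := by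
            rw [Finset.mul_sum, Finset.mul_sum]
        _ ≤ ∑ i ∈ range p, ρ ^ (k + i * d) * (κ (k + i * d) : ℝ) := by
            apply Finset.sum_le_sum
            intro i hi
            rw [← mul_assoc, ← pow_add]
            apply mul_le_mul_of_nonneg_right _ (Nat.cast_nonneg _)
            apply pow_le_pow_of_le_one hρ hρ1
            have : i ≤ p - 1 := by
              have := Finset.mem_range.1 hi
              omega
            have := Nat.mul_le_mul_right d this
            omega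
    refine h1.trans ?_
    calc ∑ i ∈ range p, ∑ k ∈ range (N + 1), ρ ^ (k + i * d) * (κ (k + i * d) : ℝ)
        ≤ ∑ i ∈ range p, 𝒦 := Finset.sum_le_sum fun i _ => hsh i
      _ = p * 𝒦 := by simp
  have hp' : (0 : ℝ) < p := by exact_mod_cast hp
  have h3 : ρ ^ ((p - 1) * d) / p * wrk 𝒜 ρ N P ≤ 𝒦 := by
    rw [div_mul_eq_mul_div, div_le_iff₀ hp']
    linarith
  linarith

end Vale.Agent.P346
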