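import Vale.Agent.P346.Alg

/-!
A measure on polynomials: the weighted rank of multiplication on the multigraded pieces of
`K[x_i] / (x_i ^ 2)`, for a grading by an arbitrary commutative monoid.
-/

namespace Vale.Agent.P346

open Finset MvPolynomial

section gen

variable {K A : Type*} [Field K] [CommRing A] [Algebra K A]

/-- The rank of multiplication by `P` on a subspace. -/
noncomputable def rkV (V : Submodule K A) (P : A) : ℕ :=
  Module.finrank K (Submodule.map (LinearMap.mulLeft K P) V)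

lemma rkV_zero (V : Submodule K A) : rkV V 0 = 0 := by
  unfold rkV
  have : LinearMap.mulLeft K (0 : A) = 0 := by
    ext x
    exact zero_mul x
  rw [this, Submodule.map_zero]
  exact finrank_bot K A

variable [Module.Finite K A]

lemma rkV_mul_le (V : Submodule K A) (Q P : A) : rkV V (Q * P) ≤ rkV V P :=
  rk_mul_le (fun _ => V) Q P 0

lemma rkV_sum_le {κ : Type*} (V : Submodule K A) (s : Finset κ) (c : κ → K)
    (P : κ → A) : rkV V (∑ i ∈ s, c i • P i) ≤ ∑ i ∈ s, rkV V (P i) :=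
  rk_sum_le (fun _ => V) s c P 0

end gen

variable {ι : Type*} [DecidableEq ι] [Fintype ι] {K : Type*} [Field K]
variable {Γ : Type*} [AddCancelCommMonoid Γ] [DecidableEq Γ]

/-- The graded piece of weight `γ`. -/
noncomputable def wgr (K : Type*) [Field K] (wt : ι → Γ) (γ : Γ) : Submodule K (TA ι K) :=
  Submodule.map (qm ι K).toLinearMap (weightedHomogeneousSubmodule K wt γ)

/-- The weight of a set. -/
def wts (wt : ι → Γ) (S : Finset ι) : Γ := ∑ i ∈ S, wt i

/-- The possible weights. -/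
def wset (wt : ι → Γ) : Finset Γ := (univ : Finset (Finset ι)).image (wts wt)

/-- The measure. -/
noncomputable def Hm (wt : ι → Γ) (χ : Γ → ℝ) (P : MvPolynomial ι K) : ℝ :=
  ∑ γ ∈ wset wt, χ γ * (rkV (wgr K wt γ) (qm ι K P) : ℝ)

lemma Hm_nonneg (wt : ι → Γ) {χ : Γ → ℝ} (hχ : ∀ γ, 0 ≤ χ γ) (P : MvPolynomial ι K) :
    0 ≤ Hm wt χ P :=
  Finset.sum_nonneg fun _ _ => mul_nonneg (hχ _) (Nat.cast_nonneg _)

lemma Hm_zero (wt : ι → Γ) (χ : Γ → ℝ) : Hm wt χ (0 : MvPolynomial ι K) = 0 := by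
  unfold Hm
  apply Finset.sum_eq_zero
  intro γ _
  rw [map_zero, rkV_zero]
  simp

lemma Hm_mul_le (wt : ι → Γ) {χ : Γ → ℝ} (hχ : ∀ γ, 0 ≤ χ γ) (P Q : MvPolynomial ι K) :
    Hm wt χ (P * Q) ≤ Hm wt χ Q := by
  unfold Hm
  apply Finset.sum_le_sum
  intro γ _
  apply mul_le_mul_of_nonneg_left _ (hχ γ)
  rw [map_mul]
  exact_mod_cast rkV_mul_le _ _ _

lemma Hm_sum_le {κ : Type*} (wt : ι → Γ) {χ : Γ → ℝ} (hχ : ∀ γ, 0 ≤ χ γ) (s : Finset κ)
    (c : κ → K) (P : κ → MvPolynomial ι K) :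
    Hm wt χ (∑ i ∈ s, c i • P i) ≤ ∑ i ∈ s, Hm wt χ (P i) := by
  unfold Hm
  rw [Finset.sum_comm]
  apply Finset.sum_le_sum
  intro γ _
  rw [← Finset.mul_sum]
  apply mul_le_mul_of_nonneg_left _ (hχ γ)
  rw [map_sum]
  simp only [map_smul]
  have := rkV_sum_le (wgr K wt γ) s c (fun i => qm ι K (P i))
  exact_mod_cast this

lemma Hm_add_le (wt : ι → Γ) {χ : Γ → ℝ} (hχ : ∀ γ, 0 ≤ χ γ) (P Q : MvPolynomial ι K) :
    Hm wt χ (P + Q) ≤ Hm wt χ P + Hm wt χ Q := by
  have := Hm_sum_le wt hχ (univ : Finset (Fin 2)) (fun _ => (1 : K)) ![P, Q]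
  simpa [Fin.sum_univ_two] using this

omit [Fintype ι] [DecidableEq Γ] in
lemma weight_ind (wt : ι → Γ) (S : Finset ι) : Finsupp.weight wt (ind S) = wts wt S := by
  unfold ind wts
  rw [map_sum]
  apply Finset.sum_congr rfl
  intro i _
  rw [Finsupp.weight_apply, Finsupp.sum_single_index (zero_smul ℕ (wt i)), one_smul]

lemma wgr_le_span (wt : ι → Γ) (γ : Γ) : wgr K wt γ ≤ Submodule.span K
    ((fun T : Finset ι => qm ι K (monomial (ind T) 1)) ''
      ((univ : Finset (Finset ι)).filter fun T => wts wt T = γ : Finset (Finset ι))) := by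
  rintro _ ⟨P, hP, rfl⟩
  rw [SetLike.mem_coe, mem_weightedHomogeneousSubmodule] at hP
  show qm ι K P ∈ _
  rw [P.as_sum, map_sum]
  apply Submodule.sum_mem
  intro s hs
  have hdeg : Finsupp.weight wt s = γ := hP (mem_support_iff.1 hs)
  by_cases h : ∃ i, 2 ≤ s i
  · obtain ⟨i, hi⟩ := h
    rw [qm_monomial_eq_zero hi]
    exact Submodule.zero_mem _
  · push Not at h
    have h1 : s = ind s.support := eq_ind fun i => by have := h i; omega
    have h2 : monomial s (coeff s P) = (coeff s P) • (monomial (ind s.support) 1 :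
        MvPolynomial ι K) := by
      rw [← h1, smul_monomial, smul_eq_mul, mul_one]
    rw [h2, map_smul]
    apply Submodule.smul_mem
    apply Submodule.subset_span
    refine ⟨s.support, ?_, rfl⟩
    rw [mem_coe, mem_filter]
    refine ⟨mem_univ _, ?_⟩
    rw [← weight_ind, ← h1, hdeg]

lemma finrank_wgr_le (wt : ι → Γ) (γ : Γ) : Module.finrank K (wgr K wt γ)
    ≤ ((univ : Finset (Finset ι)).filter fun T => wts wt T = γ).card := by
  classical
  refine (Submodule.finrank_mono (wgr_le_span wt γ)).trans ?_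
  rw [← coe_image]
  exact (finrank_span_finset_le_card _).trans card_image_le

lemma map_mulLeft_wgr (wt : ι → Γ) {P : MvPolynomial ι K} {δ : Γ}
    (hP : IsWeightedHomogeneous wt P δ) (γ : Γ) :
    Submodule.map (LinearMap.mulLeft K (qm ι K P)) (wgr K wt γ) ≤ wgr K wt (γ + δ) := by
  rintro _ ⟨_, ⟨R, hR, rfl⟩, rfl⟩
  rw [SetLike.mem_coe, mem_weightedHomogeneousSubmodule] at hR
  refine ⟨R * P, ?_, ?_⟩
  · rw [SetLike.mem_coe, mem_weightedHomogeneousSubmodule]
    exact hR.mul hP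
  · show qm ι K (R * P) = qm ι K P * qm ι K R
    rw [map_mul, mul_comm]

/-- The bound for homogeneous polynomials. -/
lemma Hm_homog_le (wt : ι → Γ) {χ : Γ → ℝ} (hχ : ∀ γ, 0 ≤ χ γ)
    (hχm : ∀ γ δ, χ (γ + δ) = χ γ * χ δ) {P : MvPolynomial ι K} {δ : Γ}
    (hP : IsWeightedHomogeneous wt P δ) :
    χ δ * Hm wt χ P ≤ ∑ S : Finset ι, χ (wts wt S) := by
  unfold Hm
  rw [Finset.mul_sum]
  have h1 : ∀ γ ∈ wset wt, χ δ * (χ γ * (rkV (wgr K wt γ) (qm ι K P) : ℝ))
      ≤ ∑ S ∈ (univ : Finset (Finset ι)).filter (fun T => wts wt T = γ + δ), χ (wts wt S) := by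
    intro γ _
    rw [Finset.sum_congr rfl fun S hS => by rw [(Finset.mem_filter.1 hS).2],
      Finset.sum_const, nsmul_eq_mul, hχm]
    have h2 : (rkV (wgr K wt γ) (qm ι K P) : ℝ)
        ≤ (((univ : Finset (Finset ι)).filter fun T => wts wt T = γ + δ).card : ℝ) := by
      have h3 : rkV (wgr K wt γ) (qm ι K P) ≤ Module.finrank K (wgr K wt (γ + δ)) :=
        Submodule.finrank_mono (map_mulLeft_wgr wt hP γ)
      exact_mod_cast h3.trans (finrank_wgr_le wt _)
    have h4 := mul_le_mul_of_nonneg_left h2 (mul_nonneg (hχ γ) (hχ δ))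
    linarith
  refine (Finset.sum_le_sum h1).trans ?_
  have h5 : ∑ γ ∈ wset wt, ∑ S ∈ (univ : Finset (Finset ι)).filter (fun T => wts wt T = γ + δ),
        χ (wts wt S)
      = ∑ S ∈ (wset wt).biUnion (fun γ => (univ : Finset (Finset ι)).filter
          fun T => wts wt T = γ + δ), χ (wts wt S) := by
    rw [Finset.sum_biUnion]
    intro γ _ γ' _ hne
    rw [Function.onFun, Finset.disjoint_left]
    intro S hS hS'
    apply hne
    have h6 := (Finset.mem_filter.1 hS).2
    have h7 := (Finset.mem_filter.1 hS').2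
    rw [h6] at h7
    exact add_right_cancel h7
  rw [h5]
  exact Finset.sum_le_sum_of_subset_of_nonneg (Finset.subset_univ _) fun _ _ _ => hχ _

end Vale.Agent.P346
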