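import Mathlib

/-!
Entries of products of matrices as sums over walks.
-/

namespace Vale.Agent.P346

open Finset

section pathsum

variable {σ R : Type*} [Fintype σ] [DecidableEq σ] [CommSemiring R]

/-- The weight of a walk. -/
def walkW {m : ℕ} (G : Fin m → Matrix σ σ R) (v : Fin (m + 1) → σ) : R :=
  ∏ b : Fin m, G b (v b.castSucc) (v b.succ)

lemma walkW_cons {m : ℕ} (G : Fin (m + 1) → Matrix σ σ R) (i : σ) (v : Fin (m + 1) → σ) :
    walkW G (Fin.cons i v) = G 0 i (v 0) * walkW (fun b => G b.succ) v := by
  unfold walkW
  rw [Fin.prod_univ_succ]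
  congr 1

lemma prod_ofFn_apply {m : ℕ} (G : Fin m → Matrix σ σ R) (i j : σ) :
    (List.ofFn G).prod i j
      = ∑ v : Fin (m + 1) → σ, if v 0 = i ∧ v (Fin.last m) = j then walkW G v else 0 := by
  induction m generalizing i with
  | zero =>
    rw [List.ofFn_zero, List.prod_nil]
    rw [Fintype.sum_equiv (Equiv.funUnique (Fin 1) σ) _
      (fun a => if a = i ∧ a = j then (1 : R) else 0)]
    · by_cases h : i = j
      · subst h
        simp
      · rw [Matrix.one_apply_ne h]
        symm
        apply Finset.sum_eq_zero
        intro a _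
        rw [if_neg]
        rintro ⟨rfl, h2⟩
        exact h h2
    · intro v
      unfold walkW
      rw [Fin.prod_univ_zero]
      rfl
  | succ m ih =>
    rw [List.ofFn_succ, List.prod_cons, Matrix.mul_apply]
    rw [← Equiv.sum_comp (Fin.consEquiv fun _ => σ), Fintype.sum_prod_type]
    refine Eq.trans ?_ (Finset.sum_eq_single i ?_ ?_).symm
    · have h1 : ∀ k : σ, G 0 i k * (List.ofFn fun b : Fin m => G b.succ).prod k j
          = ∑ v : Fin (m + 1) → σ, if v 0 = k ∧ v (Fin.last m) = j then
              G 0 i (v 0) * walkW (fun b => G b.succ) v else 0 := by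
        intro k
        rw [ih, Finset.mul_sum]
        apply Finset.sum_congr rfl
        intro v _
        by_cases h : v 0 = k ∧ v (Fin.last m) = j
        · rw [if_pos h, if_pos h, h.1]
        · rw [if_neg h, if_neg h, mul_zero]
      rw [Finset.sum_congr rfl fun k _ => h1 k, Finset.sum_comm]
      apply Finset.sum_congr rfl
      intro v _
      have h2 : (Fin.consEquiv fun _ => σ) (i, v) = Fin.cons i v := rfl
      rw [h2, Fin.cons_zero, walkW_cons]
      have h3 : (Fin.cons i v : Fin (m + 2) → σ) (Fin.last (m + 1)) = v (Fin.last m) := rfl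
      rw [h3]
      by_cases h : v (Fin.last m) = j
      · simp only [h, and_true, if_true]
        simp
      · simp only [h, and_false, if_false, Finset.sum_const_zero]
    · intro k _ hk
      apply Finset.sum_eq_zero
      intro v _
      rw [if_neg]
      rintro ⟨h, _⟩
      exact hk h
    · intro h
      exact absurd (mem_univ _) h

end pathsum

/-- Sums over pairs of functions. -/
lemma sum_fun_prod {k σ τ M : Type*} [Fintype k] [DecidableEq k] [Fintype σ] [Fintype τ]
    [AddCommMonoid M] (f : (k → σ) → (k → τ) → M) :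
    ∑ v : k → σ, ∑ z : k → τ, f v z = ∑ V : k → σ × τ, f (fun b => (V b).1) (fun b => (V b).2) := by
  rw [← Fintype.sum_prod_type', ← Equiv.sum_comp (Equiv.arrowProdEquivProdArrow k (fun _ => σ)
    (fun _ => τ))]
  rfl

end Vale.Agent.P346
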