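import Mathlib

/-!
A lower bound for the rank of an integer matrix over a field of characteristic zero.
-/

namespace Vale.Agent.P346

open Finset Matrix

lemma trace_sq_eq {α : Type*} [Fintype α] [DecidableEq α] {G : Matrix α α ℝ}
    (hG : G.IsHermitian) : (G * G).trace = ∑ i, hG.eigenvalues i ^ 2 := by
  have h1 := hG.spectral_theorem
  rw [Unitary.conjStarAlgAut_apply] at h1
  set U := hG.eigenvectorUnitary with hU
  have h2 : (star (U : Matrix α α ℝ)) * (U : Matrix α α ℝ) = 1 := Unitary.coe_star_mul_self U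
  have h3 : G * G = (U : Matrix α α ℝ) * (diagonal (RCLike.ofReal ∘ hG.eigenvalues)
      * diagonal (RCLike.ofReal ∘ hG.eigenvalues)) * star (U : Matrix α α ℝ) := by
    have h4 : ∀ A D V W : Matrix α α ℝ, W * V = 1 → A = V * D * W → A * A = V * (D * D) * W := by
      intro A D V W hWV hA
      calc A * A = (V * D * W) * (V * D * W) := by rw [← hA]
        _ = V * D * (W * V) * D * W := by simp only [Matrix.mul_assoc]
        _ = V * (D * D) * W := by rw [hWV]; simp only [Matrix.mul_assoc, Matrix.mul_one]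
    exact h4 _ _ _ _ h2 h1
  rw [h3, Matrix.trace_mul_cycle, ← Matrix.mul_assoc, h2, Matrix.one_mul, diagonal_mul_diagonal,
    trace_diagonal]
  apply Finset.sum_congr rfl
  intro i _
  simp [sq]

/-- Cauchy-Schwarz for the eigenvalues. -/
lemma trace_sq_le {α : Type*} [Fintype α] [DecidableEq α] {G : Matrix α α ℝ}
    (hG : G.IsHermitian) : G.trace ^ 2 ≤ (G.rank : ℝ) * (G * G).trace := by
  classical
  have h1 : G.trace = ∑ i, hG.eigenvalues i := by
    have := hG.trace_eq_sum_eigenvalues
    simpa using this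
  have h3 : G.rank = Fintype.card {i // hG.eigenvalues i ≠ 0} := hG.rank_eq_card_non_zero_eigs
  rw [h1, trace_sq_eq hG, h3, Fintype.card_subtype]
  set s := univ.filter fun i => hG.eigenvalues i ≠ 0 with hs
  have h4 : ∑ i, hG.eigenvalues i = ∑ i ∈ s, hG.eigenvalues i := by
    symm
    apply Finset.sum_subset (Finset.subset_univ _)
    intro i _ hi
    by_contra h
    exact hi (Finset.mem_filter.2 ⟨mem_univ _, h⟩)
  rw [h4]
  refine (sq_sum_le_card_mul_sum_sq).trans ?_
  apply mul_le_mul_of_nonneg_left _ (Nat.cast_nonneg _)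
  exact Finset.sum_le_sum_of_subset_of_nonneg (Finset.subset_univ _) fun _ _ _ => sq_nonneg _

/-- The rank of an integer matrix over `ℝ` is at most its rank over any field of characteristic
zero. -/
lemma rank_real_le {K : Type*} [Field K] [CharZero K] {α β : Type*} [Fintype α] [DecidableEq α]
    [Fintype β] [DecidableEq β] (M : Matrix α β ℤ) :
    (M.map (Int.cast : ℤ → ℝ)).rank ≤ (M.map (Int.cast : ℤ → K)).rank := by
  classical
  obtain ⟨κ, a, ha, hspan, hli⟩ := exists_linearIndependent' ℝ (M.map (Int.cast : ℤ → ℝ)).row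
  have : Fintype κ := Fintype.ofInjective a ha
  -- the chosen rows
  set N : Matrix κ β ℤ := M.submatrix a id with hN
  have hNrow : (N.map (Int.cast : ℤ → ℝ)).row = (M.map (Int.cast : ℤ → ℝ)).row ∘ a := by
    funext i j
    rfl
  have hliN : LinearIndependent ℝ (N.map (Int.cast : ℤ → ℝ)).row := by
    rw [hNrow]; exact hli
  have hrkN : (N.map (Int.cast : ℤ → ℝ)).rank = Fintype.card κ := LinearIndependent.rank_matrix hliN
  have hrkM : (M.map (Int.cast : ℤ → ℝ)).rank = Fintype.card κ := by
    rw [Matrix.rank_eq_finrank_span_row, ← hspan]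
    rw [finrank_span_eq_card hli]
  rw [hrkM]
  -- the Gram matrix
  set P : Matrix κ κ ℤ := N * Nᵀ with hP
  have hPR : (P.map (Int.cast : ℤ → ℝ)) = (N.map (Int.cast : ℤ → ℝ)) * (N.map (Int.cast : ℤ → ℝ))ᵀ := by
    rw [hP]
    ext i j
    simp [Matrix.mul_apply]
  have hPK : (P.map (Int.cast : ℤ → K)) = (N.map (Int.cast : ℤ → K)) * (N.map (Int.cast : ℤ → K))ᵀ := by
    rw [hP]
    ext i j
    simp [Matrix.mul_apply]
  have hPrk : (P.map (Int.cast : ℤ → ℝ)).rank = Fintype.card κ := by
    rw [hPR, Matrix.rank_self_mul_transpose, hrkN]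
  have hdetR : (P.map (Int.cast : ℤ → ℝ)).det ≠ 0 := by
    intro h0
    have hu : LinearIndependent ℝ (P.map (Int.cast : ℤ → ℝ)).row := by
      rw [linearIndependent_iff_card_eq_finrank_span, ← hPrk, Matrix.rank_eq_finrank_span_row]
      rfl
    rw [Matrix.linearIndependent_rows_iff_isUnit, Matrix.isUnit_iff_isUnit_det, h0] at hu
    exact not_isUnit_zero hu
  have hdetZ : P.det ≠ 0 := by
    intro h0
    apply hdetR
    have := (Int.castRingHom ℝ).map_det P
    rw [h0] at this
    simpa [RingHom.mapMatrix_apply] using this.symm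
  have hdetK : (P.map (Int.cast : ℤ → K)).det ≠ 0 := by
    have h5 := (Int.castRingHom K).map_det P
    have h6 : (P.map (Int.cast : ℤ → K)).det = ((P.det : ℤ) : K) := by
      simpa [RingHom.mapMatrix_apply] using h5.symm
    rw [h6]
    exact_mod_cast hdetZ
  have hrkPK : (P.map (Int.cast : ℤ → K)).rank = Fintype.card κ := by
    apply Matrix.rank_of_isUnit
    rw [Matrix.isUnit_iff_isUnit_det]
    exact isUnit_iff_ne_zero.2 hdetK
  calc Fintype.card κ = (P.map (Int.cast : ℤ → K)).rank := hrkPK.symm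
    _ ≤ (N.map (Int.cast : ℤ → K)).rank := by
        rw [hPK]; exact Matrix.rank_mul_le_left _ _
    _ ≤ (M.map (Int.cast : ℤ → K)).rank := by
        have : (N.map (Int.cast : ℤ → K)) = (M.map (Int.cast : ℤ → K)).submatrix a id := rfl
        rw [this]
        exact Matrix.rank_submatrix_le _ _ _

/-- The second moment lower bound for the rank of an integer matrix. -/
theorem rank_lower {K : Type*} [Field K] [CharZero K] {α β : Type*} [Fintype α] [DecidableEq α]
    [Fintype β] [DecidableEq β] (M : Matrix α β ℤ) :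
    (∑ i, ∑ j, (M i j : ℝ) ^ 2) ^ 2 ≤ ((M.map (Int.cast : ℤ → K)).rank : ℝ)
      * ∑ i, ∑ i', (∑ j, (M i j : ℝ) * (M i' j : ℝ)) ^ 2 := by
  classical
  set A : Matrix α β ℝ := M.map (Int.cast : ℤ → ℝ) with hA
  set G : Matrix α α ℝ := A * Aᵀ with hG
  have hGH : G.IsHermitian := by
    have := Matrix.isHermitian_mul_conjTranspose_self A
    simpa [hG, Matrix.conjTranspose_eq_transpose_of_trivial] using this
  have h1 := trace_sq_le hGH
  have htr : G.trace = ∑ i, ∑ j, (M i j : ℝ) ^ 2 := by
    simp [Matrix.trace, hG, Matrix.mul_apply, hA, sq]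
  have hGt : ∀ i i', G i i' = ∑ j, (M i j : ℝ) * (M i' j : ℝ) := by
    intro i i'
    simp [hG, Matrix.mul_apply, hA]
  have htr2 : (G * G).trace = ∑ i, ∑ i', (∑ j, (M i j : ℝ) * (M i' j : ℝ)) ^ 2 := by
    simp only [Matrix.trace, Matrix.diag_apply, Matrix.mul_apply]
    apply Finset.sum_congr rfl
    intro i _
    apply Finset.sum_congr rfl
    intro i' _
    have hsym : G i' i = G i i' := by
      rw [hGt, hGt]
      exact Finset.sum_congr rfl fun _ _ => mul_comm _ _
    rw [hsym, hGt i i', sq]
  rw [htr, htr2] at h1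
  refine h1.trans ?_
  apply mul_le_mul_of_nonneg_right
  · have h2 : G.rank = A.rank := Matrix.rank_self_mul_transpose A
    rw [h2]
    exact_mod_cast rank_real_le (K := K) M
  · exact Finset.sum_nonneg fun _ _ => Finset.sum_nonneg fun _ _ => sq_nonneg _

end Vale.Agent.P346
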