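import Vale.Agent.P346.Meas
import Vale.Agent.P346.Lower
import Vale.Agent.P346.RankR

/-!
Lower bound for the measure of a sum of transversal monomials in characteristic zero.
-/

namespace Vale.Agent.P346

open Finset MvPolynomial

variable {β α : Type*} [DecidableEq β] [Fintype β] [DecidableEq α] [Fintype α]
variable {W : Type*} [Fintype W]

/-- The indicator of `t = s ∪ {e}`, `e ∉ s`. -/
def Aind (e : α) (s t : Finset α) : ℤ := if s ⊆ t ∧ {e} = t \ s then 1 else 0

/-- The matrix of multiplication. -/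
def Mx (p : W → β → α) (S T : β → Finset α) : ℤ := ∑ v : W, ∏ b, Aind (p v b) (S b) (T b)

/-- The polynomial given by a family of transversals. -/
noncomputable def FW (K : Type*) [Field K] (p : W → β → α) : MvPolynomial (β × α) K :=
  ∑ v : W, monomial (ind (tot fun b => {p v b})) 1

variable {K : Type*} [Field K]

lemma chi_FW (p : W → β → α) (S T : β → Finset α) :
    chi (β × α) K (qm (β × α) K (FW K p) * qm (β × α) K (monomial (ind (tot S)) 1)) (tot T)
      = ((Mx p S T : ℤ) : K) := by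
  rw [← map_mul, chi_qm]
  unfold FW Mx
  rw [Finset.sum_mul, coeff_sum, Int.cast_sum]
  apply Finset.sum_congr rfl
  intro v _
  rw [monomial_mul, mul_one, coeff_monomial, Int.cast_prod]
  unfold Aind
  simp only [Int.cast_ite, Int.cast_one, Int.cast_zero]
  rw [Finset.prod_ite_zero]
  simp only [ind_tot_add, mem_univ, true_imp_iff, Finset.prod_const_one]

lemma wts_tot {Γ : Type*} [AddCommMonoid Γ] (wb : β → Γ) (S : β → Finset α) :
    (∑ i ∈ tot S, wb i.1) = ∑ b, (S b).card • wb b := by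
  unfold tot
  rw [Finset.sum_filter, Fintype.sum_prod_type]
  apply Finset.sum_congr rfl
  intro b _
  rw [← Finset.sum_filter]
  have h1 : (univ.filter fun a : α => (b, a).2 ∈ S (b, a).1) = S b := by
    ext i
    simp
  rw [h1]
  show ∑ _a ∈ S b, wb b = _
  rw [Finset.sum_const]

lemma sum_subtype_le {σ : Type*} [Fintype σ] (P : σ → Prop) [DecidablePred P] {f : σ → ℝ}
    (hf : ∀ s, 0 ≤ f s) : ∑ s : {s : σ // P s}, f s.1 ≤ ∑ s, f s := by
  rw [← Finset.sum_subtype (univ.filter P) (fun x => by simp) f]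
  exact Finset.sum_le_sum_of_subset_of_nonneg (Finset.filter_subset _ _) fun s _ _ => hf s

lemma rank_le_rkV (p : W → β → α) {Γ : Type*} [AddCancelCommMonoid Γ] [DecidableEq Γ]
    (wt : β × α → Γ) (γ : Γ) :
    ((Matrix.of fun (S : {S : β → Finset α // wts wt (tot S) = γ}) (T : β → Finset α) =>
      Mx p S.1 T).map (Int.cast : ℤ → K)).rank
      ≤ rkV (wgr K wt γ) (qm (β × α) K (FW K p)) := by
  classical
  rw [Matrix.rank_eq_finrank_span_row]
  set ψ : TA (β × α) K →ₗ[K] ((β → Finset α) → K) :=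
    LinearMap.pi fun T => (LinearMap.proj (tot T) : (Finset (β × α) → K) →ₗ[K] K).comp
      (chi (β × α) K) with hψ
  have h1 : Submodule.span K (Set.range ((Matrix.of fun
      (S : {S : β → Finset α // wts wt (tot S) = γ}) (T : β → Finset α) =>
      Mx p S.1 T).map (Int.cast : ℤ → K)).row)
      ≤ Submodule.map ψ (Submodule.map (LinearMap.mulLeft K (qm (β × α) K (FW K p)))
        (wgr K wt γ)) := by
    rw [Submodule.span_le]
    rintro _ ⟨S, rfl⟩
    refine ⟨qm (β × α) K (FW K p) * qm (β × α) K (monomial (ind (tot S.1)) 1),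
      ⟨qm (β × α) K (monomial (ind (tot S.1)) 1), ⟨_, ?_, rfl⟩, rfl⟩, ?_⟩
    · rw [SetLike.mem_coe, mem_weightedHomogeneousSubmodule]
      apply isWeightedHomogeneous_monomial
      rw [weight_ind]
      exact S.2
    · funext T
      show chi (β × α) K (qm (β × α) K (FW K p) * qm (β × α) K (monomial (ind (tot S.1)) 1))
        (tot T) = _
      rw [chi_FW]
      rfl
  refine (Submodule.finrank_mono h1).trans ?_
  exact Submodule.finrank_map_le _ _

theorem Hm_lower [CharZero K] (p : W → β → α) {Γ : Type*} [AddCancelCommMonoid Γ]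
    [DecidableEq Γ] (wt : β × α → Γ) {χ : Γ → ℝ} (hχ : ∀ γ, 0 ≤ χ γ) :
    (∑ S : β → Finset α, χ (wts wt (tot S)) * ∑ T, (Mx p S T : ℝ) ^ 2) ^ 2
      ≤ Hm wt χ (FW K p) * ∑ S : β → Finset α, χ (wts wt (tot S)) *
        ∑ S' : β → Finset α, (∑ T, (Mx p S T : ℝ) * (Mx p S' T : ℝ)) ^ 2 := by
  classical
  -- group by weight
  have hgroup : ∀ f : (β → Finset α) → ℝ, ∑ S : β → Finset α, χ (wts wt (tot S)) * f S
      = ∑ γ ∈ wset wt, χ γ * ∑ S : {S : β → Finset α // wts wt (tot S) = γ}, f S.1 := by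
    intro f
    rw [← Finset.sum_fiberwise_of_maps_to (s := univ) (t := wset wt)
      (g := fun S : β → Finset α => wts wt (tot S))]
    · apply Finset.sum_congr rfl
      intro γ _
      rw [Finset.sum_congr rfl fun S hS => by rw [(Finset.mem_filter.1 hS).2],
        ← Finset.mul_sum]
      congr 1
      exact Finset.sum_subtype _ (fun x => by simp) f
    · intro S _
      exact Finset.mem_image_of_mem _ (mem_univ _)
  rw [hgroup, hgroup]
  unfold Hm
  have hτ : ∀ γ ∈ wset wt, χ γ * ∑ S : {S : β → Finset α // wts wt (tot S) = γ},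
        ∑ S' : {S : β → Finset α // wts wt (tot S) = γ},
          (∑ T, (Mx p S.1 T : ℝ) * (Mx p S'.1 T : ℝ)) ^ 2
      ≤ χ γ * ∑ S : {S : β → Finset α // wts wt (tot S) = γ},
        ∑ S' : β → Finset α, (∑ T, (Mx p S.1 T : ℝ) * (Mx p S' T : ℝ)) ^ 2 := by
    intro γ _
    apply mul_le_mul_of_nonneg_left _ (hχ γ)
    apply Finset.sum_le_sum
    intro S _
    exact sum_subtype_le (fun S' : β → Finset α => wts wt (tot S') = γ)
      (f := fun S' => (∑ T, (Mx p S.1 T : ℝ) * (Mx p S' T : ℝ)) ^ 2) fun _ => sq_nonneg _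
  refine le_trans ?_ (mul_le_mul_of_nonneg_left (Finset.sum_le_sum hτ)
    (Finset.sum_nonneg fun _ _ => mul_nonneg (hχ _) (Nat.cast_nonneg _)))
  apply Finset.sum_sq_le_sum_mul_sum_of_sq_le_mul
  · intro γ _
    exact mul_nonneg (hχ _) (Nat.cast_nonneg _)
  · intro γ _
    exact mul_nonneg (hχ _) (Finset.sum_nonneg fun _ _ => Finset.sum_nonneg fun _ _ => sq_nonneg _)
  · intro γ _
    have h1 := rank_lower (K := K) (Matrix.of fun
      (S : {S : β → Finset α // wts wt (tot S) = γ}) (T : β → Finset α) => Mx p S.1 T)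
    have h2 : (((Matrix.of fun
      (S : {S : β → Finset α // wts wt (tot S) = γ}) (T : β → Finset α) =>
      Mx p S.1 T).map (Int.cast : ℤ → K)).rank : ℝ) ≤ rkV (wgr K wt γ) (qm (β × α) K (FW K p)) := by
      exact_mod_cast rank_le_rkV (K := K) p wt γ
    set t := ∑ S : {S : β → Finset α // wts wt (tot S) = γ}, ∑ T, (Mx p S.1 T : ℝ) ^ 2 with ht
    set τ := ∑ S : {S : β → Finset α // wts wt (tot S) = γ},
        ∑ S' : {S : β → Finset α // wts wt (tot S) = γ},
          (∑ T, (Mx p S.1 T : ℝ) * (Mx p S'.1 T : ℝ)) ^ 2 with hτ'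
    have hτ0 : 0 ≤ τ := Finset.sum_nonneg fun _ _ => Finset.sum_nonneg fun _ _ => sq_nonneg _
    have h3 : t ^ 2 ≤ (rkV (wgr K wt γ) (qm (β × α) K (FW K p)) : ℝ) * τ :=
      h1.trans (mul_le_mul_of_nonneg_right h2 hτ0)
    have h4 : 0 ≤ χ γ ^ 2 := sq_nonneg _
    calc (χ γ * t) ^ 2 = χ γ ^ 2 * t ^ 2 := by ring
      _ ≤ χ γ ^ 2 * ((rkV (wgr K wt γ) (qm (β × α) K (FW K p)) : ℝ) * τ) :=
        mul_le_mul_of_nonneg_left h3 h4
      _ = _ := by ring

end Vale.Agent.P346
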