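import Vale.Agent.P346.Theta

/-!
The moments of the matrix of multiplication by a sum of transversal monomials.
-/

namespace Vale.Agent.P346

open Finset

variable {β α : Type*} [DecidableEq β] [Fintype β] [DecidableEq α] [Fintype α]
variable {W : Type*} [Fintype W]

lemma prod_sum_fun {δ : Type*} [Fintype δ] (f : β → δ → ℝ) :
    ∑ S : β → δ, ∏ b, f b (S b) = ∏ b, ∑ s, f b s := by
  rw [Finset.prod_univ_sum, Fintype.piFinset_univ]

lemma Mx_nonneg (p : W → β → α) (S T : β → Finset α) : 0 ≤ Mx p S T := by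
  unfold Mx
  apply Finset.sum_nonneg
  intro v _
  apply Finset.prod_nonneg
  intro b _
  unfold Aind
  split_ifs <;> norm_num

lemma Mx_le_sq (p : W → β → α) (S T : β → Finset α) : (Mx p S T : ℝ) ≤ (Mx p S T : ℝ) ^ 2 := by
  have h := Mx_nonneg p S T
  have h2 : Mx p S T ≤ Mx p S T ^ 2 := by nlinarith
  exact_mod_cast h2

lemma first_moment (p : W → β → α) {w : β → ℝ} (hw : ∀ b, 0 ≤ w b) :
    (Fintype.card W : ℝ) * ∏ b, (1 + w b) ^ (Fintype.card α - 1)
      ≤ ∑ S : β → Finset α, (∏ b, w b ^ (S b).card) * ∑ T, (Mx p S T : ℝ) ^ 2 := by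
  have h1 : ∑ S : β → Finset α, (∏ b, w b ^ (S b).card) * ∑ T, (Mx p S T : ℝ)
      = (Fintype.card W : ℝ) * ∏ b, (1 + w b) ^ (Fintype.card α - 1) := by
    have h2 : ∀ S : β → Finset α, (∏ b, w b ^ (S b).card) * ∑ T, (Mx p S T : ℝ)
        = ∑ v : W, ∏ b, ∑ t, w b ^ (S b).card * (Aind (p v b) (S b) t : ℝ) := by
      intro S
      unfold Mx
      push_cast
      rw [Finset.sum_comm, Finset.mul_sum]
      apply Finset.sum_congr rfl
      intro v _
      rw [prod_sum_fun (fun b t => (Aind (p v b) (S b) t : ℝ)), ← Finset.prod_mul_distrib]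
      apply Finset.prod_congr rfl
      intro b _
      rw [Finset.mul_sum]
    rw [Finset.sum_congr rfl fun S _ => h2 S, Finset.sum_comm]
    have h3 : ∀ v : W, ∑ S : β → Finset α, ∏ b, ∑ t, w b ^ (S b).card * (Aind (p v b) (S b) t : ℝ)
        = ∏ b, (1 + w b) ^ (Fintype.card α - 1) := by
      intro v
      rw [prod_sum_fun (fun b s => ∑ t, w b ^ s.card * (Aind (p v b) s t : ℝ))]
      apply Finset.prod_congr rfl
      intro b _
      exact theta1 (w b) (p v b)
    rw [Finset.sum_congr rfl fun v _ => h3 v, Finset.sum_const, card_univ, nsmul_eq_mul]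
  rw [← h1]
  apply Finset.sum_le_sum
  intro S _
  apply mul_le_mul_of_nonneg_left _ (Finset.prod_nonneg fun b _ => pow_nonneg (hw b) _)
  apply Finset.sum_le_sum
  intro T _
  exact Mx_le_sq p S T

lemma gram_eq (p : W → β → α) (S S' : β → Finset α) :
    ∑ T, (Mx p S T : ℝ) * (Mx p S' T : ℝ)
      = ∑ v : W, ∑ v' : W, ∏ b, A2 (p v b) (p v' b) (S b) (S' b) := by
  have h1 : ∀ T : β → Finset α, (Mx p S T : ℝ) * (Mx p S' T : ℝ)
      = ∑ v : W, ∑ v' : W, ∏ b, ((Aind (p v b) (S b) (T b) : ℝ) * Aind (p v' b) (S' b) (T b)) := by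
    intro T
    unfold Mx
    push_cast
    rw [Finset.sum_mul_sum]
    apply Finset.sum_congr rfl
    intro v _
    apply Finset.sum_congr rfl
    intro v' _
    rw [Finset.prod_mul_distrib]
  rw [Finset.sum_congr rfl fun T _ => h1 T, Finset.sum_comm]
  apply Finset.sum_congr rfl
  intro v _
  rw [Finset.sum_comm]
  apply Finset.sum_congr rfl
  intro v' _
  rw [prod_sum_fun (fun b t => (Aind (p v b) (S b) t : ℝ) * Aind (p v' b) (S' b) t)]
  rfl

lemma second_moment (p : W → β → α) (w : β → ℝ) :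
    ∑ S : β → Finset α, (∏ b, w b ^ (S b).card) *
        ∑ S' : β → Finset α, (∑ T, (Mx p S T : ℝ) * (Mx p S' T : ℝ)) ^ 2
      = ∑ v : W, ∑ v' : W, ∑ z : W, ∑ z' : W,
          ∏ b, theta (w b) (p v b) (p v' b) (p z b) (p z' b) := by
  have h1 : ∀ S S' : β → Finset α, (∑ T, (Mx p S T : ℝ) * (Mx p S' T : ℝ)) ^ 2
      = ∑ v : W, ∑ v' : W, ∑ z : W, ∑ z' : W, ∏ b, (A2 (p v b) (p v' b) (S b) (S' b)
          * A2 (p z b) (p z' b) (S b) (S' b)) := by
    intro S S'
    rw [gram_eq, sq, Finset.sum_mul]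
    apply Finset.sum_congr rfl
    intro v _
    rw [Finset.sum_mul]
    apply Finset.sum_congr rfl
    intro v' _
    rw [Finset.mul_sum]
    apply Finset.sum_congr rfl
    intro z _
    rw [Finset.mul_sum]
    apply Finset.sum_congr rfl
    intro z' _
    rw [Finset.prod_mul_distrib]
  have h2 : ∀ S : β → Finset α, (∏ b, w b ^ (S b).card) *
        ∑ S' : β → Finset α, (∑ T, (Mx p S T : ℝ) * (Mx p S' T : ℝ)) ^ 2
      = ∑ v : W, ∑ v' : W, ∑ z : W, ∑ z' : W, ∏ b, ∑ s', w b ^ (S b).card *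
        (A2 (p v b) (p v' b) (S b) s' * A2 (p z b) (p z' b) (S b) s') := by
    intro S
    rw [Finset.sum_congr rfl fun S' _ => h1 S S', Finset.sum_comm, Finset.mul_sum]
    apply Finset.sum_congr rfl
    intro v _
    rw [Finset.sum_comm, Finset.mul_sum]
    apply Finset.sum_congr rfl
    intro v' _
    rw [Finset.sum_comm, Finset.mul_sum]
    apply Finset.sum_congr rfl
    intro z _
    rw [Finset.sum_comm, Finset.mul_sum]
    apply Finset.sum_congr rfl
    intro z' _
    rw [prod_sum_fun (fun b s' => A2 (p v b) (p v' b) (S b) s'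
      * A2 (p z b) (p z' b) (S b) s'), ← Finset.prod_mul_distrib]
    apply Finset.prod_congr rfl
    intro b _
    rw [Finset.mul_sum]
  rw [Finset.sum_congr rfl fun S _ => h2 S, Finset.sum_comm]
  apply Finset.sum_congr rfl
  intro v _
  rw [Finset.sum_comm]
  apply Finset.sum_congr rfl
  intro v' _
  rw [Finset.sum_comm]
  apply Finset.sum_congr rfl
  intro z _
  rw [Finset.sum_comm]
  apply Finset.sum_congr rfl
  intro z' _
  rw [prod_sum_fun (fun b s => ∑ s', w b ^ s.card *
        (A2 (p v b) (p v' b) s s' * A2 (p z b) (p z' b) s s'))]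
  rfl

end Vale.Agent.P346
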