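import Vale.Agent.P346.Walks

/-!
The lower bound for the measure of the hard polynomial in characteristic zero.
-/

namespace Vale.Agent.P346

open Finset MvPolynomial

/-- The character of `ℕ × ℕ`. -/
noncomputable def chw (wx wy : ℝ) (γ : ℕ × ℕ) : ℝ := wx ^ γ.1 * wy ^ γ.2

lemma chw_add (wx wy : ℝ) (γ δ : ℕ × ℕ) : chw wx wy (γ + δ) = chw wx wy γ * chw wx wy δ := by
  unfold chw
  rw [Prod.fst_add, Prod.snd_add, pow_add, pow_add]
  ring

lemma chw_sum (wx wy : ℝ) {κ : Type*} (s : Finset κ) (f : κ → ℕ × ℕ) :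
    chw wx wy (∑ i ∈ s, f i) = ∏ i ∈ s, chw wx wy (f i) := by
  classical
  induction s using Finset.induction_on with
  | empty =>
    rw [Finset.sum_empty, Finset.prod_empty]
    unfold chw
    simp
  | insert a s ha ih => rw [Finset.sum_insert ha, Finset.prod_insert ha, chw_add, ih]

lemma chw_nsmul (wx wy : ℝ) (k : ℕ) (γ : ℕ × ℕ) : chw wx wy (k • γ) = chw wx wy γ ^ k := by
  unfold chw
  rw [Prod.smul_fst, Prod.smul_snd, mul_pow, ← pow_mul, ← pow_mul, smul_eq_mul, smul_eq_mul,
    mul_comm k, mul_comm k]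

/-- The bidegree of a layer. -/
def bd (b : Bool) : ℕ × ℕ := if b = true then (1, 0) else (0, 1)

lemma chw_bd (wx wy : ℝ) (b : Bool) : chw wx wy (bd b) = wB wx wy b := by
  unfold chw bd wB
  cases b <;> simp

variable {L : List (Bool × Bool)} {v : ℕ}

/-- The bidegree of a variable. -/
def wtL (L : List (Bool × Bool)) (v : ℕ) (i : Fin L.length × (Fin (v + 1) × Fin (v + 1))) :
    ℕ × ℕ := bd (L.get i.1).1

lemma chw_tot (wx wy : ℝ) (S : Fin L.length → Finset (Fin (v + 1) × Fin (v + 1))) :
    chw wx wy (wts (wtL L v) (tot S)) = ∏ b, wB wx wy (L.get b).1 ^ (S b).card := by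
  have h1 : wts (wtL L v) (tot S) = ∑ b, (S b).card • bd (L.get b).1 :=
    wts_tot (fun b : Fin L.length => bd (L.get b).1) S
  rw [h1, chw_sum]
  apply Finset.prod_congr rfl
  intro b _
  rw [chw_nsmul, chw_bd]

/-- The total weight. -/
noncomputable def Ztot (wx wy : ℝ) (L : List (Bool × Bool)) (v : ℕ) : ℝ :=
  ∏ b : Fin L.length, (1 + wB wx wy (L.get b).1) ^ ((v + 1) * (v + 1))

lemma Ztot_eq (wx wy : ℝ) :
    ∑ S : Finset (Fin L.length × (Fin (v + 1) × Fin (v + 1))), chw wx wy (wts (wtL L v) S)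
      = Ztot wx wy L v := by
  have h1 : ∀ S : Finset (Fin L.length × (Fin (v + 1) × Fin (v + 1))),
      chw wx wy (wts (wtL L v) S) = ∏ i ∈ S, wB wx wy (L.get i.1).1 := by
    intro S
    unfold wts
    rw [chw_sum]
    apply Finset.prod_congr rfl
    intro i _
    exact chw_bd wx wy _
  rw [Finset.sum_congr rfl fun S _ => h1 S]
  have h2 := Finset.prod_one_add (s := (univ : Finset (Fin L.length × (Fin (v + 1) × Fin (v + 1)))))
    (f := fun i => wB wx wy (L.get i.1).1)
  rw [Finset.powerset_univ] at h2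
  rw [← h2, Fintype.prod_prod_type]
  unfold Ztot
  apply Finset.prod_congr rfl
  intro b _
  show ∏ _y : Fin (v + 1) × Fin (v + 1), (1 + wB wx wy (L.get b).1) = _
  rw [Finset.prod_const, card_univ, Fintype.card_prod, Fintype.card_fin]

/-- Products over the layers of a block. -/
noncomputable def lp (wx wy : ℝ) (k q : ℕ) : ℝ :=
  ((blk q).map fun d => (1 + wB wx wy d.1) ^ k).prod

lemma lp_zero (wx wy : ℝ) (k : ℕ) : lp wx wy k 0 = (1 + wx) ^ k := by
  unfold lp blk wB
  simp

lemma lp_succ (wx wy : ℝ) (k q : ℕ) :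
    lp wx wy k (q + 1) = (1 + wx) ^ k * (1 + wy) ^ k * lp wx wy k q := by
  unfold lp
  show (((true, false) :: (false, false) :: blk q).map fun d => (1 + wB wx wy d.1) ^ k).prod = _
  rw [List.map_cons, List.prod_cons, List.map_cons, List.prod_cons, ← mul_assoc]
  unfold wB
  simp

lemma nrm_eq (n : ℝ) (N : ℕ) (wx wy : ℝ) (q : ℕ) :
    nrm n N wx wy q = n ^ (4 * q) * lp wx wy (N - 2) q := by
  induction q with
  | zero =>
    rw [lp_zero]
    unfold nrm
    simp
  | succ q ih =>
    rw [lp_succ]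
    show n ^ 2 * (1 + wx) ^ (N - 2) * (n ^ 2 * (1 + wy) ^ (N - 2)) * nrm n N wx wy q = _
    rw [ih]
    ring

lemma lp_pos {wx wy : ℝ} (hx : 0 ≤ wx) (hy : 0 ≤ wy) (k q : ℕ) : 0 < lp wx wy k q := by
  induction q with
  | zero =>
    rw [lp_zero]
    positivity
  | succ q ih =>
    rw [lp_succ]
    positivity

lemma lp_mul (wx wy : ℝ) {N : ℕ} (hN : 2 ≤ N) (q : ℕ) :
    lp wx wy (N - 1) q ^ 2 = lp wx wy (N - 2) q * lp wx wy N q := by
  obtain ⟨k, rfl⟩ := Nat.exists_eq_add_of_le hN
  have e1 : 2 + k - 1 = k + 1 := by omega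
  have e2 : 2 + k - 2 = k := by omega
  rw [e1, e2]
  induction q with
  | zero =>
    rw [lp_zero, lp_zero, lp_zero]
    ring
  | succ q ih =>
    rw [lp_succ, lp_succ, lp_succ, mul_pow, ih]
    ring

lemma prod_layers (f : Bool × Bool → ℝ) (L : List (Bool × Bool)) :
    ∏ b : Fin L.length, f (L.get b) = (L.map f).prod := by
  rw [← List.prod_ofFn]
  congr 1
  conv_rhs => rw [← List.ofFn_get L, List.map_ofFn]
  rfl

lemma prod_blocks (wx wy : ℝ) (k : ℕ) (qs : List ℕ) :
    ((((qs.map blk).flatten)).map fun d : Bool × Bool => (1 + wB wx wy d.1) ^ k).prod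
      = (qs.map fun q => lp wx wy k q).prod := by
  induction qs with
  | nil => simp
  | cons q qs ih =>
    rw [List.map_cons, List.flatten_cons, List.map_append, List.prod_append, ih, List.map_cons,
      List.prod_cons]
    rfl

/-- The number of walks. -/
lemma cnt_blk (rest : List (Bool × Bool)) (q : ℕ) : ∀ u : Fin (v + 1),
    ((blk q ++ rest).map fun d => Adj v d.2).prod u 0
      = (v + 1 : ℝ) ^ (2 * q) * (rest.map fun d => Adj v d.2).prod 0 0 := by
  induction q with
  | zero =>
    intro u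
    show (((true, true) :: rest).map fun d => Adj v d.2).prod u 0 = _
    rw [List.map_cons, List.prod_cons, Matrix.mul_apply, Finset.sum_eq_single 0]
    · unfold Adj
      rw [Matrix.of_apply, adm_closed_zero]
      simp
    · intro j _ hj
      show adm true j * _ = 0
      rw [adm_closed hj, zero_mul]
    · intro h
      exact absurd (mem_univ _) h
  | succ q ih =>
    intro u
    show (((true, false) :: (false, false) :: (blk q ++ rest)).map fun d => Adj v d.2).prod u 0 = _
    rw [List.map_cons, List.prod_cons, List.map_cons, List.prod_cons, Matrix.mul_apply]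
    have h1 : ∀ j : Fin (v + 1), Adj v (true, false).2 u j
        * (Adj v (false, false).2 * ((blk q ++ rest).map fun d => Adj v d.2).prod) j 0
        = (v + 1 : ℝ) * ((v + 1 : ℝ) ^ (2 * q) * (rest.map fun d => Adj v d.2).prod 0 0) := by
      intro j
      have h2 : Adj v (true, false).2 u j = 1 := by
        unfold Adj
        rw [Matrix.of_apply]
        exact adm_open j
      rw [h2, one_mul, Matrix.mul_apply]
      have h3 : ∀ i : Fin (v + 1), Adj v (false, false).2 j i
          * ((blk q ++ rest).map fun d => Adj v d.2).prod i 0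
          = (v + 1 : ℝ) ^ (2 * q) * (rest.map fun d => Adj v d.2).prod 0 0 := by
        intro i
        have h4 : Adj v (false, false).2 j i = 1 := by
          unfold Adj
          rw [Matrix.of_apply]
          exact adm_open i
        rw [h4, one_mul, ih i]
      rw [Finset.sum_congr rfl fun i _ => h3 i, Finset.sum_const, card_univ, Fintype.card_fin,
        nsmul_eq_mul]
      push_cast
      ring
    rw [Finset.sum_congr rfl fun j _ => h1 j, Finset.sum_const, card_univ, Fintype.card_fin,
      nsmul_eq_mul]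
    push_cast
    ring

lemma card_blocks (qs : List ℕ) :
    (Fintype.card (Wk (qs.map blk).flatten v) : ℝ)
      = (qs.map fun q => (v + 1 : ℝ) ^ (2 * q)).prod := by
  rw [card_Wk]
  induction qs with
  | nil => simp
  | cons q qs ih =>
    rw [List.map_cons, List.flatten_cons, cnt_blk, ih, List.map_cons, List.prod_cons]

lemma key_prod (wx wy : ℝ) {N : ℕ} (hN : 2 ≤ N) {n : ℝ} (qs : List ℕ) :
    ((qs.map fun q => n ^ (2 * q)).prod * (qs.map fun q => lp wx wy (N - 1) q).prod) ^ 2
      = (qs.map fun q => nrm n N wx wy q).prod * (qs.map fun q => lp wx wy N q).prod := by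
  induction qs with
  | nil => simp
  | cons q qs ih =>
    simp only [List.map_cons, List.prod_cons]
    have h1 := lp_mul wx wy hN q
    rw [nrm_eq]
    calc (n ^ (2 * q) * (qs.map fun q => n ^ (2 * q)).prod
        * (lp wx wy (N - 1) q * (qs.map fun q => lp wx wy (N - 1) q).prod)) ^ 2
        = n ^ (4 * q) * lp wx wy (N - 1) q ^ 2 * ((qs.map fun q => n ^ (2 * q)).prod
          * (qs.map fun q => lp wx wy (N - 1) q).prod) ^ 2 := by ring
      _ = _ := by
        rw [ih, h1]
        ring

theorem HF_lower {K : Type*} [Field K] [CharZero K] (hv1 : 1 ≤ v) {wx wy : ℝ} (hx : 0 ≤ wx)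
    (hy : 0 ≤ wy) (qs : List ℕ) :
    Ztot wx wy (qs.map blk).flatten v
      ≤ Hm (wtL (qs.map blk).flatten v) (chw wx wy)
          (FW K (pw (L := (qs.map blk).flatten) (v := v)))
        * (qs.map fun q => (eij (v + 1 : ℝ) wx wy q).1).prod := by
  have hw : ∀ c, 0 ≤ wB wx wy c := by
    intro c
    unfold wB
    split_ifs
    · exact hx
    · exact hy
  have hch : ∀ γ, 0 ≤ chw wx wy γ := fun γ => mul_nonneg (pow_nonneg hx _) (pow_nonneg hy _)
  have hN : 2 ≤ (v + 1) * (v + 1) := by nlinarith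
  obtain ⟨M, hM⟩ : ∃ M, M = (qs.map blk).flatten := ⟨_, rfl⟩
  have h1 := Hm_lower (K := K) (pw (L := M) (v := v)) (wtL M v) hch
  simp only [chw_tot] at h1
  have h2 := first_moment (pw (L := M) (v := v)) (w := fun b => wB wx wy (M.get b).1)
    (fun b => hw _)
  have h3 := second_moment (pw (L := M) (v := v)) (fun b => wB wx wy (M.get b).1)
  rw [h3] at h1
  have h4 := second_le (L := M) (v := v) hx hy
  have h5 := hv_total hv1 hx hy qs
  rw [← hM] at h5 ⊢
  have hH0 : 0 ≤ Hm (wtL M v) (chw wx wy) (FW K (pw (L := M) (v := v))) := Hm_nonneg _ hch _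
  set H := Hm (wtL M v) (chw wx wy) (FW K (pw (L := M) (v := v))) with hH
  have h6 := h1.trans (mul_le_mul_of_nonneg_left (h4.trans h5) hH0)
  -- the left-hand side
  have h7 : (Fintype.card (Wk M v) : ℝ) = (qs.map fun q => (v + 1 : ℝ) ^ (2 * q)).prod := by
    rw [hM]
    exact card_blocks qs
  have h8 : ∀ k, ∏ b : Fin M.length, (1 + wB wx wy (M.get b).1) ^ k
      = (qs.map fun q => lp wx wy k q).prod := by
    intro k
    rw [prod_layers (fun d => (1 + wB wx wy d.1) ^ k) M, hM]
    exact prod_blocks wx wy k qs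
  rw [Fintype.card_prod, Fintype.card_fin, h8, h7] at h2
  have h9 : 0 ≤ (qs.map fun q => (v + 1 : ℝ) ^ (2 * q)).prod
      * (qs.map fun q => lp wx wy ((v + 1) * (v + 1) - 1) q).prod := by
    apply mul_nonneg
    · apply List.prod_nonneg
      intro a ha
      obtain ⟨q, _, rfl⟩ := List.mem_map.1 ha
      positivity
    · apply List.prod_nonneg
      intro a ha
      obtain ⟨q, _, rfl⟩ := List.mem_map.1 ha
      exact (lp_pos hx hy _ q).le
  have h10 := (pow_le_pow_left₀ h9 h2 2).trans h6
  unfold Ztot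
  rw [h8]
  -- compare
  set P := (qs.map fun q => nrm (v + 1 : ℝ) ((v + 1) * (v + 1)) wx wy q).prod with hP
  have hPpos : 0 < P := by
    rw [hP]
    apply List.prod_pos
    intro a ha
    obtain ⟨q, _, rfl⟩ := List.mem_map.1 ha
    rw [nrm_eq]
    have := lp_pos hx hy ((v + 1) * (v + 1) - 2) q
    positivity
  have h11 : (qs.map fun q => nrm (v + 1 : ℝ) ((v + 1) * (v + 1)) wx wy q
        * (eij (v + 1 : ℝ) wx wy q).1).prod
      = P * (qs.map fun q => (eij (v + 1 : ℝ) wx wy q).1).prod := by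
    rw [hP, List.prod_map_mul]
  have h12 : ((qs.map fun q => (v + 1 : ℝ) ^ (2 * q)).prod
      * (qs.map fun q => lp wx wy ((v + 1) * (v + 1) - 1) q).prod) ^ 2
      = P * (qs.map fun q => lp wx wy ((v + 1) * (v + 1)) q).prod := by
    rw [hP]
    exact key_prod wx wy hN qs
  rw [h11, h12] at h10
  have h13 : P * (qs.map fun q => lp wx wy ((v + 1) * (v + 1)) q).prod
      ≤ P * (H * (qs.map fun q => (eij (v + 1 : ℝ) wx wy q).1).prod) := by
    refine h10.trans (le_of_eq ?_)
    ring
  exact le_of_mul_le_mul_left h13 hPpos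

end Vale.Agent.P346
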