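import Vale.Agent.P346.RankF

/-!
The local weights of the fourth moment.
-/

namespace Vale.Agent.P346

open Finset

variable {α : Type*} [DecidableEq α] [Fintype α]

lemma Aind_eq (e : α) (s t : Finset α) : Aind e s t = if t = insert e s ∧ e ∉ s then 1 else 0 := by
  unfold Aind
  congr 1
  rw [eq_iff_iff]
  constructor
  · rintro ⟨h1, h2⟩
    have h3 : e ∈ t \ s := by rw [← h2]; exact mem_singleton_self e
    refine ⟨?_, (mem_sdiff.1 h3).2⟩
    rw [insert_eq, h2, sdiff_union_of_subset h1]
  · rintro ⟨rfl, h⟩
    refine ⟨subset_insert _ _, ?_⟩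
    ext i
    simp only [mem_singleton, mem_sdiff, mem_insert]
    constructor
    · rintro rfl
      exact ⟨Or.inl rfl, h⟩
    · rintro ⟨h1 | h1, h2⟩
      · exact h1
      · exact absurd h1 h2

/-- The second moment of the local indicator. -/
def A2 (e e' : α) (s s' : Finset α) : ℝ := ∑ t, (Aind e s t : ℝ) * (Aind e' s' t : ℝ)

lemma A2_eq (e e' : α) (s s' : Finset α) : A2 e e' s s'
    = if e ∉ s ∧ e' ∉ s' ∧ insert e s = insert e' s' then 1 else 0 := by
  unfold A2
  simp only [Aind_eq]
  by_cases h : e ∉ s ∧ e' ∉ s' ∧ insert e s = insert e' s'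
  · rw [if_pos h, Finset.sum_eq_single (insert e s)]
    · rw [if_pos ⟨rfl, h.1⟩, if_pos ⟨h.2.2, h.2.1⟩]
      simp
    · intro t _ ht
      rw [if_neg (fun h' => ht h'.1)]
      simp
    · intro h'
      exact absurd (mem_univ _) h'
  · rw [if_neg h]
    apply Finset.sum_eq_zero
    intro t _
    by_cases h1 : t = insert e s ∧ e ∉ s
    · by_cases h2 : t = insert e' s' ∧ e' ∉ s'
      · exact absurd ⟨h1.2, h2.2, h1.1.symm.trans h2.1⟩ h
      · rw [if_neg h2]
        simp
    · rw [if_neg h1]
      simp

lemma A2_nonneg (e e' : α) (s s' : Finset α) : 0 ≤ A2 e e' s s' := by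
  rw [A2_eq]
  split_ifs <;> norm_num

/-- The local fourth moment. -/
def theta (w : ℝ) (e e' f f' : α) : ℝ :=
  ∑ s : Finset α, ∑ s' : Finset α, w ^ s.card * (A2 e e' s s' * A2 f f' s s')

/-- The local first moment. -/
lemma sum_disj (w : ℝ) (F : Finset α) :
    ∑ s : Finset α, (if Disjoint F s then w ^ s.card else 0)
      = (1 + w) ^ (Fintype.card α - F.card) := by
  have h1 := Finset.sum_pow_mul_eq_add_pow w 1 (univ \ F)
  rw [card_sdiff_of_subset (subset_univ F), card_univ] at h1
  rw [add_comm 1 w, ← h1, ← Finset.sum_filter]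
  apply Finset.sum_congr
  · ext s
    rw [mem_filter, mem_powerset]
    constructor
    · rintro ⟨_, h⟩ i hi
      rw [mem_sdiff]
      exact ⟨mem_univ _, fun h' => (Finset.disjoint_left.1 h) h' hi⟩
    · intro h
      refine ⟨mem_univ _, ?_⟩
      rw [Finset.disjoint_left]
      intro i hi hi'
      exact (mem_sdiff.1 (h hi')).2 hi
  · intro s _
    rw [one_pow, mul_one]

lemma theta1 (w : ℝ) (e : α) : ∑ s : Finset α, ∑ t : Finset α, w ^ s.card * (Aind e s t : ℝ)
    = (1 + w) ^ (Fintype.card α - 1) := by
  have h1 := sum_disj w ({e} : Finset α)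
  rw [card_singleton] at h1
  rw [← h1]
  apply Finset.sum_congr rfl
  intro s _
  rw [← Finset.mul_sum]
  simp only [Aind_eq]
  by_cases h : e ∈ s
  · rw [if_neg (by simpa using h), Finset.sum_eq_zero]
    · simp
    · intro t _
      rw [if_neg (fun h' => h'.2 h)]
      simp
  · rw [if_pos (by simpa using h), Finset.sum_eq_single (insert e s)]
    · rw [if_pos ⟨rfl, h⟩]
      simp
    · intro t _ ht
      rw [if_neg (fun h' => ht h'.1)]
      simp
    · intro h'
      exact absurd (mem_univ _) h'

lemma quad_cases {e e' f f' : α} {s s' : Finset α}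
    (h1 : e ∉ s) (h2 : e' ∉ s') (h3 : insert e s = insert e' s')
    (h4 : f ∉ s) (h5 : f' ∉ s') (h6 : insert f s = insert f' s') :
    (e = e' ∧ f = f' ∧ s' = s) ∨
    (e ≠ e' ∧ f = e ∧ f' = e' ∧ e' ∈ s ∧ s' = (insert e s).erase e') := by
  have hs' : s' = (insert e s).erase e' := by rw [h3, erase_insert h2]
  by_cases he : e = e'
  · left
    subst he
    have hss : s' = s := by rw [hs', erase_insert h1]
    subst hss
    refine ⟨rfl, ?_, rfl⟩
    have : f ∈ insert f' s' := by rw [← h6]; exact mem_insert_self _ _
    rcases mem_insert.1 this with h | h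
    · exact h
    · exact absurd h h4
  · right
    have he' : e' ∈ s := by
      have : e' ∈ insert e s := by rw [h3]; exact mem_insert_self _ _
      rcases mem_insert.1 this with h | h
      · exact absurd h.symm he
      · exact h
    have hes' : e ∈ s' := by
      have : e ∈ insert e' s' := by rw [← h3]; exact mem_insert_self _ _
      rcases mem_insert.1 this with h | h
      · exact absurd h he
      · exact h
    refine ⟨he, ?_, ?_, he', hs'⟩
    · have : e ∈ insert f s := by rw [h6]; exact mem_insert_of_mem hes'
      rcases mem_insert.1 this with h | h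
      · exact h.symm
      · exact absurd h h1
    · have : e' ∈ insert f' s' := by rw [← h6]; exact mem_insert_of_mem he'
      rcases mem_insert.1 this with h | h
      · exact h.symm
      · exact absurd h h2

/-- The bound for the local fourth moment. -/
noncomputable def thB (N : ℕ) (w : ℝ) (e e' f f' : α) : ℝ :=
  (if e = e' ∧ f = f' then (if e = f then (1 + w) ^ (N - 1) else (1 + w) ^ (N - 2)) else 0)
    + (if e ≠ e' ∧ f = e ∧ f' = e' then w * (1 + w) ^ (N - 2) else 0)

lemma theta_le {w : ℝ} (hw : 0 ≤ w) (e e' f f' : α) :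
    theta w e e' f f' ≤ thB (Fintype.card α) w e e' f f' := by
  unfold theta
  have h1 : ∀ s : Finset α, ∑ s' : Finset α, w ^ s.card * (A2 e e' s s' * A2 f f' s s')
      ≤ (if e = e' ∧ f = f' then (if Disjoint {e, f} s then w ^ s.card else 0) else 0)
        + (if e ≠ e' ∧ f = e ∧ f' = e' then
          (if Disjoint {e} s then w ^ s.card else 0)
            - (if Disjoint {e, e'} s then w ^ s.card else 0) else 0) := by
    intro s
    by_cases hP : ∃ s', e ∉ s ∧ e' ∉ s' ∧ insert e s = insert e' s' ∧ f ∉ s ∧ f' ∉ s' ∧
        insert f s = insert f' s'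
    · obtain ⟨s0, k1, k2, k3, k4, k5, k6⟩ := hP
      have hsum : ∑ s' : Finset α, w ^ s.card * (A2 e e' s s' * A2 f f' s s')
          ≤ w ^ s.card := by
        rw [Finset.sum_eq_single s0]
        · rw [A2_eq, A2_eq, if_pos ⟨k1, k2, k3⟩, if_pos ⟨k4, k5, k6⟩, mul_one, mul_one]
        · intro s' _ hne
          rw [A2_eq, A2_eq]
          by_cases h : e ∉ s ∧ e' ∉ s' ∧ insert e s = insert e' s'
          · exfalso
            apply hne
            have e1 : s' = (insert e s).erase e' := by rw [h.2.2, erase_insert h.2.1]
            have e2 : s0 = (insert e s).erase e' := by rw [k3, erase_insert k2]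
            rw [e1, e2]
          · rw [if_neg h]
            simp
        · intro h
          exact absurd (mem_univ _) h
      refine hsum.trans ?_
      rcases quad_cases k1 k2 k3 k4 k5 k6 with ⟨rfl, rfl, _⟩ | ⟨q1, rfl, rfl, q4, _⟩
      · rw [if_pos ⟨rfl, rfl⟩, if_neg (c := e ≠ e ∧ f = e ∧ f = e) (fun h => h.1 rfl), add_zero,
          if_pos]
        rw [Finset.disjoint_left]
        intro i hi
        rcases mem_insert.1 hi with rfl | hi
        · exact k1
        · rw [mem_singleton.1 hi]
          exact k4
      · rw [if_neg (fun h => q1 h.1), if_pos ⟨q1, rfl, rfl⟩, zero_add, if_pos, if_neg, sub_zero]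
        · intro h
          exact (Finset.disjoint_left.1 h) (mem_insert_of_mem (mem_singleton_self _)) q4
        · rw [Finset.disjoint_singleton_left]
          exact k1
    · have hzero : ∑ s' : Finset α, w ^ s.card * (A2 e e' s s' * A2 f f' s s') = 0 := by
        apply Finset.sum_eq_zero
        intro s' _
        rw [A2_eq, A2_eq]
        by_cases h : e ∉ s ∧ e' ∉ s' ∧ insert e s = insert e' s'
        · by_cases h' : f ∉ s ∧ f' ∉ s' ∧ insert f s = insert f' s'
          · exact absurd ⟨s', h.1, h.2.1, h.2.2, h'.1, h'.2.1, h'.2.2⟩ hP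
          · rw [if_neg h']
            simp
        · rw [if_neg h]
          simp
      rw [hzero]
      have hp : 0 ≤ w ^ s.card := pow_nonneg hw _
      have h2 : (if Disjoint {e, e'} s then w ^ s.card else 0)
          ≤ (if Disjoint {e} s then w ^ s.card else 0) := by
        by_cases h : Disjoint {e, e'} s
        · rw [if_pos h, if_pos (Disjoint.mono_left (by
            intro i hi
            rw [mem_singleton.1 hi]
            exact mem_insert_self _ _) h)]
        · rw [if_neg h]
          split_ifs
          · exact hp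
          · exact le_rfl
      split_ifs at h2 ⊢ <;> linarith
  refine (Finset.sum_le_sum fun s _ => h1 s).trans ?_
  rw [Finset.sum_add_distrib]
  unfold thB
  apply add_le_add
  · by_cases h : e = e' ∧ f = f'
    · simp only [if_pos h]
      rw [sum_disj]
      by_cases hef : e = f
      · rw [if_pos hef, hef, insert_eq_of_mem (mem_singleton_self f), card_singleton]
      · rw [if_neg hef, card_pair hef]
    · simp only [if_neg h, Finset.sum_const_zero, le_refl]
  · by_cases h : e ≠ e' ∧ f = e ∧ f' = e'
    · simp only [if_pos h]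
      rw [Finset.sum_sub_distrib, sum_disj, sum_disj, card_pair h.1, card_singleton]
      have hN : 2 ≤ Fintype.card α := by
        rw [← card_pair h.1]
        exact card_le_univ _
      obtain ⟨k, hk⟩ := Nat.exists_eq_add_of_le hN
      rw [hk, show 2 + k - 1 = k + 1 by omega, show 2 + k - 2 = k by omega, pow_succ]
      apply le_of_eq
      ring
    · simp only [if_neg h, Finset.sum_const_zero, le_refl]

end Vale.Agent.P346
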