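import Vale.Agent.P346.RankG
import Vale.Agent.P346.PathSum

/-!
The transfer matrix of the fourth moment.
-/

namespace Vale.Agent.P346

open Finset

variable {v : ℕ}

/-- The states of four walkers. -/
abbrev St (v : ℕ) : Type := Fin (v + 1) × Fin (v + 1) × Fin (v + 1) × Fin (v + 1)

/-- The admissible next vertices. -/
noncomputable def adm (cl : Bool) (u : Fin (v + 1)) : ℝ := if cl = true → u = 0 then 1 else 0

/-- The transfer matrix. -/
noncomputable def Th (w : ℝ) (cl : Bool) : Matrix (St v) (St v) ℝ :=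
  Matrix.of fun x y => adm cl y.1 * adm cl y.2.1 * adm cl y.2.2.1 * adm cl y.2.2.2 *
    thB ((v + 1) * (v + 1)) w (x.1, y.1) (x.2.1, y.2.1) (x.2.2.1, y.2.2.1) (x.2.2.2, y.2.2.2)

lemma adm_nonneg (cl : Bool) (u : Fin (v + 1)) : 0 ≤ adm cl u := by
  unfold adm
  split_ifs <;> norm_num

lemma adm_open (u : Fin (v + 1)) : adm false u = 1 := by
  unfold adm
  simp

lemma adm_closed_zero : adm true (0 : Fin (v + 1)) = 1 := by
  unfold adm
  simp

lemma adm_closed {u : Fin (v + 1)} (h : u ≠ 0) : adm true u = 0 := by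
  unfold adm
  simp [h]

lemma sum4_I (g : St v → ℝ) :
    ∑ y : St v, (if y.1 = y.2.1 ∧ y.2.2.1 = y.2.2.2 then g y else 0)
      = ∑ c, ∑ d, g (c, c, d, d) := by
  rw [Fintype.sum_prod_type]
  apply Finset.sum_congr rfl
  intro c _
  rw [Fintype.sum_prod_type, Finset.sum_eq_single c]
  · rw [Fintype.sum_prod_type]
    apply Finset.sum_congr rfl
    intro d _
    rw [Finset.sum_eq_single d]
    · simp
    · intro d' _ hd'
      rw [if_neg (fun h => hd' h.2.symm)]
    · intro h
      exact absurd (mem_univ _) h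
  · intro c' _ hc'
    apply Finset.sum_eq_zero
    intro y _
    rw [if_neg (fun h => hc' h.1.symm)]
  · intro h
    exact absurd (mem_univ _) h

lemma sum4_J (g : St v → ℝ) :
    ∑ y : St v, (if y.2.2.1 = y.1 ∧ y.2.2.2 = y.2.1 then g y else 0)
      = ∑ c, ∑ d, g (c, d, c, d) := by
  rw [Fintype.sum_prod_type]
  apply Finset.sum_congr rfl
  intro c _
  rw [Fintype.sum_prod_type]
  apply Finset.sum_congr rfl
  intro d _
  rw [Fintype.sum_prod_type, Finset.sum_eq_single c]
  · rw [Finset.sum_eq_single d]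
    · simp
    · intro d' _ hd'
      rw [if_neg (fun h => hd' h.2)]
    · intro h
      exact absurd (mem_univ _) h
  · intro c' _ hc'
    apply Finset.sum_eq_zero
    intro y _
    rw [if_neg (fun h => hc' h.1)]
  · intro h
    exact absurd (mem_univ _) h

/-- Upper bounds by classes. -/
structure Bd (h : St v → ℝ) (E I J : ℝ) : Prop where
  nn : ∀ x, 0 ≤ h x
  hE : ∀ a, h (a, a, a, a) ≤ E
  hI : ∀ a b, a ≠ b → h (a, a, b, b) ≤ I
  hJ : ∀ a b, a ≠ b → h (a, b, a, b) ≤ J

lemma Th_nonneg {w : ℝ} (hw : 0 ≤ w) (cl : Bool) (x y : St v) : 0 ≤ Th w cl x y := by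
  unfold Th
  rw [Matrix.of_apply]
  apply mul_nonneg
  · have h1 := adm_nonneg cl y.1
    have h2 := adm_nonneg cl y.2.1
    have h3 := adm_nonneg cl y.2.2.1
    have h4 := adm_nonneg cl y.2.2.2
    positivity
  · unfold thB
    split_ifs <;> positivity

lemma Th_E {w : ℝ} (a : Fin (v + 1)) (y : St v) : Th w false (a, a, a, a) y
    = (if y.1 = y.2.1 ∧ y.2.2.1 = y.2.2.2 then
        (if y.1 = y.2.2.1 then (1 + w) ^ ((v + 1) * (v + 1) - 1)
          else (1 + w) ^ ((v + 1) * (v + 1) - 2)) else 0)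
      + (if y.2.2.1 = y.1 ∧ y.2.2.2 = y.2.1 then
        (if y.1 ≠ y.2.1 then w * (1 + w) ^ ((v + 1) * (v + 1) - 2) else 0) else 0) := by
  unfold Th
  rw [Matrix.of_apply, adm_open, adm_open, adm_open, adm_open]
  unfold thB
  simp only [Prod.mk.injEq, true_and, ne_eq, mul_one, one_mul]
  congr 1
  by_cases h1 : y.1 = y.2.1 <;> by_cases h2 : y.2.2.1 = y.1 <;> by_cases h3 : y.2.2.2 = y.2.1 <;>
    simp [h1, h2, h3]

lemma Th_I {w : ℝ} {a b : Fin (v + 1)} (hab : a ≠ b) (y : St v) : Th w false (a, a, b, b) y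
    = if y.1 = y.2.1 ∧ y.2.2.1 = y.2.2.2 then (1 + w) ^ ((v + 1) * (v + 1) - 2) else 0 := by
  unfold Th
  rw [Matrix.of_apply, adm_open, adm_open, adm_open, adm_open]
  unfold thB
  have hba : b ≠ a := fun h => hab h.symm
  simp [hab, hba]

lemma Th_J {w : ℝ} {a b : Fin (v + 1)} (hab : a ≠ b) (y : St v) : Th w false (a, b, a, b) y
    = if y.2.2.1 = y.1 ∧ y.2.2.2 = y.2.1 then w * (1 + w) ^ ((v + 1) * (v + 1) - 2) else 0 := by
  unfold Th
  rw [Matrix.of_apply, adm_open, adm_open, adm_open, adm_open]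
  unfold thB
  simp [hab]

lemma step_open {w : ℝ} (hw : 0 ≤ w) {h : St v → ℝ} {E I J : ℝ} (hB : Bd h E I J)
    (hE0 : 0 ≤ E) (hI0 : 0 ≤ I) (hJ0 : 0 ≤ J) :
    Bd (fun x => ∑ y, Th w false x y * h y)
      ((v + 1 : ℝ) * (1 + w) ^ ((v + 1) * (v + 1) - 1) * E
        + (v + 1 : ℝ) ^ 2 * (1 + w) ^ ((v + 1) * (v + 1) - 2) * (I + w * J))
      ((1 + w) ^ ((v + 1) * (v + 1) - 2) * ((v + 1 : ℝ) * E + (v + 1 : ℝ) ^ 2 * I))
      (w * (1 + w) ^ ((v + 1) * (v + 1) - 2) * ((v + 1 : ℝ) * E + (v + 1 : ℝ) ^ 2 * J)) := by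
  set P1 := (1 + w) ^ ((v + 1) * (v + 1) - 1) with hP1
  set P2 := (1 + w) ^ ((v + 1) * (v + 1) - 2) with hP2
  have hP1' : 0 ≤ P1 := by positivity
  have hP2' : 0 ≤ P2 := by positivity
  have hsum : ∀ (X Y : ℝ), 0 ≤ Y → ∑ c : Fin (v + 1), ∑ d : Fin (v + 1), (if c = d then X else Y)
      ≤ (v + 1 : ℝ) * X + (v + 1 : ℝ) ^ 2 * Y := by
    intro X Y hY
    have h1 : ∀ c : Fin (v + 1), ∑ d : Fin (v + 1), (if c = d then X else Y)
        ≤ X + (v + 1 : ℝ) * Y := by
      intro c
      have h2 : ∀ d ∈ (univ : Finset (Fin (v + 1))), (if c = d then X else Y)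
          ≤ (if c = d then X else 0) + Y := by
        intro d _
        split_ifs <;> linarith
      refine (Finset.sum_le_sum h2).trans ?_
      rw [Finset.sum_add_distrib, Finset.sum_ite_eq univ c, if_pos (mem_univ _),
        Finset.sum_const, card_univ, Fintype.card_fin, nsmul_eq_mul]
      push_cast
      linarith
    refine (Finset.sum_le_sum fun c _ => h1 c).trans (le_of_eq ?_)
    rw [Finset.sum_const, card_univ, Fintype.card_fin, nsmul_eq_mul]
    push_cast
    ring
  refine ⟨fun x => Finset.sum_nonneg fun y _ => mul_nonneg (Th_nonneg hw _ _ _) (hB.nn y), ?_, ?_, ?_⟩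
  · intro a
    show ∑ y, Th w false (a, a, a, a) y * h y ≤ _
    have hth : ∀ y : St v, Th w false (a, a, a, a) y * h y
        = (if y.1 = y.2.1 ∧ y.2.2.1 = y.2.2.2 then
            (if y.1 = y.2.2.1 then P1 * h y else P2 * h y) else 0)
          + (if y.2.2.1 = y.1 ∧ y.2.2.2 = y.2.1 then
            (if y.1 ≠ y.2.1 then w * P2 * h y else 0) else 0) := by
      intro y
      rw [Th_E, ← hP1, ← hP2, add_mul]
      simp only [ite_mul, zero_mul]
    rw [Finset.sum_congr rfl fun y _ => hth y, Finset.sum_add_distrib, sum4_I (fun y => if y.1 = y.2.2.1 then P1 * h y else P2 * h y),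
      sum4_J (fun y => if y.1 ≠ y.2.1 then w * P2 * h y else 0)]
    have h1 : ∑ c : Fin (v + 1), ∑ d : Fin (v + 1),
        (if c = d then P1 * h (c, c, d, d) else P2 * h (c, c, d, d))
        ≤ (v + 1 : ℝ) * (P1 * E) + (v + 1 : ℝ) ^ 2 * (P2 * I) := by
      refine le_trans ?_ (hsum (P1 * E) (P2 * I) (by positivity))
      apply Finset.sum_le_sum
      intro c _
      apply Finset.sum_le_sum
      intro d _
      by_cases hcd : c = d
      · subst hcd
        rw [if_pos rfl, if_pos rfl]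
        exact mul_le_mul_of_nonneg_left (hB.hE c) hP1'
      · rw [if_neg hcd, if_neg hcd]
        exact mul_le_mul_of_nonneg_left (hB.hI c d hcd) hP2'
    have h2 : ∑ c : Fin (v + 1), ∑ d : Fin (v + 1),
        (if c ≠ d then w * P2 * h (c, d, c, d) else 0)
        ≤ (v + 1 : ℝ) * 0 + (v + 1 : ℝ) ^ 2 * (w * P2 * J) := by
      refine le_trans ?_ (hsum 0 (w * P2 * J) (by positivity))
      apply Finset.sum_le_sum
      intro c _
      apply Finset.sum_le_sum
      intro d _
      by_cases hcd : c = d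
      · subst hcd
        rw [if_neg (by simp), if_pos rfl]
      · rw [if_pos hcd, if_neg hcd]
        exact mul_le_mul_of_nonneg_left (hB.hJ c d hcd) (by positivity)
    refine (add_le_add h1 h2).trans (le_of_eq ?_)
    ring
  · intro a b hab
    show ∑ y, Th w false (a, a, b, b) y * h y ≤ _
    simp only [Th_I hab, ite_mul, zero_mul]
    rw [sum4_I (fun y => P2 * h y)]
    refine le_trans ?_ ((hsum (P2 * E) (P2 * I) (by positivity)).trans (le_of_eq (by ring)))
    apply Finset.sum_le_sum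
    intro c _
    apply Finset.sum_le_sum
    intro d _
    by_cases hcd : c = d
    · subst hcd
      rw [if_pos rfl]
      exact mul_le_mul_of_nonneg_left (hB.hE c) hP2'
    · rw [if_neg hcd]
      exact mul_le_mul_of_nonneg_left (hB.hI c d hcd) hP2'
  · intro a b hab
    show ∑ y, Th w false (a, b, a, b) y * h y ≤ _
    simp only [Th_J hab, ite_mul, zero_mul]
    rw [sum4_J (fun y => w * P2 * h y)]
    refine le_trans ?_ ((hsum (w * P2 * E) (w * P2 * J) (by positivity)).trans
      (le_of_eq (by ring)))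
    apply Finset.sum_le_sum
    intro c _
    apply Finset.sum_le_sum
    intro d _
    by_cases hcd : c = d
    · subst hcd
      rw [if_pos rfl]
      exact mul_le_mul_of_nonneg_left (hB.hE c) (by positivity)
    · rw [if_neg hcd]
      exact mul_le_mul_of_nonneg_left (hB.hJ c d hcd) (by positivity)

lemma Th_closed_eq_zero {w : ℝ} (x y : St v) (hy : y ≠ (0, 0, 0, 0)) : Th w true x y = 0 := by
  unfold Th
  rw [Matrix.of_apply]
  by_cases h1 : y.1 = 0
  · by_cases h2 : y.2.1 = 0
    · by_cases h3 : y.2.2.1 = 0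
      · by_cases h4 : y.2.2.2 = 0
        · exact absurd (Prod.ext h1 (Prod.ext h2 (Prod.ext h3 h4))) hy
        · rw [adm_closed h4]
          ring
      · rw [adm_closed h3]
        ring
    · rw [adm_closed h2]
      ring
  · rw [adm_closed h1]
    ring

lemma step_closed {w : ℝ} (hw : 0 ≤ w) {h : St v → ℝ} (hnn : ∀ x, 0 ≤ h x) :
    Bd (fun x => ∑ y, Th w true x y * h y)
      ((1 + w) ^ ((v + 1) * (v + 1) - 1) * h (0, 0, 0, 0))
      ((1 + w) ^ ((v + 1) * (v + 1) - 2) * h (0, 0, 0, 0))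
      (w * (1 + w) ^ ((v + 1) * (v + 1) - 2) * h (0, 0, 0, 0)) := by
  have h1 : ∀ x : St v, ∑ y, Th w true x y * h y
      = Th w true x (0, 0, 0, 0) * h (0, 0, 0, 0) := by
    intro x
    rw [Finset.sum_eq_single (0, 0, 0, 0)]
    · intro y _ hy
      rw [Th_closed_eq_zero x y hy, zero_mul]
    · intro h'
      exact absurd (mem_univ _) h'
  refine ⟨fun x => Finset.sum_nonneg fun y _ => mul_nonneg (Th_nonneg hw _ _ _) (hnn y), ?_, ?_, ?_⟩
  · intro a
    show ∑ y, Th w true (a, a, a, a) y * h y ≤ _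
    rw [h1]
    apply le_of_eq
    congr 1
    unfold Th thB
    rw [Matrix.of_apply]
    simp [adm_closed_zero]
  · intro a b hab
    show ∑ y, Th w true (a, a, b, b) y * h y ≤ _
    rw [h1]
    apply le_of_eq
    congr 1
    unfold Th thB
    rw [Matrix.of_apply]
    have hba : b ≠ a := fun h => hab h.symm
    simp [adm_closed_zero, hab, hba]
  · intro a b hab
    show ∑ y, Th w true (a, b, a, b) y * h y ≤ _
    rw [h1]
    apply le_of_eq
    congr 1
    unfold Th thB
    rw [Matrix.of_apply]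
    simp [adm_closed_zero, hab]

end Vale.Agent.P346
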