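import Vale.Agent.P346.Comp

/-!
Upper bounds for a bigraded measure of products of homogeneous polynomials.
-/

namespace Vale.Agent.P346

open Finset MvPolynomial

variable {ι : Type*} {K : Type*} [Field K]

/-- The properties of the measure used for the upper bounds. -/
structure IsMeas (H : MvPolynomial ι K → ℝ) (wt : ι → ℕ × ℕ) (x x' Z : ℝ) : Prop where
  nonneg : ∀ P, 0 ≤ H P
  zero : H 0 = 0
  mul_le : ∀ P Q, H (P * Q) ≤ H Q
  hom_le : ∀ P i j, IsWeightedHomogeneous wt P (i, j) →
    H P ≤ x ^ (2 * i) / x' ^ (2 * j) * Z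

/-- Subadditivity of the measure. -/
def SubAdd (H : MvPolynomial ι K → ℝ) : Prop :=
  ∀ (n : ℕ) (c : Fin n → K) (f : Fin n → MvPolynomial ι K), H (∑ i, c i • f i) ≤ ∑ i, H (f i)

lemma SubAdd.sum_le {H : MvPolynomial ι K → ℝ} (hH : SubAdd H) {γ : Type*} (s : Finset γ)
    (c : γ → K) (f : γ → MvPolynomial ι K) : H (∑ i ∈ s, c i • f i) ≤ ∑ i ∈ s, H (f i) := by
  classical
  have h := hH s.card (fun i => c (s.equivFin.symm i)) (fun i => f (s.equivFin.symm i))
  rw [Equiv.sum_comp s.equivFin.symm (fun i : s => c i • f i),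
    Equiv.sum_comp s.equivFin.symm (fun i : s => H (f i)),
    Finset.sum_coe_sort s (fun i => c i • f i), Finset.sum_coe_sort s (fun i => H (f i))] at h
  exact h

lemma SubAdd.sum_le' {H : MvPolynomial ι K → ℝ} (hH : SubAdd H) {γ : Type*} (s : Finset γ)
    (f : γ → MvPolynomial ι K) : H (∑ i ∈ s, f i) ≤ ∑ i ∈ s, H (f i) := by
  have h := hH.sum_le s (fun _ => (1 : K)) f
  simpa using h

/-- The factor of a polynomial of degree `d`. -/
noncomputable def Gd (x x' : ℝ) (d : ℕ) : ℝ :=
  ∑ i ∈ range (d + 1), min (1 / x' ^ (2 * (d - i))) (1 / x ^ (2 * i))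

lemma Gd_nonneg {x x' : ℝ} (hx : 0 < x) (hx' : 0 < x') (d : ℕ) : 0 ≤ Gd x x' d :=
  Finset.sum_nonneg fun i _ => le_min (by positivity) (by positivity)

lemma sum_antidiagonal_le {φ : ℕ → ℝ} (hφ : ∀ i, 0 ≤ φ i) (N d : ℕ) (h : ∀ i, d < i → φ i = 0) :
    ∑ z ∈ antidiagonal N, φ z.1 ≤ ∑ i ∈ range (d + 1), φ i := by
  rw [Finset.Nat.sum_antidiagonal_eq_sum_range_succ_mk]
  rcases Nat.le_total N d with hN | hN
  · apply Finset.sum_le_sum_of_subset_of_nonneg
    · apply Finset.range_subset_range.2
      omega
    · intro i _ _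
      exact hφ i
  · rw [← Finset.sum_subset (Finset.range_subset_range.2 (by omega : d + 1 ≤ N.succ))]
    intro i _ hi
    apply h
    rw [Finset.mem_range] at hi
    omega

variable {H : MvPolynomial ι K → ℝ} {wt : ι → ℕ × ℕ} {x x' Z : ℝ}

theorem typeB (hM : IsMeas H wt x x' Z) (hS : SubAdd H)
    (hwt : ∀ i, wt i = (1, 0) ∨ wt i = (0, 1)) (hx : 0 < x) (hx' : 0 < x') (hZ : 0 ≤ Z)
    {γ : Type*} (f : γ → MvPolynomial ι K) (d : γ → ℕ) (s : Multiset γ)
    (hf : ∀ a ∈ s, (f a).IsHomogeneous (d a)) :
    ∀ (N : ℕ) (R B : MvPolynomial ι K) (e1 e2 : ℕ), IsWeightedHomogeneous wt B (e1, e2) →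
      H (comp wt N (s.map f).prod * R * B)
        ≤ x ^ (2 * e1) / x' ^ (2 * e2) * x ^ (2 * N) * (s.map fun a => Gd x x' (d a)).prod * Z := by
  induction s using Multiset.induction_on with
  | empty =>
    intro N R B e1 e2 hB
    rw [Multiset.map_zero, Multiset.prod_zero, Multiset.map_zero, Multiset.prod_zero, comp_one]
    by_cases hN : N = 0
    · subst hN
      rw [if_pos rfl, one_mul]
      refine (hM.mul_le R B).trans ((hM.hom_le B e1 e2 hB).trans (le_of_eq ?_))
      ring
    · rw [if_neg hN, zero_mul, zero_mul, hM.zero]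
      positivity
  | cons a s ih =>
    intro N R B e1 e2 hB
    have ih' := ih fun b hb => hf b (Multiset.mem_cons_of_mem hb)
    have hfa := hf a (Multiset.mem_cons_self a s)
    rw [Multiset.map_cons, Multiset.prod_cons, comp_mul, Multiset.map_cons, Multiset.prod_cons,
      Finset.sum_mul, Finset.sum_mul]
    refine (hS.sum_le' _ _).trans ?_
    set G := (s.map fun a => Gd x x' (d a)).prod with hG
    have hG0 : 0 ≤ G := Multiset.prod_nonneg (by
      intro y hy
      obtain ⟨b, _, rfl⟩ := Multiset.mem_map.1 hy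
      exact Gd_nonneg hx hx' _)
    set A := x ^ (2 * e1) / x' ^ (2 * e2) * x ^ (2 * N) * G * Z with hA
    have hA0 : 0 ≤ A := by positivity
    have h1 : ∀ z ∈ antidiagonal N, H (comp wt z.1 (f a) * comp wt z.2 (s.map f).prod * R * B)
        ≤ if z.1 ≤ d a then min (1 / x' ^ (2 * (d a - z.1))) (1 / x ^ (2 * z.1)) * A else 0 := by
      intro z hz
      have hz' : z.1 + z.2 = N := by
        rw [HasAntidiagonal.mem_antidiagonal] at hz
        exact hz
      by_cases hd : z.1 ≤ d a
      · rw [if_pos hd]
        have hc := comp_bihom wt hwt hfa hd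
        have h2 : H (comp wt z.1 (f a) * comp wt z.2 (s.map f).prod * R * B)
            ≤ 1 / x' ^ (2 * (d a - z.1)) * A := by
          have h3 := ih' z.2 R (comp wt z.1 (f a) * B) (z.1 + e1) (d a - z.1 + e2) (hc.mul hB)
          have h4 : comp wt z.1 (f a) * comp wt z.2 (s.map f).prod * R * B
              = comp wt z.2 (s.map f).prod * R * (comp wt z.1 (f a) * B) := by ring
          rw [h4]
          refine h3.trans (le_of_eq ?_)
          rw [hA, ← hz', mul_add 2 z.1 e1, mul_add 2 _ e2, mul_add 2 z.1 z.2, pow_add, pow_add,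
            pow_add]
          field_simp
        have h5 : H (comp wt z.1 (f a) * comp wt z.2 (s.map f).prod * R * B)
            ≤ 1 / x ^ (2 * z.1) * A := by
          have h3 := ih' z.2 (comp wt z.1 (f a) * R) B e1 e2 hB
          have h4 : comp wt z.1 (f a) * comp wt z.2 (s.map f).prod * R * B
              = comp wt z.2 (s.map f).prod * (comp wt z.1 (f a) * R) * B := by ring
          rw [h4]
          refine h3.trans (le_of_eq ?_)
          rw [hA, ← hz', mul_add 2 z.1 z.2, pow_add]
          field_simp
        rcases min_choice (1 / x' ^ (2 * (d a - z.1))) (1 / x ^ (2 * z.1)) with h6 | h6 <;>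
          rw [h6]
        · exact h2
        · exact h5
      · rw [if_neg hd, comp_eq_zero wt hwt hfa (by omega), zero_mul, zero_mul, zero_mul, hM.zero]
    refine (Finset.sum_le_sum h1).trans ?_
    have h7 := sum_antidiagonal_le (φ := fun i => if i ≤ d a then
      min (1 / x' ^ (2 * (d a - i))) (1 / x ^ (2 * i)) * A else 0) (by
        intro i
        show 0 ≤ if i ≤ d a then min (1 / x' ^ (2 * (d a - i))) (1 / x ^ (2 * i)) * A else 0
        split_ifs
        · exact mul_nonneg (le_min (by positivity) (by positivity)) hA0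
        · exact le_rfl) N (d a) (by
        intro i hi
        exact if_neg (by omega))
    refine h7.trans (le_of_eq ?_)
    have h8 : ∑ i ∈ range (d a + 1), (if i ≤ d a then
      min (1 / x' ^ (2 * (d a - i))) (1 / x ^ (2 * i)) * A else 0) = Gd x x' (d a) * A := by
      unfold Gd
      rw [Finset.sum_mul]
      apply Finset.sum_congr rfl
      intro i hi
      rw [Finset.mem_range] at hi
      rw [if_pos (by omega)]
    rw [h8, hA]
    ring

theorem typeA (hM : IsMeas H wt x x' Z) (hS : SubAdd H)
    (hwt : ∀ i, wt i = (1, 0) ∨ wt i = (0, 1)) (hx : 0 < x) {κ : ℝ} (hκ : 1 ≤ κ)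
    (hx' : x' = κ * x) (hZ : 0 ≤ Z)
    {γ : Type*} (f : γ → MvPolynomial ι K) (d : γ → ℕ) (s : Multiset γ)
    (hf : ∀ a ∈ s, (f a).IsHomogeneous (d a)) (hd : ∀ a ∈ s, d a ≤ 1) :
    ∀ (N m b : ℕ) (R U V : MvPolynomial ι K), R.IsHomogeneous m →
      IsWeightedHomogeneous wt V (0, b) →
      H (comp wt N ((s.map f).prod * R) * U * V)
        ≤ 2 ^ (s.map d).sum * κ ^ (s.map d).sum * (x * x') ^ N
          / x' ^ (m + 2 * b + 2 * (s.map d).sum) * Z := by
  have hκ0 : 0 < κ := by linarith
  have hx'0 : 0 < x' := by rw [hx']; positivity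
  induction s using Multiset.induction_on with
  | empty =>
    intro N m b R U V hR hV
    rw [Multiset.map_zero, Multiset.prod_zero, Multiset.map_zero, Multiset.sum_zero, one_mul,
      pow_zero, pow_zero, mul_zero, add_zero, one_mul, one_mul]
    by_cases hN : N ≤ m
    · have hc := comp_bihom wt hwt hR hN
      have h1 : H (comp wt N R * U * V) ≤ 1 / x' ^ (2 * b) * Z := by
        refine (hM.mul_le _ V).trans ((hM.hom_le V 0 b hV).trans (le_of_eq ?_))
        rw [mul_zero, pow_zero]
      have h2 : H (comp wt N R * U * V)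
          ≤ (1 / x' ^ (2 * b) * Z) * ((x * x') ^ N / x' ^ m) ^ 2 := by
        have h3 : comp wt N R * U * V = U * (comp wt N R * V) := by ring
        rw [h3]
        refine (hM.mul_le U _).trans ((hM.hom_le _ _ _ (hc.mul hV)).trans (le_of_eq ?_))
        obtain ⟨k, rfl⟩ := Nat.exists_eq_add_of_le hN
        rw [Nat.add_sub_cancel_left, add_zero, mul_add, pow_add, mul_pow, pow_add]
        field_simp
        ring
      have h4 : 0 ≤ 1 / x' ^ (2 * b) * Z := by positivity
      have h5 : 0 < (x * x') ^ N / x' ^ m := by positivity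
      have h6 : (x * x') ^ N / x' ^ (m + 2 * b) * Z
          = (1 / x' ^ (2 * b) * Z) * ((x * x') ^ N / x' ^ m) := by
        rw [pow_add]
        field_simp
      rw [h6]
      rcases le_total ((x * x') ^ N / x' ^ m) 1 with h7 | h7
      · refine h2.trans (mul_le_mul_of_nonneg_left ?_ h4)
        nlinarith
      · exact h1.trans (le_mul_of_one_le_right h4 h7)
    · rw [comp_eq_zero wt hwt hR (by omega), zero_mul, zero_mul, hM.zero]
      positivity
  | cons a s ih =>
    intro N m b R U V hR hV
    have ih' := ih (fun c hc => hf c (Multiset.mem_cons_of_mem hc))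
      (fun c hc => hd c (Multiset.mem_cons_of_mem hc))
    have hfa := hf a (Multiset.mem_cons_self a s)
    have hda := hd a (Multiset.mem_cons_self a s)
    rw [Multiset.map_cons, Multiset.prod_cons, mul_assoc (f a), comp_mul, Multiset.map_cons,
      Multiset.sum_cons, Finset.sum_mul, Finset.sum_mul]
    set δ := (s.map d).sum with hδ
    refine (hS.sum_le' _ _).trans ?_
    have hterm : ∀ z ∈ antidiagonal N, H (comp wt z.1 (f a)
        * comp wt z.2 ((s.map f).prod * R) * U * V)
        ≤ if z.1 ≤ d a then 2 ^ δ * κ ^ (d a + δ) * (x * x') ^ N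
          / x' ^ (m + 2 * b + 2 * (d a + δ)) * Z else 0 := by
      intro z hz
      have hz' : z.1 + z.2 = N := by
        rw [HasAntidiagonal.mem_antidiagonal] at hz
        exact hz
      by_cases hz1 : z.1 ≤ d a
      · rw [if_pos hz1]
        have hc := comp_bihom wt hwt hfa hz1
        rcases Nat.le_one_iff_eq_zero_or_eq_one.1 hda with h0 | h0
        · -- constant
          rw [h0] at hz1 hc ⊢
          have hz0 : z.1 = 0 := by omega
          have hz2 : z.2 = N := by omega
          have h4 : comp wt z.1 (f a) * comp wt z.2 ((s.map f).prod * R) * U * V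
              = comp wt z.2 ((s.map f).prod * R) * (comp wt z.1 (f a) * U) * V := by ring
          rw [h4, hz2]
          refine (ih' N m b R _ V hR hV).trans (le_of_eq ?_)
          rw [zero_add]
        · rw [h0] at hz1 hc ⊢
          rcases Nat.le_one_iff_eq_zero_or_eq_one.1 hz1 with h1 | h1
          · have hz2 : z.2 = N := by omega
            have h4 : comp wt z.1 (f a) * comp wt z.2 ((s.map f).prod * R) * U * V
              = comp wt z.2 ((s.map f).prod * R) * U * (comp wt z.1 (f a) * V) := by ring
            rw [h1] at hc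
            rw [h4, hz2]
            have hcV : IsWeightedHomogeneous wt (comp wt z.1 (f a) * V) (0, 1 + b) := by
              rw [h1]
              exact hc.mul hV
            refine (ih' N m (1 + b) R U _ hR hcV).trans ?_
            have e1 : m + 2 * (1 + b) + 2 * δ = m + 2 * b + 2 * (1 + δ) := by ring
            rw [e1, pow_add κ 1 δ, pow_one]
            apply mul_le_mul_of_nonneg_right _ hZ
            apply div_le_div_of_nonneg_right _ (by positivity)
            apply mul_le_mul_of_nonneg_right _ (by positivity)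
            apply mul_le_mul_of_nonneg_left _ (by positivity)
            exact le_mul_of_one_le_left (by positivity) hκ
          · have hz2 : N = z.2 + 1 := by omega
            have h4 : comp wt z.1 (f a) * comp wt z.2 ((s.map f).prod * R) * U * V
              = comp wt z.2 ((s.map f).prod * R) * (comp wt z.1 (f a) * U) * V := by ring
            rw [h4, hz2]
            refine (ih' z.2 m b R _ V hR hV).trans (le_of_eq ?_)
            have e1 : m + 2 * b + 2 * (1 + δ) = (m + 2 * b + 2 * δ) + 2 := by ring
            rw [e1, pow_succ (x * x') z.2, pow_add x' (m + 2 * b + 2 * δ) 2, pow_add κ 1 δ, pow_one]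
            have e2 : κ * (x * x') = x' ^ 2 := by
              rw [← mul_assoc, ← hx', sq]
            have e3 : 2 ^ δ * (κ * κ ^ δ) * ((x * x') ^ z.2 * (x * x'))
                = 2 ^ δ * κ ^ δ * (x * x') ^ z.2 * x' ^ 2 := by
              rw [← e2]
              ring
            rw [e3, mul_div_mul_right _ _ (by positivity)]
      · rw [if_neg hz1, comp_eq_zero wt hwt hfa (by omega), zero_mul, zero_mul, zero_mul, hM.zero]
    refine (Finset.sum_le_sum hterm).trans ?_
    set T := 2 ^ δ * κ ^ (d a + δ) * (x * x') ^ N / x' ^ (m + 2 * b + 2 * (d a + δ)) * Z with hT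
    have hT0 : 0 ≤ T := by positivity
    refine (sum_antidiagonal_le (φ := fun i => if i ≤ d a then T else 0) (by
        intro i
        show 0 ≤ if i ≤ d a then T else 0
        split_ifs
        · exact hT0
        · exact le_rfl) N (d a) (by
        intro i hi
        exact if_neg (by omega))).trans ?_
    have h8 : ∑ i ∈ range (d a + 1), (if i ≤ d a then T else 0) = (d a + 1 : ℕ) * T := by
      rw [Finset.sum_congr rfl fun i hi => if_pos (by rw [Finset.mem_range] at hi; omega),
        Finset.sum_const, card_range, nsmul_eq_mul]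
    rw [h8]
    have h9 : ((d a + 1 : ℕ) : ℝ) ≤ 2 ^ (d a) := by
      exact_mod_cast Nat.lt_two_pow_self (n := d a)
    refine (mul_le_mul_of_nonneg_right h9 hT0).trans (le_of_eq ?_)
    rw [hT, pow_add 2 (d a) δ]
    ring

end Vale.Agent.P346
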