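import Vale.Agent.P346.UPhi

/-!
The lower bound for a block of layers.
-/

namespace Vale.Agent.P346

open Finset MvPolynomial

/-- Pairs of layers. -/
def prsU : ℕ → List (Bool × Bool)
  | 0 => []
  | k + 1 => (true, false) :: (false, false) :: prsU k

/-- A block of layers. -/
def blkU (k : ℕ) : List (Bool × Bool) :=
  List.replicate 5 (false, false) ++ (prsU k ++ (List.replicate 5 (true, false) ++ [(true, true)]))

variable {K : Type*} [Field K] {v : ℕ}

lemma eps_le {w : ℝ} (hw : 0 < w) (n : ℕ) (hn : 0 < n) : (w / (1 + w)) ^ n ≤ w / n := by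
  have h1 : 1 + (n : ℝ) * (1 / w) ≤ (1 + 1 / w) ^ n := by
    have h2 : 0 < 1 / w := by positivity
    exact one_add_mul_le_pow (by linarith) n
  have h3 : (w / (1 + w)) = (1 + 1 / w)⁻¹ := by
    field_simp
    ring
  have hn' : (0 : ℝ) < n := by exact_mod_cast hn
  rw [h3, inv_pow]
  have h4 : w / n = ((n : ℝ) * (1 / w))⁻¹ := by
    field_simp
  rw [h4]
  apply inv_anti₀ (by positivity)
  linarith

section block

variable {op : Sl v → Fin (v + 1) → K} {D g : ℝ}

/-- One layer. -/
lemma good_step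
    (hop : ∀ X : Finset (Sl v), X.card ≤ v + 1 → LinearIndependent K (fun x : X => op x.1))
    (hD : 8 ≤ D) (hn : (v + 1 : ℝ) = D ^ 7) (hg1 : 1 ≤ g) (hg2 : g ≤ 2) (d : Bool)
    {L : List (Bool × Bool)} {c A B : ℝ} (hG : GoodV op (1 / D) (g * D) L c A B) (hc : 0 ≤ c)
    (hA0 : 0 ≤ A) (hA1 : A ≤ 1 / 8) (hB : 1 / (128 * D ^ 6) ≤ B) :
    GoodV op (1 / D) (g * D) ((d, false) :: L) c
      (A - 2 / D ^ 6 - (1 + 2 * wB (1 / D) (g * D) d) * B) (wB (1 / D) (g * D) d * B) := by
  have hD0 : 0 < D := by linarith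
  have hg0 : 0 < g := by linarith
  have hx : 0 < 1 / D := by positivity
  have hy : 0 < g * D := by positivity
  have hw := wB_pos hx hy d
  have hB0 : 0 ≤ B := le_trans (by positivity) hB
  have hwle : wB (1 / D) (g * D) d ≤ 2 * D := by
    unfold wB
    split_ifs
    · rw [div_le_iff₀ hD0]
      nlinarith
    · nlinarith
  have hε : (wB (1 / D) (g * D) d / (1 + wB (1 / D) (g * D) d)) ^ (v + 1) ≤ 2 / D ^ 6 := by
    refine (eps_le hw (v + 1) (Nat.succ_pos v)).trans ?_
    push_cast
    rw [hn, div_le_div_iff₀ (by positivity) (by positivity)]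
    have h1 : wB (1 / D) (g * D) d * D ^ 6 ≤ 2 * D * D ^ 6 :=
      mul_le_mul_of_nonneg_right hwle (by positivity)
    have h2 : 2 * D * D ^ 6 = 2 * D ^ 7 := by ring
    linarith
  have hAB : A ≤ 2 * (v + 1) * B := by
    have h1 : 2 * (v + 1 : ℝ) * (1 / (128 * D ^ 6)) ≤ 2 * (v + 1) * B :=
      mul_le_mul_of_nonneg_left hB (by positivity)
    have h2 : 2 * (v + 1 : ℝ) * (1 / (128 * D ^ 6)) = D / 64 := by
      rw [hn]
      field_simp
      norm_num
    linarith
  refine (good_open hop hx hy d hc hA0 hB0 hAB hε hG).mono hc ?_ le_rfl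
  have h1 : 0 ≤ 2 / D ^ 6 := by positivity
  have h2 : 2 / D ^ 6 * A ≤ 2 / D ^ 6 * 1 := mul_le_mul_of_nonneg_left (by linarith) h1
  linarith

lemma good_xs
    (hop : ∀ X : Finset (Sl v), X.card ≤ v + 1 → LinearIndependent K (fun x : X => op x.1))
    (hD : 1000 ≤ D) (hn : (v + 1 : ℝ) = D ^ 7) (hg1 : 1 ≤ g) (hg2 : g ≤ 2)
    {L : List (Bool × Bool)} {c : ℝ} (hc : 0 ≤ c)
    (hG : GoodV op (1 / D) (g * D) L c (1 / 8) (1 / (128 * D))) :
    ∀ i ≤ 5, GoodV op (1 / D) (g * D) (List.replicate i (true, false) ++ L) c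
      (1 / 8 - i * (1 / D)) (1 / (128 * D ^ (i + 1))) := by
  have hD0 : 0 < D := by linarith
  intro i
  induction i with
  | zero =>
    intro _
    refine GoodV.mono hG hc ?_ ?_
    · simp
    · simp
  | succ i ih =>
    intro hi
    have h1 := ih (by omega)
    have hDi : 1 / (128 * D ^ 6) ≤ 1 / (128 * D ^ (i + 1)) := by
      apply one_div_le_one_div_of_le (by positivity)
      apply mul_le_mul_of_nonneg_left _ (by norm_num)
      exact pow_le_pow_right₀ (by linarith) (by omega)
    have hi4 : (i : ℝ) ≤ 4 := by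
      have : i ≤ 4 := by omega
      exact_mod_cast this
    have hi0 : (0 : ℝ) ≤ i := Nat.cast_nonneg _
    have hDinv : 1 / D ≤ 1 / 1000 := one_div_le_one_div_of_le (by norm_num) hD
    have hDpos : 0 < 1 / D := by positivity
    have h2 := good_step hop (by linarith) hn hg1 hg2 true h1 hc (by nlinarith) (by nlinarith) hDi
    refine GoodV.mono h2 hc ?_ (le_of_eq ?_)
    · have e1 : wB (1 / D) (g * D) true = 1 / D := by
        unfold wB
        simp
      rw [e1]
      have h3 : 1 / (128 * D ^ (i + 1)) ≤ 1 / (128 * D) := by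
        apply one_div_le_one_div_of_le (by positivity)
        apply mul_le_mul_of_nonneg_left _ (by norm_num)
        exact le_self_pow₀ (by linarith) (by omega)
      have h4 : 2 / D ^ 6 ≤ 1 / D * (1 / 2) := by
        have e2 : 1 / D * (1 / 2) = 1 / (2 * D) := by
          field_simp
        rw [e2, div_le_div_iff₀ (by positivity) (by positivity)]
        have h5 : D ^ 2 ≤ D ^ 6 := pow_le_pow_right₀ (by linarith) (by norm_num)
        nlinarith
      have h6 : 1 / (128 * D) = 1 / D * (1 / 128) := by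
        field_simp
      have h7 : (1 + 2 * (1 / D)) * (1 / (128 * D ^ (i + 1))) ≤ 2 * (1 / D * (1 / 128)) := by
        rw [← h6]
        apply mul_le_mul (by linarith) h3 (by positivity) (by norm_num)
      push_cast
      nlinarith
    · have e1 : wB (1 / D) (g * D) true = 1 / D := by
        unfold wB
        simp
      rw [e1, pow_succ D (i + 1)]
      field_simp

lemma good_prs
    (hop : ∀ X : Finset (Sl v), X.card ≤ v + 1 → LinearIndependent K (fun x : X => op x.1))
    (hD : 1000 ≤ D) (hn : (v + 1 : ℝ) = D ^ 7) (hg1 : 1 ≤ g) (hg2 : g ≤ 2)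
    {L : List (Bool × Bool)} {c : ℝ} (hc : 0 ≤ c)
    (hG : GoodV op (1 / D) (g * D) L c (1 / 8 - 5 * (1 / D)) (1 / (128 * D ^ 6))) :
    ∀ k : ℕ, g ^ k ≤ 2 * D → (k : ℝ) * (1 / D ^ 4) ≤ 1 / 100 →
      GoodV op (1 / D) (g * D) (prsU k ++ L) c
      (1 / 8 - 5 * (1 / D) - k * (1 / D ^ 4)) (g ^ k * (1 / (128 * D ^ 6))) := by
  have hD0 : 0 < D := by linarith
  have hg0 : 0 < g := by linarith
  intro k
  induction k with
  | zero =>
    intro _ _
    refine GoodV.mono hG hc ?_ ?_
    · simp
    · simp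
  | succ k ih =>
    intro hk1 hk2
    have hgk : g ^ k ≤ 2 * D := (pow_le_pow_right₀ hg1 (by omega)).trans hk1
    have hD4 : 0 < 1 / D ^ 4 := by positivity
    have hk3 : (k : ℝ) * (1 / D ^ 4) ≤ 1 / 100 := by
      push_cast at hk2
      nlinarith
    have h1 := ih hgk hk3
    have hk0 : (0 : ℝ) ≤ k * (1 / D ^ 4) := by positivity
    have hDinv : 1 / D ≤ 1 / 1000 := one_div_le_one_div_of_le (by norm_num) hD
    have hDpos : 0 < 1 / D := by positivity
    have hB1 : 0 < 1 / (128 * D ^ 6) := by positivity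
    have hgk1 : 1 ≤ g ^ k := one_le_pow₀ hg1
    have e1 : wB (1 / D) (g * D) false = g * D := by
      unfold wB
      simp
    have e2 : wB (1 / D) (g * D) true = 1 / D := by
      unfold wB
      simp
    -- the small quantities
    have hε : 2 / D ^ 6 ≤ 1 / D ^ 4 * (1 / 100) := by
      have e3 : 1 / D ^ 4 * (1 / 100) = 1 / (100 * D ^ 4) := by
        field_simp
      rw [e3, div_le_div_iff₀ (by positivity) (by positivity)]
      have e4 : 1 * D ^ 6 = D ^ 2 * D ^ 4 := by ring
      rw [e4]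
      have h5 : (200 : ℝ) ≤ D ^ 2 := by nlinarith
      have h6 : 0 < D ^ 4 := by positivity
      nlinarith
    have hDD : g * D * (g ^ k * (1 / (128 * D ^ 6))) ≤ 1 / D ^ 4 * (1 / 32) := by
      have h5 : g * D * (g ^ k * (1 / (128 * D ^ 6))) = g ^ (k + 1) * D * (1 / (128 * D ^ 6)) := by
        rw [pow_succ]
        ring
      have h6 : g ^ (k + 1) * D ≤ 2 * D * D := mul_le_mul_of_nonneg_right hk1 hD0.le
      have h7 := mul_le_mul_of_nonneg_right h6 hB1.le
      rw [h5]
      have h8 : 2 * D * D * (1 / (128 * D ^ 6)) = 1 / D ^ 4 * (1 / 64) := by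
        field_simp
        norm_num
      linarith
    have hB2 : g ^ k * (1 / (128 * D ^ 6)) ≤ 1 / D ^ 4 * (1 / 32) := by
      refine le_trans ?_ hDD
      have h5 : 1 ≤ g * D := by nlinarith
      exact le_mul_of_one_le_left (by positivity) h5
    have hB3 : 1 / (128 * D ^ 6) ≤ g ^ k * (1 / (128 * D ^ 6)) :=
      le_mul_of_one_le_left hB1.le hgk1
    have h2 := good_step hop (by linarith) hn hg1 hg2 false h1 hc (by linarith) (by linarith) hB3
    rw [e1] at h2
    have hB4 : 1 / (128 * D ^ 6) ≤ g * D * (g ^ k * (1 / (128 * D ^ 6))) := by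
      refine hB3.trans (le_mul_of_one_le_left (by positivity) ?_)
      nlinarith
    have hexp : (1 + 2 * (g * D)) * (g ^ k * (1 / (128 * D ^ 6)))
        = g ^ k * (1 / (128 * D ^ 6)) + 2 * (g * D * (g ^ k * (1 / (128 * D ^ 6)))) := by ring
    rw [hexp] at h2
    have hD4s : 1 / D ^ 4 ≤ 1 / 1000 := by
      apply one_div_le_one_div_of_le (by norm_num)
      exact hD.trans (le_self_pow₀ (by linarith) (by norm_num))
    have h3 := good_step hop (by linarith) hn hg1 hg2 true h2 hc (by linarith)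
      (by
        have : 0 < 2 / D ^ 6 := by positivity
        have : 0 < g ^ k * (1 / (128 * D ^ 6)) := by positivity
        have : 0 < g * D * (g ^ k * (1 / (128 * D ^ 6))) := by positivity
        linarith) hB4
    rw [e2] at h3
    refine GoodV.mono h3 hc ?_ (le_of_eq ?_)
    · have h5 : (1 + 2 * (1 / D)) * (g * D * (g ^ k * (1 / (128 * D ^ 6))))
          ≤ 2 * (g * D * (g ^ k * (1 / (128 * D ^ 6)))) := by
        apply mul_le_mul_of_nonneg_right _ (by positivity)
        linarith
      push_cast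
      linarith
    · rw [pow_succ g k]
      field_simp

lemma good_ys
    (hop : ∀ X : Finset (Sl v), X.card ≤ v + 1 → LinearIndependent K (fun x : X => op x.1))
    (hD : 1000 ≤ D) (hn : (v + 1 : ℝ) = D ^ 7) (hg1 : 1 ≤ g) (hg2 : g ≤ 2)
    {L : List (Bool × Bool)} {c A B : ℝ} (hc : 0 ≤ c) (hA1 : A ≤ 1 / 8) (hA2 : 1 / 10 ≤ A)
    (hB1 : 1 / (128 * D ^ 6) ≤ B) (hB2 : (g * D) ^ 5 * B ≤ 1 / 64)
    (hG : GoodV op (1 / D) (g * D) L c A B) :
    ∀ i ≤ 5, GoodV op (1 / D) (g * D) (List.replicate i (false, false) ++ L) c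
      (A - i * (2 / D ^ 6) - 3 * ((g * D) ^ i * B)) ((g * D) ^ i * B) := by
  have hD0 : 0 < D := by linarith
  have hg0 : 0 < g := by linarith
  have hB0 : 0 < B := lt_of_lt_of_le (by positivity) hB1
  have hgD : 1000 ≤ g * D := by nlinarith
  have hε0 : 0 < 2 / D ^ 6 := by positivity
  have hε : 2 / D ^ 6 ≤ 1 / 500 := by
    rw [div_le_div_iff₀ (by positivity) (by norm_num)]
    have : D ≤ D ^ 6 := le_self_pow₀ (by linarith) (by norm_num)
    linarith
  intro i
  induction i with
  | zero =>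
    intro _
    refine GoodV.mono hG hc ?_ ?_
    · simp
      linarith
    · simp
  | succ i ih =>
    intro hi
    have h1 := ih (by omega)
    have hi4 : (i : ℝ) ≤ 4 := by
      have : i ≤ 4 := by omega
      exact_mod_cast this
    have hi0 : (0 : ℝ) ≤ i := Nat.cast_nonneg _
    have hpos : 0 < (g * D) ^ i * B := by positivity
    have hle : (g * D) ^ i * B ≤ 1 / 64 := by
      refine le_trans ?_ hB2
      apply mul_le_mul_of_nonneg_right _ hB0.le
      exact pow_le_pow_right₀ (by linarith) (by omega)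
    have hge : 1 / (128 * D ^ 6) ≤ (g * D) ^ i * B := by
      refine hB1.trans (le_mul_of_one_le_left hB0.le ?_)
      exact one_le_pow₀ (by linarith)
    have e1 : wB (1 / D) (g * D) false = g * D := by
      unfold wB
      simp
    have h2 := good_step hop (by linarith) hn hg1 hg2 false h1 hc
      (by nlinarith) (by nlinarith) hge
    rw [e1] at h2
    refine GoodV.mono h2 hc ?_ (le_of_eq ?_)
    · rw [pow_succ (g * D) i]
      push_cast
      have h5 : 4 * ((g * D) ^ i * B) ≤ g * D * ((g * D) ^ i * B) := by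
        apply mul_le_mul_of_nonneg_right _ hpos.le
        linarith
      nlinarith
    · rw [pow_succ (g * D) i]
      ring

lemma finrank_I0 : 1 ≤ Module.finrank K (I0 K v) := by
  unfold I0
  rw [finrank_span_singleton]
  intro h
  have := congrFun h 0
  simp at this

/-- The lower bound for a block. -/
theorem block_bound
    (hop : ∀ X : Finset (Sl v), X.card ≤ v + 1 → LinearIndependent K (fun x : X => op x.1))
    (hD : 1000 ≤ D) (hn : (v + 1 : ℝ) = D ^ 7) (hg1 : 1 ≤ g) (hg2 : g ≤ 2) (k : ℕ)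
    (hk1 : g ^ (k + 5) ≤ 2 * D) (hk2 : (k : ℝ) * (1 / D ^ 4) ≤ 1 / 100)
    (rest : List (Bool × Bool)) :
    1 / 32 * PhN op (1 / D) (g * D) rest (I0 K v)
      ≤ PhN op (1 / D) (g * D) (blkU k ++ rest) (I0 K v) := by
  have hD0 : 0 < D := by linarith
  have hg0 : 0 < g := by linarith
  have hx : 0 < 1 / D := by positivity
  have hy : 0 < g * D := by positivity
  have hDinv : 1 / D ≤ 1 / 1000 := one_div_le_one_div_of_le (by norm_num) hD
  set c := PhN op (1 / D) (g * D) rest (I0 K v) with hc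
  have hc0 : 0 ≤ c := PhN_nonneg op hx hy rest _
  have h1 := good_close op hx hy true rest
  have e1 : wB (1 / D) (g * D) true / 128 = 1 / (128 * D) := by
    unfold wB
    simp
    field_simp
  rw [e1, ← hc] at h1
  have h2 := good_xs hop hD hn hg1 hg2 hc0 h1 5 le_rfl
  have hgk : g ^ k ≤ 2 * D := (pow_le_pow_right₀ hg1 (by omega)).trans hk1
  have h3 := good_prs hop hD hn hg1 hg2 hc0 (by simpa using h2) k hgk hk2
  have hk0 : (0 : ℝ) ≤ k * (1 / D ^ 4) := by positivity
  have hB1 : 0 < 1 / (128 * D ^ 6) := by positivity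
  have hBB : (g * D) ^ 5 * (g ^ k * (1 / (128 * D ^ 6))) ≤ 1 / 64 := by
    have e2 : (g * D) ^ 5 * (g ^ k * (1 / (128 * D ^ 6))) = g ^ (k + 5) * (1 / (128 * D)) := by
      rw [mul_pow, pow_add]
      field_simp
    rw [e2]
    have h4 := mul_le_mul_of_nonneg_right hk1 (show 0 ≤ 1 / (128 * D) by positivity)
    have h5 : 2 * D * (1 / (128 * D)) = 1 / 64 := by
      field_simp
      norm_num
    linarith
  have h4 := good_ys hop hD hn hg1 hg2 hc0 (by linarith) (by linarith)
    (le_mul_of_one_le_left hB1.le (one_le_pow₀ hg1)) hBB h3 5 le_rfl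
  have h5 := h4 (I0 K v) 1 finrank_I0
  have e3 : List.replicate 5 (false, false) ++ (prsU k ++ ((true, false) :: (true, false) ::
      (true, false) :: (true, false) :: (true, false) :: (true, true) :: rest))
      = blkU k ++ rest := by
    unfold blkU
    simp
  rw [e3] at h5
  refine le_trans ?_ h5
  rw [mul_comm]
  apply mul_le_mul_of_nonneg_left _ hc0
  have hε : 2 / D ^ 6 ≤ 1 / 500 := by
    rw [div_le_div_iff₀ (by positivity) (by norm_num)]
    have : D ≤ D ^ 6 := le_self_pow₀ (by linarith) (by norm_num)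
    linarith
  set Bf := (g * D) ^ 5 * (g ^ k * (1 / (128 * D ^ 6))) with hBf
  push_cast
  linarith

/-- The lower bound for a product of blocks. -/
theorem blocks_bound
    (hop : ∀ X : Finset (Sl v), X.card ≤ v + 1 → LinearIndependent K (fun x : X => op x.1))
    (hD : 1000 ≤ D) (hn : (v + 1 : ℝ) = D ^ 7) (hg1 : 1 ≤ g) (hg2 : g ≤ 2) (ks : List ℕ)
    (hk : ∀ k ∈ ks, g ^ (k + 5) ≤ 2 * D ∧ (k : ℝ) * (1 / D ^ 4) ≤ 1 / 100) :
    (1 / 32) ^ ks.length ≤ PhN op (1 / D) (g * D) (ks.map blkU).flatten (I0 K v) := by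
  induction ks with
  | nil =>
    rw [List.map_nil, List.flatten_nil, PhN, List.length_nil, pow_zero, if_pos]
    refine ⟨Pi.single 0 1, Submodule.mem_span_singleton_self _, ?_⟩
    rw [Pi.single_eq_same]
    exact one_ne_zero
  | cons k ks ih =>
    have ih' := ih fun k' hk' => hk k' (List.mem_cons_of_mem _ hk')
    obtain ⟨h1, h2⟩ := hk k List.mem_cons_self
    have h3 := block_bound hop hD hn hg1 hg2 k h1 h2 (ks.map blkU).flatten
    rw [List.map_cons, List.flatten_cons, List.length_cons, pow_succ']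
    refine le_trans ?_ h3
    exact mul_le_mul_of_nonneg_left ih' (by norm_num)

end block

end Vale.Agent.P346
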