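import Vale.Agent.P346.CircU

/-!
Upper bound for the bigraded measure of a homogeneous `ΣΠΣΠΣ` circuit, with grouping of the factors
of the product gates.
-/

namespace Vale.Agent.P346

open Finset MvPolynomial

variable {ι : Type*} {K : Type*} [Field K] {V : Type*}
variable {H : MvPolynomial ι K → ℝ} {wt : ι → ℕ × ℕ} {Z : ℝ}

/-- Grouping the factors of a product. -/
lemma exists_groups0 {γ : Type*} (f : γ → MvPolynomial ι K) (d : γ → ℕ) (a : ℕ) (s : Multiset γ)
    (hf : ∀ c ∈ s, (f c).IsHomogeneous (d c)) (hs : ∀ c ∈ s, d c ≤ a) :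
    ∃ (t : Multiset (MvPolynomial ι K × ℕ)) (g : MvPolynomial ι K) (e : ℕ),
      (∀ p ∈ t, p.1.IsHomogeneous p.2 ∧ p.2 ≤ a) ∧ g.IsHomogeneous e ∧ e ≤ a ∧
      (t.map Prod.fst).prod * g = (s.map f).prod ∧ (t.map Prod.snd).sum + e = (s.map d).sum ∧
      t.card * (a + 1) + e ≤ 2 * (s.map d).sum := by
  induction s using Multiset.induction_on with
  | empty =>
    refine ⟨0, 1, 0, ?_, isHomogeneous_one _ _, Nat.zero_le _, ?_, ?_, ?_⟩
    · intro p hp
      simp at hp
    · simp
    · simp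
    · simp
  | cons c s ih =>
    obtain ⟨t, g, e, h1, h2, h3, h4, h5, h6⟩ := ih (fun b hb => hf b (Multiset.mem_cons_of_mem hb))
      (fun b hb => hs b (Multiset.mem_cons_of_mem hb))
    have hfc := hf c (Multiset.mem_cons_self c s)
    have hdc := hs c (Multiset.mem_cons_self c s)
    rw [Multiset.map_cons, Multiset.prod_cons, Multiset.map_cons, Multiset.sum_cons]
    by_cases h : e + d c ≤ a
    · refine ⟨t, g * f c, e + d c, h1, h2.mul hfc, h, ?_, ?_, ?_⟩
      · rw [← h4]
        ring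
      · rw [← h5]
        ring
      · omega
    · refine ⟨(g, e) ::ₘ t, f c, d c, ?_, hfc, hdc, ?_, ?_, ?_⟩
      · intro p hp
        rcases Multiset.mem_cons.1 hp with rfl | hp
        · exact ⟨h2, h3⟩
        · exact h1 p hp
      · rw [Multiset.map_cons, Multiset.prod_cons, ← h4]
        ring
      · rw [Multiset.map_cons, Multiset.sum_cons, ← h5]
        ring
      · rw [Multiset.card_cons, add_mul]
        omega

lemma exists_groups {γ : Type*} (f : γ → MvPolynomial ι K) (d : γ → ℕ) (a : ℕ) (s : Multiset γ)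
    (hf : ∀ c ∈ s, (f c).IsHomogeneous (d c)) (hs : ∀ c ∈ s, d c ≤ a) :
    ∃ t : Multiset (MvPolynomial ι K × ℕ),
      (∀ p ∈ t, p.1.IsHomogeneous p.2 ∧ p.2 ≤ a) ∧
      (t.map Prod.fst).prod = (s.map f).prod ∧ (t.map Prod.snd).sum = (s.map d).sum ∧
      t.card * (a + 1) ≤ 2 * (s.map d).sum + (a + 1) := by
  obtain ⟨t, g, e, h1, h2, h3, h4, h5, h6⟩ := exists_groups0 f d a s hf hs
  refine ⟨(g, e) ::ₘ t, ?_, ?_, ?_, ?_⟩
  · intro p hp
    rcases Multiset.mem_cons.1 hp with rfl | hp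
    · exact ⟨h2, h3⟩
    · exact h1 p hp
  · rw [Multiset.map_cons, Multiset.prod_cons, ← h4, mul_comm]
  · rw [Multiset.map_cons, Multiset.sum_cons, ← h5, add_comm]
  · rw [Multiset.card_cons, add_mul]
    omega

/-- The factor of a polynomial of degree `d`. -/
noncomputable def Gz (x x' z : ℝ) (d : ℕ) : ℝ :=
  ∑ i ∈ range (d + 1), min 1 (x ^ (2 * i) / x' ^ (2 * (d - i))) * z ^ i

lemma Gz_nonneg {x x' z : ℝ} (hx : 0 < x) (hx' : 0 < x') (hz : 0 < z) (d : ℕ) :
    0 ≤ Gz x x' z d :=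
  Finset.sum_nonneg fun i _ => mul_nonneg (le_min (by norm_num) (by positivity)) (by positivity)

theorem typeBz {x x' : ℝ} (hM : IsMeas H wt x x' Z) (hS : SubAdd H)
    (hwt : ∀ i, wt i = (1, 0) ∨ wt i = (0, 1)) (hx : 0 < x) (hx' : 0 < x') {z : ℝ} (hz : 0 < z)
    (hZ : 0 ≤ Z) {γ : Type*} (f : γ → MvPolynomial ι K) (d : γ → ℕ) (s : Multiset γ)
    (hf : ∀ a ∈ s, (f a).IsHomogeneous (d a)) :
    ∀ (N : ℕ) (R B : MvPolynomial ι K) (e1 e2 : ℕ), IsWeightedHomogeneous wt B (e1, e2) →
      H (comp wt N (s.map f).prod * R * B)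
        ≤ x ^ (2 * e1) / x' ^ (2 * e2) * (z ^ N)⁻¹ * (s.map fun a => Gz x x' z (d a)).prod * Z := by
  induction s using Multiset.induction_on with
  | empty =>
    intro N R B e1 e2 hB
    rw [Multiset.map_zero, Multiset.prod_zero, Multiset.map_zero, Multiset.prod_zero, comp_one]
    by_cases hN : N = 0
    · subst hN
      rw [if_pos rfl, one_mul]
      refine (hM.mul_le R B).trans ((hM.hom_le B e1 e2 hB).trans (le_of_eq ?_))
      rw [pow_zero, inv_one]
      ring
    · rw [if_neg hN, zero_mul, zero_mul, hM.zero]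
      positivity
  | cons a s ih =>
    intro N R B e1 e2 hB
    have ih' := ih fun b hb => hf b (Multiset.mem_cons_of_mem hb)
    have hfa := hf a (Multiset.mem_cons_self a s)
    rw [Multiset.map_cons, Multiset.prod_cons, comp_mul, Multiset.map_cons, Multiset.prod_cons,
      Finset.sum_mul, Finset.sum_mul]
    refine (hS.sum_le' _ _).trans ?_
    set G := (s.map fun a => Gz x x' z (d a)).prod with hG
    have hG0 : 0 ≤ G := Multiset.prod_nonneg (by
      intro y hy
      obtain ⟨b, _, rfl⟩ := Multiset.mem_map.1 hy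
      exact Gz_nonneg hx hx' hz _)
    set A := x ^ (2 * e1) / x' ^ (2 * e2) * (z ^ N)⁻¹ * G * Z with hA
    have hA0 : 0 ≤ A := by positivity
    have h1 : ∀ w ∈ antidiagonal N, H (comp wt w.1 (f a) * comp wt w.2 (s.map f).prod * R * B)
        ≤ if w.1 ≤ d a then min 1 (x ^ (2 * w.1) / x' ^ (2 * (d a - w.1))) * z ^ w.1 * A
          else 0 := by
      intro w hw
      have hw' : w.1 + w.2 = N := by
        rw [HasAntidiagonal.mem_antidiagonal] at hw
        exact hw
      by_cases hd : w.1 ≤ d a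
      · rw [if_pos hd]
        have hc := comp_bihom wt hwt hfa hd
        have h2 : H (comp wt w.1 (f a) * comp wt w.2 (s.map f).prod * R * B)
            ≤ x ^ (2 * w.1) / x' ^ (2 * (d a - w.1)) * z ^ w.1 * A := by
          have h3 := ih' w.2 R (comp wt w.1 (f a) * B) (w.1 + e1) (d a - w.1 + e2) (hc.mul hB)
          have h4 : comp wt w.1 (f a) * comp wt w.2 (s.map f).prod * R * B
              = comp wt w.2 (s.map f).prod * R * (comp wt w.1 (f a) * B) := by ring
          rw [h4]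
          refine h3.trans (le_of_eq ?_)
          rw [hA, ← hw', mul_add 2 w.1 e1, mul_add 2 _ e2, pow_add, pow_add, pow_add]
          field_simp
        have h5 : H (comp wt w.1 (f a) * comp wt w.2 (s.map f).prod * R * B)
            ≤ 1 * z ^ w.1 * A := by
          have h3 := ih' w.2 (comp wt w.1 (f a) * R) B e1 e2 hB
          have h4 : comp wt w.1 (f a) * comp wt w.2 (s.map f).prod * R * B
              = comp wt w.2 (s.map f).prod * (comp wt w.1 (f a) * R) * B := by ring
          rw [h4]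
          refine h3.trans (le_of_eq ?_)
          rw [hA, ← hw', pow_add]
          field_simp
        rcases min_choice 1 (x ^ (2 * w.1) / x' ^ (2 * (d a - w.1))) with h6 | h6 <;>
          rw [h6]
        · exact h5
        · exact h2
      · rw [if_neg hd, comp_eq_zero wt hwt hfa (by omega), zero_mul, zero_mul, zero_mul, hM.zero]
    refine (Finset.sum_le_sum h1).trans ?_
    have h7 := sum_antidiagonal_le (φ := fun i => if i ≤ d a then
      min 1 (x ^ (2 * i) / x' ^ (2 * (d a - i))) * z ^ i * A else 0) (by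
        intro i
        show 0 ≤ if i ≤ d a then min 1 (x ^ (2 * i) / x' ^ (2 * (d a - i))) * z ^ i * A else 0
        split_ifs
        · exact mul_nonneg (mul_nonneg (le_min (by norm_num) (by positivity)) (by positivity)) hA0
        · exact le_rfl) N (d a) (by
        intro i hi
        exact if_neg (by omega))
    refine h7.trans (le_of_eq ?_)
    have h8 : ∑ i ∈ range (d a + 1), (if i ≤ d a then
      min 1 (x ^ (2 * i) / x' ^ (2 * (d a - i))) * z ^ i * A else 0) = Gz x x' z (d a) * A := by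
      unfold Gz
      rw [Finset.sum_mul]
      apply Finset.sum_congr rfl
      intro i hi
      rw [Finset.mem_range] at hi
      rw [if_pos (by omega)]
    rw [h8, hA]
    ring

lemma geom_half_le (n : ℕ) : ∑ m ∈ range n, (1 / 2 : ℝ) ^ m ≤ 2 := by
  have h : ∑ m ∈ range n, (1 / 2 : ℝ) ^ m = 2 - 2 * (1 / 2) ^ n := by
    induction n with
    | zero => simp
    | succ n ih =>
      rw [Finset.sum_range_succ, ih, pow_succ]
      ring
  rw [h]
  have : (0 : ℝ) < (1 / 2) ^ n := by positivity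
  linarith

/-- The sum of the distances to the middle. -/
lemma sum_dist_le (d : ℕ) :
    ∑ i ∈ range (d + 1), (1 / 2 : ℝ) ^ ((d - 2 * i) + (2 * i - d)) ≤ 4 := by
  have h1 : ∀ i ∈ range (d + 1), (1 / 2 : ℝ) ^ ((d - 2 * i) + (2 * i - d))
      ≤ (if 2 * i ≤ d then (1 / 2 : ℝ) ^ (d - 2 * i) else 0)
        + (if d < 2 * i then (1 / 2 : ℝ) ^ (2 * i - d) else 0) := by
    intro i _
    by_cases h : 2 * i ≤ d
    · rw [if_pos h, if_neg (by omega), add_zero]
      apply le_of_eq
      congr 1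
      omega
    · rw [if_neg h, if_pos (by omega), zero_add]
      apply le_of_eq
      congr 1
      omega
  refine (Finset.sum_le_sum h1).trans ?_
  rw [Finset.sum_add_distrib, ← Finset.sum_filter, ← Finset.sum_filter]
  have h2 : ∑ i ∈ (range (d + 1)).filter (fun i => 2 * i ≤ d), (1 / 2 : ℝ) ^ (d - 2 * i) ≤ 2 := by
    refine le_trans ?_ (geom_half_le (d + 1))
    have h3 : ∑ i ∈ (range (d + 1)).filter (fun i => 2 * i ≤ d), (1 / 2 : ℝ) ^ (d - 2 * i)
        = ∑ m ∈ ((range (d + 1)).filter (fun i => 2 * i ≤ d)).image (fun i => d - 2 * i),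
          (1 / 2 : ℝ) ^ m := by
      rw [Finset.sum_image]
      intro i hi j hj hij
      rw [Finset.mem_coe, Finset.mem_filter] at hi hj
      have : d - 2 * i = d - 2 * j := hij
      omega
    rw [h3]
    apply Finset.sum_le_sum_of_subset_of_nonneg
    · intro m hm
      obtain ⟨i, _, rfl⟩ := Finset.mem_image.1 hm
      rw [Finset.mem_range]
      omega
    · intro i _ _
      positivity
  have h4 : ∑ i ∈ (range (d + 1)).filter (fun i => d < 2 * i), (1 / 2 : ℝ) ^ (2 * i - d) ≤ 2 := by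
    refine le_trans ?_ (geom_half_le (2 * d + 3))
    have h3 : ∑ i ∈ (range (d + 1)).filter (fun i => d < 2 * i), (1 / 2 : ℝ) ^ (2 * i - d)
        = ∑ m ∈ ((range (d + 1)).filter (fun i => d < 2 * i)).image (fun i => 2 * i - d),
          (1 / 2 : ℝ) ^ m := by
      rw [Finset.sum_image]
      intro i hi j hj hij
      rw [Finset.mem_coe, Finset.mem_filter] at hi hj
      have : 2 * i - d = 2 * j - d := hij
      omega
    rw [h3]
    apply Finset.sum_le_sum_of_subset_of_nonneg
    · intro m hm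
      obtain ⟨i, hi, rfl⟩ := Finset.mem_image.1 hm
      rw [Finset.mem_filter, Finset.mem_range] at hi
      rw [Finset.mem_range]
      omega
    · intro i _ _
      positivity
  linarith

/-- The bound for a group. -/
lemma Gz_le {y κ : ℝ} (hy : 2 ≤ y) (hκ : 1 ≤ κ) {a d : ℕ} (ha : κ ^ a ≤ y) (hd : d ≤ a) :
    Gz (y ^ 3) (κ * y ^ 3) ((1 / (4 * κ ^ a)) ^ 2) d ≤ 4 * (1 / (4 * κ ^ a) / κ) ^ d := by
  have hy0 : 0 < y := by linarith
  have hκ0 : 0 < κ := by linarith
  have hκa : 1 ≤ κ ^ a := one_le_pow₀ hκ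
  obtain ⟨ζ, hζ⟩ : ∃ ζ, ζ = 1 / (4 * κ ^ a) := ⟨_, rfl⟩
  have hζ0 : 0 < ζ := by rw [hζ]; positivity
  rw [← hζ]
  have hkey : ∀ i ∈ range (d + 1), min 1 ((y ^ 3) ^ (2 * i) / (κ * y ^ 3) ^ (2 * (d - i)))
      * (ζ ^ 2) ^ i ≤ (ζ / κ) ^ d * (1 / 2 : ℝ) ^ ((d - 2 * i) + (2 * i - d)) := by
    intro i hi
    rw [Finset.mem_range] at hi
    rcases Nat.le_total (2 * i) d with h | h
    · obtain ⟨m, rfl⟩ := Nat.exists_eq_add_of_le h
      have e1 : 2 * i + m - 2 * i + (2 * i - (2 * i + m)) = m := by omega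
      have e2 : 2 * (2 * i + m - i) = 2 * i + 2 * m := by omega
      rw [e1, e2]
      refine (mul_le_mul_of_nonneg_right (min_le_right _ _) (by positivity)).trans ?_
      have h1 : 2 ≤ ζ * κ * y ^ 6 := by
        rw [hζ]
        have h2 : 1 / (4 * y) ≤ 1 / (4 * κ ^ a) := by
          apply one_div_le_one_div_of_le (by positivity)
          linarith
        have h3 : 1 / (4 * y) * 1 * y ^ 6 ≤ 1 / (4 * κ ^ a) * κ * y ^ 6 := by
          apply mul_le_mul_of_nonneg_right _ (by positivity)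
          exact mul_le_mul h2 hκ (by norm_num) (by positivity)
        refine le_trans ?_ h3
        have h4 : 1 / (4 * y) * 1 * y ^ 6 = y ^ 5 / 4 := by
          field_simp
        rw [h4]
        have h5 : (2 : ℝ) ^ 5 ≤ y ^ 5 := pow_le_pow_left₀ (by norm_num) hy 5
        linarith
      have h6 : (y ^ 3) ^ (2 * i) / (κ * y ^ 3) ^ (2 * i + 2 * m) * (ζ ^ 2) ^ i
          = (ζ / κ) ^ (2 * i + m) * ((ζ * κ * y ^ 6) ^ m)⁻¹ := by
        rw [mul_pow, pow_add κ, pow_add (y ^ 3), pow_add (ζ / κ), div_pow, div_pow, mul_pow, mul_pow,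
          pow_mul ζ 2 i, pow_mul κ 2 m, pow_mul (y ^ 3) 2 m, ← pow_mul y 3 2]
        field_simp
        ring
      rw [h6]
      apply mul_le_mul_of_nonneg_left _ (by positivity)
      rw [one_div, inv_pow]
      apply inv_anti₀ (by positivity)
      exact pow_le_pow_left₀ (by norm_num) h1 m
    · rcases Nat.eq_or_lt_of_le h with h | h
      · -- the middle
        have e1 : d - 2 * i + (2 * i - d) = 0 := by omega
        have e2 : 2 * (d - i) = 2 * i := by omega
        rw [e1, e2, pow_zero, mul_one, h]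
        refine (mul_le_mul_of_nonneg_right (min_le_right _ _) (by positivity)).trans (le_of_eq ?_)
        rw [mul_pow, div_pow, pow_mul ζ 2 i]
        field_simp
      · obtain ⟨m, hm⟩ := Nat.exists_eq_add_of_le h.le
        have e1 : d - 2 * i + (2 * i - d) = m := by omega
        rw [e1]
        refine (mul_le_mul_of_nonneg_right (min_le_left _ _) (by positivity)).trans ?_
        rw [one_mul, ← pow_mul, hm, pow_add, div_pow]
        have hm1 : 1 ≤ m := by omega
        have h1 : κ ^ d ≤ (κ ^ a) ^ m := by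
          calc κ ^ d ≤ κ ^ a := pow_le_pow_right₀ hκ hd
            _ ≤ (κ ^ a) ^ m := le_self_pow₀ hκa (by omega)
        have h2 : ζ ^ m * κ ^ d ≤ (1 / 2) ^ m := by
          calc ζ ^ m * κ ^ d ≤ ζ ^ m * (κ ^ a) ^ m :=
                mul_le_mul_of_nonneg_left h1 (by positivity)
            _ = (1 / 4) ^ m := by
                rw [← mul_pow, hζ]
                congr 1
                field_simp
            _ ≤ (1 / 2) ^ m := pow_le_pow_left₀ (by norm_num) (by norm_num) m
        have h3 : ζ ^ d * ζ ^ m = ζ ^ d / κ ^ d * (ζ ^ m * κ ^ d) := by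
          field_simp
        rw [h3]
        exact mul_le_mul_of_nonneg_left h2 (by positivity)
  unfold Gz
  refine (Finset.sum_le_sum hkey).trans ?_
  rw [← Finset.mul_sum, mul_comm]
  exact mul_le_mul_of_nonneg_right (sum_dist_le d) (by positivity)

lemma prod_Gz_le {y κ : ℝ} (hy : 2 ≤ y) (hκ : 1 ≤ κ) {a : ℕ} (ha : κ ^ a ≤ y) {γ : Type*}
    (d : γ → ℕ) (s : Multiset γ) (hs : ∀ c ∈ s, d c ≤ a) :
    (s.map fun c => Gz (y ^ 3) (κ * y ^ 3) ((1 / (4 * κ ^ a)) ^ 2) (d c)).prod
      ≤ 4 ^ s.card * (1 / (4 * κ ^ a) / κ) ^ (s.map d).sum := by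
  have hy0 : 0 < y := by linarith
  have hκ0 : 0 < κ := by linarith
  induction s using Multiset.induction_on with
  | empty => simp
  | cons c s ih =>
    have ih' := ih fun b hb => hs b (Multiset.mem_cons_of_mem hb)
    have hc := hs c (Multiset.mem_cons_self c s)
    have h1 := Gz_le hy hκ ha hc
    have h2 : 0 ≤ (s.map fun c => Gz (y ^ 3) (κ * y ^ 3) ((1 / (4 * κ ^ a)) ^ 2) (d c)).prod :=
      Multiset.prod_nonneg (by
        intro z hz
        obtain ⟨b, _, rfl⟩ := Multiset.mem_map.1 hz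
        exact Gz_nonneg (by positivity) (by positivity) (by positivity) _)
    rw [Multiset.map_cons, Multiset.prod_cons, Multiset.map_cons, Multiset.sum_cons,
      Multiset.card_cons]
    refine (mul_le_mul h1 ih' h2 (by positivity)).trans (le_of_eq ?_)
    rw [pow_add, pow_succ]
    ring

/-- Gates all of whose factors have small degree. -/
lemma gateBz {y κ : ℝ} (hy : 2 ≤ y) (hκ : 1 ≤ κ) (hM : IsMeas H wt (y ^ 3) (κ * y ^ 3) Z)
    (hS : SubAdd H) (hwt : ∀ i, wt i = (1, 0) ∨ wt i = (0, 1)) (hZ : 0 ≤ Z) {a : ℕ}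
    (ha : κ ^ a ≤ y) {γ : Type*} (f : γ → MvPolynomial ι K) (d : γ → ℕ) (s : Multiset γ)
    (hf : ∀ c ∈ s, (f c).IsHomogeneous (d c)) (hs : ∀ c ∈ s, d c ≤ a) {n nx ny M : ℕ}
    (hsum : (s.map d).sum = n) (hn : nx + ny = n) (hnx : ny ≤ nx)
    (hbal : (y ^ 3) ^ nx = (κ * y ^ 3) ^ ny) (hMn : 2 * n < M * (a + 1)) :
    H (comp wt nx (s.map f).prod) ≤ 4 ^ (M + (nx - ny)) / (y ^ 5) ^ (nx - ny) * Z := by
  have hy0 : 0 < y := by linarith
  have hκ0 : 0 < κ := by linarith
  obtain ⟨t, ht1, ht2, ht3, ht4⟩ := exists_groups f d a s hf hs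
  rw [← ht2]
  rw [hsum] at ht3 ht4
  have hcard : t.card ≤ M := by
    by_contra h
    push Not at h
    have h1 : (M + 1) * (a + 1) ≤ t.card * (a + 1) := Nat.mul_le_mul_right _ h
    rw [add_mul, one_mul] at h1
    omega
  obtain ⟨ζ, hζ⟩ : ∃ ζ, ζ = 1 / (4 * κ ^ a) := ⟨_, rfl⟩
  have hζ0 : 0 < ζ := by rw [hζ]; positivity
  have h1 := typeBz hM hS hwt (by positivity) (by positivity) (z := ζ ^ 2) (by positivity) hZ
    (Prod.fst : MvPolynomial ι K × ℕ → MvPolynomial ι K) Prod.snd t (fun p hp => (ht1 p hp).1)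
    nx 1 1 0 0 (isWeightedHomogeneous_one K wt)
  rw [mul_one, mul_one, mul_zero, pow_zero, pow_zero, div_one, one_mul] at h1
  refine h1.trans (mul_le_mul_of_nonneg_right ?_ hZ)
  have h2 := prod_Gz_le hy hκ ha (Prod.snd : MvPolynomial ι K × ℕ → ℕ) t
    (fun p hp => (ht1 p hp).2)
  rw [ht3, ← hζ] at h2
  refine (mul_le_mul_of_nonneg_left h2 (by positivity)).trans ?_
  obtain ⟨k, rfl⟩ := Nat.exists_eq_add_of_le hnx
  rw [Nat.add_sub_cancel_left]
  -- the balance
  have hb : κ ^ ny = (y ^ 3) ^ k := by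
    rw [pow_add, mul_pow, mul_comm] at hbal
    exact (mul_right_cancel₀ (by positivity) hbal).symm
  have e1 : n = 2 * ny + k := by omega
  have e2 : ((ζ ^ 2) ^ (ny + k))⁻¹ * (4 ^ t.card * (ζ / κ) ^ n)
      = 4 ^ t.card * ((ζ⁻¹) ^ k * ((κ ^ ny) ^ 2 * κ ^ k)⁻¹) := by
    rw [e1, div_pow, ← pow_mul, pow_add κ, pow_mul κ 2 ny, ← pow_mul κ 2 ny, ← pow_mul κ ny 2,
      mul_comm ny 2, mul_add 2 ny k, pow_add ζ, pow_add ζ (2 * ny) k, two_mul k, pow_add ζ k k]
    field_simp
    rw [← mul_pow, mul_one_div_cancel hζ0.ne', one_pow]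
  rw [e2, hb]
  have h3 : (4 : ℝ) ^ t.card ≤ 4 ^ M := pow_le_pow_right₀ (by norm_num) hcard
  have h4 : ζ⁻¹ ≤ 4 * y := by
    rw [hζ, one_div, inv_inv]
    linarith
  have h5 : (ζ⁻¹) ^ k ≤ (4 * y) ^ k := pow_le_pow_left₀ (by positivity) h4 k
  have h6 : (((y ^ 3) ^ k) ^ 2 * κ ^ k)⁻¹ ≤ (((y ^ 3) ^ k) ^ 2)⁻¹ := by
    apply inv_anti₀ (by positivity)
    exact le_mul_of_one_le_right (by positivity) (one_le_pow₀ hκ)
  calc 4 ^ t.card * ((ζ⁻¹) ^ k * (((y ^ 3) ^ k) ^ 2 * κ ^ k)⁻¹)
      ≤ 4 ^ M * ((4 * y) ^ k * (((y ^ 3) ^ k) ^ 2)⁻¹) := by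
        apply mul_le_mul h3 _ (by positivity) (by positivity)
        exact mul_le_mul h5 h6 (by positivity) (by positivity)
    _ = 4 ^ (M + k) / (y ^ 5) ^ k := by
        have e3 : ((y ^ 3) ^ k) ^ 2 = (y ^ 5) ^ k * y ^ k := by
          rw [← pow_mul, ← pow_mul, ← pow_mul, ← pow_add]
          congr 1
          ring
        rw [e3, mul_pow, pow_add]
        field_simp

theorem circuit_upper1 {y κ : ℝ} (hy : 2 ≤ y) (hκ : 1 ≤ κ)
    (hM : IsMeas H wt (y ^ 3) (κ * y ^ 3) Z)
    (hS : SubAdd H) (hwt : ∀ i, wt i = (1, 0) ∨ wt i = (0, 1)) (hZ : 0 ≤ Z) {a : ℕ}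
    (ha : κ ^ a ≤ y) (C : Circuit V K) (hC : C.IsHomogeneous)
    (φ : MvPolynomial V K →ₐ[K] MvPolynomial ι K)
    (hφ : ∀ v, (φ (X v)).IsHomogeneous 1) {n nx ny M : ℕ} (hhom : (φ C.val).IsHomogeneous n)
    (hF : IsWeightedHomogeneous wt (φ C.val) (nx, ny)) (hn : nx + ny = n) (hnx : ny ≤ nx)
    (hbal : (y ^ 3) ^ nx = (κ * y ^ 3) ^ ny) (hMn : 2 * n < M * (a + 1)) (hne : φ C.val ≠ 0) :
    H (φ C.val) ≤ (C.n4 * (4 ^ (M + (nx - ny)) / (y ^ 5) ^ (nx - ny))
      + C.n4 * (C.n2 * (2 / y ^ 3) ^ a)) * Z := by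
  classical
  obtain ⟨d1, d2, d3, d4, d5, h1, h2, h3, h4, h5⟩ := hC
  have hy0 : 0 < y := by linarith
  have hκ0 : 0 < κ := by linarith
  obtain ⟨g1, g2, g3, g4⟩ := gates_homog C φ hφ h1 h2 h3 h4
  have g5 : (φ C.val).IsHomogeneous d5 := by
    unfold Circuit.val
    rw [map_sum]
    apply IsHomogeneous.sum
    intro l hl
    rw [map_smul, ← h5 l hl]
    exact isHomogeneous_smul (g4 l) _
  have hd5 : d5 = n := g5.inj_right hhom hne
  have kB : ∀ g ∈ C.in5, H (comp wt nx (φ (C.val4 g)))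
      ≤ (4 ^ (M + (nx - ny)) / (y ^ 5) ^ (nx - ny)
        + C.n2 * (2 / y ^ 3) ^ a) * Z := by
    intro g hg
    have hn2 : 0 ≤ (C.n2 : ℝ) * (2 / y ^ 3) ^ a := by positivity
    have hn1 : 0 ≤ 4 ^ (M + (nx - ny)) / (y ^ 5) ^ (nx - ny) := by positivity
    by_cases hall : ∀ l ∈ C.in4 g, d3 l ≤ a
    · have h7 : φ (C.val4 g) = ((C.in4 g).map fun l => φ (C.val3 l)).prod := by
        unfold Circuit.val4
        rw [map_multiset_prod, Multiset.map_map]
        rfl
      have h6 := gateBz hy hκ hM hS hwt hZ ha (fun l => φ (C.val3 l)) d3 (C.in4 g)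
        (fun c _ => g3 c) hall (by rw [← h4 g, h5 g hg, hd5]) hn hnx hbal hMn
      rw [← h7] at h6
      refine h6.trans (mul_le_mul_of_nonneg_right ?_ hZ)
      linarith
    · push Not at hall
      obtain ⟨l, hl, hla⟩ := hall
      obtain ⟨s, hs⟩ := Multiset.exists_cons_of_mem hl
      have hR : (φ (s.map C.val3).prod).IsHomogeneous ((s.map d3).sum) := by
        rw [map_multiset_prod, Multiset.map_map]
        exact isHomogeneous_multiset _ _ _ fun x _ => g3 x
      have hsum : d3 l + (s.map d3).sum = n := by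
        have h8 := h4 g
        rw [hs, Multiset.map_cons, Multiset.sum_cons, h5 g hg, hd5] at h8
        exact h8.symm
      have h7 : comp wt nx (φ (C.val4 g)) = ∑ h ∈ C.in3 l, C.co3 l h •
          comp wt nx (φ (C.val2 h) * φ (s.map C.val3).prod) := by
        rw [← comp_smul_sum]
        congr 1
        unfold Circuit.val4
        rw [hs, Multiset.map_cons, Multiset.prod_cons, map_mul]
        conv_lhs => unfold Circuit.val3
        rw [map_sum, Finset.sum_mul]
        apply Finset.sum_congr rfl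
        intro h _
        rw [map_smul, smul_mul_assoc]
        rfl
      rw [h7]
      refine (hS.sum_le _ _ _).trans ?_
      have h8 : ∀ h ∈ C.in3 l, H (comp wt nx (φ (C.val2 h) * φ (s.map C.val3).prod))
          ≤ (2 / y ^ 3) ^ a * Z := by
        intro h hh
        by_cases hle : ∀ c ∈ C.in2 h, d1 c ≤ 1
        · have h9 : φ (C.val2 h) = ((C.in2 h).map fun l => φ (C.val1 l)).prod := by
            unfold Circuit.val2
            rw [map_multiset_prod, Multiset.map_map]
            rfl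
          rw [h9]
          have h10 : ((C.in2 h).map d1).sum = d3 l := by rw [← h2 h, h3 l h hh]
          exact gateA hy hκ hM hS hwt hZ (fun l => φ (C.val1 l)) d1 (C.in2 h)
            (fun c _ => g1 c) hle hR (by rw [h10, hsum]) (by rw [h10]; omega) hn hbal
        · rw [val2_eq_zero C h1 h hle, map_zero, zero_mul]
          have : comp wt nx (0 : MvPolynomial ι K) = 0 := by
            unfold comp
            exact map_zero _
          rw [this, hM.zero]
          positivity
      refine (Finset.sum_le_sum h8).trans ?_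
      rw [Finset.sum_const, nsmul_eq_mul, ← mul_assoc]
      apply mul_le_mul_of_nonneg_right _ hZ
      have h9 : ((C.in3 l).card : ℝ) ≤ C.n2 := by
        have := Finset.card_le_univ (C.in3 l)
        rw [Fintype.card_fin] at this
        exact_mod_cast this
      have h10 : ((C.in3 l).card : ℝ) * (2 / y ^ 3) ^ a ≤ C.n2 * (2 / y ^ 3) ^ a :=
        mul_le_mul_of_nonneg_right h9 (by positivity)
      linarith
  have hval : φ C.val = ∑ h ∈ C.in5, C.co5 h • comp wt nx (φ (C.val4 h)) := by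
    rw [← comp_smul_sum]
    have : ∑ h ∈ C.in5, C.co5 h • φ (C.val4 h) = φ C.val := by
      unfold Circuit.val
      rw [map_sum]
      simp only [map_smul]
    rw [this, comp_self wt hF]
  rw [hval]
  refine (hS.sum_le _ _ _).trans ((Finset.sum_le_sum kB).trans ?_)
  rw [Finset.sum_const, nsmul_eq_mul]
  have h12 : ((C.in5).card : ℝ) ≤ C.n4 := by
    have := Finset.card_le_univ C.in5
    rw [Fintype.card_fin] at this
    exact_mod_cast this
  have h13 : 0 ≤ (4 ^ (M + (nx - ny)) / (y ^ 5) ^ (nx - ny)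
        + C.n2 * (2 / y ^ 3) ^ a) * Z := by positivity
  refine (mul_le_mul_of_nonneg_right h12 h13).trans (le_of_eq ?_)
  ring

end Vale.Agent.P346
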