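import Vale.Agent.P346.UBlock
import Vale.Agent.P346.UCirc
import Vale.Agent.P346.Core0

/-!
The core inequality over an infinite field.
-/

namespace Vale.Agent.P346

open Finset MvPolynomial

variable {K : Type*} [Field K] {v : ℕ}

lemma isHomogeneous_walk {m : ℕ} (b : Fin m → Sl v → Fin (v + 1) → K) (t : Fin m)
    (u u' : Fin (v + 1)) : (MatV b t u u').IsHomogeneous 1 := by
  unfold MatV
  rw [Matrix.of_apply]
  apply IsHomogeneous.sum
  intro k _
  exact isHomogeneous_C_mul_X _ _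

lemma FV_homog {m : ℕ} (b : Fin m → Sl v → Fin (v + 1) → K) : (FV b).IsHomogeneous m := by
  unfold FV
  rw [prod_ofFn_apply]
  apply IsHomogeneous.sum
  intro u _
  split_ifs
  · unfold walkW
    have h1 := IsHomogeneous.prod (univ : Finset (Fin m))
      (fun t => MatV b t (u t.castSucc) (u t.succ)) (fun _ => 1)
      (fun t _ => isHomogeneous_walk b t _ _)
    rw [Finset.sum_const, card_univ, Fintype.card_fin, smul_eq_mul, mul_one] at h1
    exact h1
  · exact isHomogeneous_zero _ _ _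

variable {L : List (Bool × Bool)}

lemma MatV_bihom (b : Fin L.length → Sl v → Fin (v + 1) → K) (t : Fin L.length)
    (u u' : Fin (v + 1)) :
    IsWeightedHomogeneous (wtL L v) (MatV b t u u') (bd (L.get t).1) := by
  unfold MatV
  rw [Matrix.of_apply]
  apply IsWeightedHomogeneous.sum
  intro k _
  rw [C_mul_X_eq_monomial]
  apply isWeightedHomogeneous_monomial
  rw [Finsupp.weight_apply, Finsupp.sum_single_index (zero_smul ℕ (wtL L v (t, (u, k)))),
    one_smul]
  rfl

lemma FV_bihom (b : Fin L.length → Sl v → Fin (v + 1) → K) :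
    IsWeightedHomogeneous (wtL L v) (FV b) ((L.map fun d => bd d.1).sum) := by
  unfold FV
  rw [prod_ofFn_apply]
  apply IsWeightedHomogeneous.sum
  intro u _
  split_ifs
  · unfold walkW
    rw [← sum_layers (fun d => bd d.1) L]
    exact IsWeightedHomogeneous.prod (univ : Finset (Fin L.length))
      (fun t => MatV b t (u t.castSucc) (u t.succ)) (fun t => bd (L.get t).1)
      (fun t _ => MatV_bihom b t _ _)
  · exact isWeightedHomogeneous_zero K _ _

/-- The hard polynomial is a projection of `IMM`. -/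
theorem exists_projU {m n : ℕ} (b : Fin m → Sl v → Fin (v + 1) → K) (hn : m = n) :
    ∃ φ : MvPolynomial (Fin n × Fin (v + 1) × Fin (v + 1)) K →ₐ[K] MvPolynomial (Fin m × Sl v) K,
      (∀ x, (φ (X x)).IsHomogeneous 1) ∧ φ (IMM K (v + 1) n) = FV b := by
  have hlen : (List.ofFn (MatV b)).length = n := by rw [List.length_ofFn, hn]
  refine ⟨aeval (fun y : Fin n × Fin (v + 1) × Fin (v + 1) =>
    (List.ofFn (MatV b)).get (Fin.cast hlen.symm y.1) y.2.1 y.2.2), ?_, ?_⟩
  · rintro ⟨t, i, k⟩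
    rw [aeval_X]
    have h1 : (List.ofFn (MatV b)).get (Fin.cast hlen.symm t) ∈ List.ofFn (MatV b) :=
      List.get_mem _ _
    rw [List.mem_ofFn] at h1
    obtain ⟨t', ht'⟩ := h1
    rw [← ht']
    exact isHomogeneous_walk b t' i k
  · rw [aeval_IMM _ hlen]
    rfl

lemma sum_bd_prsU (k : ℕ) : ((prsU k).map fun d => bd d.1).sum = (k, k) := by
  induction k with
  | zero => rfl
  | succ k ih =>
    show (((true, false) :: (false, false) :: prsU k).map fun d => bd d.1).sum = _
    rw [List.map_cons, List.sum_cons, List.map_cons, List.sum_cons, ih]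
    unfold bd
    simp only [if_true]
    refine Prod.ext ?_ ?_ <;> simp <;> omega

lemma length_prsU (k : ℕ) : (prsU k).length = 2 * k := by
  induction k with
  | zero => rfl
  | succ k ih =>
    show ((true, false) :: (false, false) :: prsU k).length = _
    rw [List.length_cons, List.length_cons, ih]
    omega

lemma sum_bd_blkU (k : ℕ) : ((blkU k).map fun d => bd d.1).sum = (k + 5 + 1, k + 5) := by
  unfold blkU
  rw [List.map_append, List.sum_append, List.map_append, List.sum_append, sum_bd_prsU]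
  unfold bd
  refine Prod.ext ?_ ?_
  · simp
  · simp
    omega

lemma length_blkU (k : ℕ) : (blkU k).length = 2 * (k + 5) + 1 := by
  unfold blkU
  rw [List.length_append, List.length_append, length_prsU]
  simp
  omega

lemma sum_bd_blocksU (ks : List ℕ) :
    ((ks.map blkU).flatten.map fun d => bd d.1).sum
      = ((ks.map (· + 5)).sum + ks.length, (ks.map (· + 5)).sum) := by
  induction ks with
  | nil => rfl
  | cons k ks ih =>
    rw [List.map_cons, List.flatten_cons, List.map_append, List.sum_append, ih, sum_bd_blkU,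
      List.map_cons, List.sum_cons, List.length_cons]
    refine Prod.ext ?_ ?_
    · show k + 5 + 1 + ((ks.map (· + 5)).sum + ks.length)
        = k + 5 + (ks.map (· + 5)).sum + (ks.length + 1)
      omega
    · rfl

lemma length_blocksU (ks : List ℕ) :
    ((ks.map blkU).flatten).length = 2 * (ks.map (· + 5)).sum + ks.length := by
  induction ks with
  | nil => rfl
  | cons k ks ih =>
    rw [List.map_cons, List.flatten_cons, List.length_append, ih, length_blkU, List.map_cons,
      List.sum_cons, List.length_cons]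
    omega

theorem core1 [Infinite K] {y κ : ℝ} (hy : 10 ≤ y) (hκ : 1 ≤ κ) (hκ2 : κ ^ 2 ≤ 2) {a M Q : ℕ}
    (ha : κ ^ a ≤ y) (hn : ((v + 1 : ℕ) : ℝ) = y ^ 42) (ks : List ℕ)
    (hQ : (ks.map (· + 5)).sum = Q) (hlen : 2 * Q + ks.length = v + 1)
    (hbal : (y ^ 3) ^ (Q + ks.length) = (κ * y ^ 3) ^ Q) (hMn : 2 * (v + 1) < M * (a + 1))
    (hk : ∀ k ∈ ks, (κ ^ 2) ^ (k + 5) ≤ 2 * (y ^ 3) ^ 2 ∧ (k : ℝ) * (1 / y ^ 24) ≤ 1 / 100)
    (C : Circuit (Fin (v + 1) × Fin (v + 1) × Fin (v + 1)) K) (hC : C.IsHomogeneous)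
    (hval : C.val = IMM K (v + 1) (v + 1)) :
    (1 / 32) ^ ks.length ≤ (C.n4 * (4 ^ (M + ks.length) / (y ^ 5) ^ ks.length)
      + C.n4 * (C.n2 * (2 / y ^ 3) ^ a)) := by
  have hy0 : 0 < y := by linarith
  have hκ0 : 0 < κ := by linarith
  have hx : 0 < y ^ 3 := by positivity
  have hx' : 0 < κ * y ^ 3 := by positivity
  obtain ⟨op, hop⟩ := exists_genpos K v
  obtain ⟨M', hM'⟩ : ∃ M', M' = (ks.map blkU).flatten := ⟨_, rfl⟩
  have hML : M'.length = v + 1 := by rw [hM', length_blocksU, hQ, hlen]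
  obtain ⟨φ, hφ1, hφ2⟩ := exists_projU (fun t : Fin M'.length => famV op (M'.get t).2) hML
  have hwx : 0 < 1 / (y ^ 3) ^ 2 := by positivity
  have hwy : 0 < (κ * y ^ 3) ^ 2 := by positivity
  have hD : (1000 : ℝ) ≤ (y ^ 3) ^ 2 := by
    calc (1000 : ℝ) ≤ (10 ^ 3) ^ 2 := by norm_num
      _ ≤ (y ^ 3) ^ 2 := by gcongr
  have hnD : (v + 1 : ℝ) = ((y ^ 3) ^ 2) ^ 7 := by
    have h1 : ((y ^ 3) ^ 2) ^ 7 = y ^ 42 := by ring
    rw [h1, ← hn]
    push_cast
    ring
  have hblk := blocks_bound (K := K) hop hD hnD (one_le_pow₀ hκ : 1 ≤ κ ^ 2) hκ2 ks (by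
    intro k hkk
    obtain ⟨h1, h2⟩ := hk k hkk
    refine ⟨h1, ?_⟩
    have h3 : ((y ^ 3) ^ 2) ^ 4 = y ^ 24 := by ring
    rw [h3]
    exact h2)
  rw [← mul_pow κ (y ^ 3) 2, ← hM'] at hblk
  have hlow := Hm_lower_PhN op hwx hwy M'
  have hZ : 0 < Ztot (1 / (y ^ 3) ^ 2) ((κ * y ^ 3) ^ 2) M' v := by
    unfold Ztot
    apply Finset.prod_pos
    intro b _
    have := wB_pos hwx hwy (M'.get b).1
    positivity
  set Z := Ztot (1 / (y ^ 3) ^ 2) ((κ * y ^ 3) ^ 2) M' v with hZdef
  set H : MvPolynomial (Fin M'.length × (Fin (v + 1) × Fin (v + 1))) K → ℝ :=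
    Hm (wtL M' v) (chw (1 / (y ^ 3) ^ 2) ((κ * y ^ 3) ^ 2)) with hH
  have hmeas : IsMeas H (wtL M' v) (y ^ 3) (κ * y ^ 3) Z := isMeas_Hm hx hx'
  have hsub : SubAdd H := subAdd_Hm hwx.le hwy.le
  have hF : IsWeightedHomogeneous (wtL M' v) (φ C.val) (Q + ks.length, Q) := by
    rw [hval, hφ2]
    have h1 := FV_bihom (v := v) (fun t : Fin M'.length => famV op (M'.get t).2)
    have h2 : ((M'.map fun d => bd d.1).sum) = (Q + ks.length, Q) := by
      rw [hM', sum_bd_blocksU, hQ]
    rw [h2] at h1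
    exact h1
  have hhom : (φ C.val).IsHomogeneous (v + 1) := by
    rw [hval, hφ2, ← hML]
    exact FV_homog _
  have hlow2 : (1 / 32) ^ ks.length * Z
      ≤ H (FV (fun t : Fin M'.length => famV op (M'.get t).2)) :=
    (mul_le_mul_of_nonneg_right hblk hZ.le).trans hlow
  have hne : φ C.val ≠ 0 := by
    intro h0
    rw [hval, hφ2] at h0
    rw [h0, hmeas.zero] at hlow2
    have : 0 < (1 / 32 : ℝ) ^ ks.length * Z := by positivity
    linarith
  have hup := circuit_upper1 (by linarith) hκ hmeas hsub (fun i => bd_cases _) hZ.le ha C hC φ hφ1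
    hhom hF (by omega) (by omega) hbal hMn hne
  rw [hval, hφ2, Nat.add_sub_cancel_left] at hup
  exact le_of_mul_le_mul_right (hlow2.trans hup) hZ

end Vale.Agent.P346
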