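import Vale.Agent.P346.UCore
import Vale.Agent.P346.Final0

/-!
The choice of the parameters over an infinite field.
-/

namespace Vale.Agent.P346

open Finset MvPolynomial

/-- Bounds for the numbers of blocks and pairs. -/
lemma BQ_boundsU {n : ℕ} {z : ℝ} (hz5 : 100000 ≤ z) (hnz : (n : ℝ) = z ^ 2) {B Q : ℕ}
    (hB : B = 2 * (Nat.sqrt n / 16) + n % 2) (hQ : Q = (n - B) / 2) :
    z / 9 ≤ B ∧ (B : ℝ) ≤ z / 7 ∧ 2 * Q + B = n ∧ (Q : ℝ) ≤ z ^ 2 / 2 ∧
      0.49 * z ^ 2 ≤ (Q : ℝ) := by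
  set r := Nat.sqrt n with hr
  have h1 : (r : ℝ) ≤ z := by
    have := Nat.sqrt_le' n
    have h2 : ((r : ℝ)) ^ 2 ≤ z ^ 2 := by
      rw [← hnz]
      exact_mod_cast this
    exact le_of_sq_le_sq h2 (by linarith)
  have h2 : z < r + 1 := by
    have := Nat.lt_succ_sqrt' n
    have h3 : z ^ 2 < ((r : ℝ) + 1) ^ 2 := by
      rw [← hnz]
      exact_mod_cast this
    exact lt_of_pow_lt_pow_left₀ 2 (by positivity) h3
  have h3 : n % 2 < 2 := Nat.mod_lt _ (by norm_num)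
  have h4 := Nat.div_add_mod r 16
  have h5 : r % 16 < 16 := Nat.mod_lt _ (by norm_num)
  have hB1 : 8 * B ≤ r + 8 := by omega
  have hB2 : r ≤ 8 * B + 15 := by omega
  have hB1' : 8 * (B : ℝ) ≤ r + 8 := by exact_mod_cast hB1
  have hB2' : (r : ℝ) ≤ 8 * B + 15 := by exact_mod_cast hB2
  have hBu : (B : ℝ) ≤ z / 7 := by linarith
  have hBl : z / 9 ≤ B := by linarith
  have hzz : z * 100000 ≤ z ^ 2 := by nlinarith
  have hBn : B ≤ n := by
    have : (B : ℝ) ≤ n := by rw [hnz]; linarith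
    exact_mod_cast this
  have hQB : 2 * Q + B = n := by omega
  have hQB' : 2 * (Q : ℝ) + B = z ^ 2 := by
    rw [← hnz]
    exact_mod_cast hQB
  refine ⟨hBl, hBu, hQB, ?_, ?_⟩
  · have : (0 : ℝ) ≤ B := Nat.cast_nonneg _
    linarith
  · linarith

/-- The parameters of the construction. -/
lemma paramsU {n : ℕ} {y : ℝ} (hy : 10 ≤ y) (hn : (n : ℝ) = y ^ 42) {B Q a : ℕ}
    (hB : B = 2 * (Nat.sqrt n / 16) + n % 2) (hQ : Q = (n - B) / 2) (ha : a = Q / (3 * B)) :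
    ∃ κ : ℝ, 1 ≤ κ ∧ κ ^ a ≤ y ∧ 0 < B ∧ 2 * Q + B = n ∧
      (y ^ 3) ^ (Q + B) = (κ * y ^ 3) ^ Q ∧ κ ^ 2 ≤ 2 ∧ 6 * B ≤ Q ∧
      (∀ q ≤ Q / B + 1, (κ ^ 2) ^ q ≤ 2 * (y ^ 3) ^ 2 ∧ (q : ℝ) * (1 / y ^ 24) ≤ 1 / 100) := by
  have hy0 : 0 < y := by linarith
  obtain ⟨z, hz⟩ : ∃ z : ℝ, z = y ^ 21 := ⟨_, rfl⟩
  have hzy : y ^ 5 * y ≤ z := by
    have h1 : y ^ 5 * y = y ^ 6 := by ring
    rw [hz, h1]
    exact pow_le_pow_right₀ (by linarith) (by norm_num)
  have hy5 : (100000 : ℝ) ≤ y ^ 5 := by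
    calc (100000 : ℝ) = 10 ^ 5 := by norm_num
      _ ≤ y ^ 5 := pow_le_pow_left₀ (by norm_num) hy 5
  have hz5 : 100000 ≤ z := by nlinarith
  have hz0 : 0 < z := by linarith
  have hnz : (n : ℝ) = z ^ 2 := by rw [hn, hz]; ring
  obtain ⟨hB1, hB2, hQB, hQ1, hQ2⟩ := BQ_boundsU hz5 hnz hB hQ
  obtain ⟨ℓ, hℓ⟩ : ∃ ℓ : ℝ, ℓ = Real.log y := ⟨_, rfl⟩
  have hyℓ : Real.exp ℓ = y := by rw [hℓ, Real.exp_log hy0]
  have hℓ0 : 0 ≤ ℓ := by
    rw [hℓ]
    exact Real.log_nonneg (by linarith)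
  have hℓ2 : ℓ ≤ y := by
    rw [hℓ]
    exact (Real.log_le_sub_one_of_pos hy0).trans (by linarith)
  have hB0' : (0 : ℝ) < B := by
    have : 0 < z / 9 := by positivity
    linarith
  have hz2 : 0 < z ^ 2 := by positivity
  have hQ0' : (0 : ℝ) < Q := by linarith
  have hB0 : 0 < B := by exact_mod_cast hB0'
  have hQ0 : 0 < Q := by exact_mod_cast hQ0'
  have h6B : 6 * B ≤ Q := by
    have h1 : 6 * (B : ℝ) ≤ Q := by nlinarith
    exact_mod_cast h1
  obtain ⟨t, ht⟩ : ∃ t : ℝ, t = 6 * B * ℓ / Q := ⟨_, rfl⟩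
  have ht0 : 0 ≤ t := by rw [ht]; positivity
  have t2 : t ≤ 1 / 2 := by
    rw [ht, div_le_iff₀ hQ0']
    have h1 : B * ℓ ≤ z / 7 * y := mul_le_mul hB2 hℓ2 hℓ0 (by positivity)
    have h2 : z / 7 * y * 1000 ≤ z ^ 2 := by
      have h3 : y * 1000 ≤ z := by nlinarith
      nlinarith
    linarith
  have htQ : t * Q = 6 * B * ℓ := by
    rw [ht]
    field_simp
  have hsq : Real.exp (t / 2) ^ 2 = Real.exp t := by
    rw [← Real.exp_nat_mul]
    congr 1
    push_cast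
    ring
  refine ⟨Real.exp (t / 2), ?_, ?_, hB0, hQB, ?_, ?_, h6B, ?_⟩
  · exact Real.one_le_exp (by linarith)
  · rw [← Real.exp_nat_mul, ← hyℓ]
    apply Real.exp_le_exp.2
    have h1 : a * (3 * B) ≤ Q := by
      rw [ha]
      exact Nat.div_mul_le_self _ _
    have h2 : (a : ℝ) * (3 * B) ≤ Q := by exact_mod_cast h1
    have h3 : (a : ℝ) * (t / 2) * Q = a * (3 * B) * ℓ := by
      calc (a : ℝ) * (t / 2) * Q = a / 2 * (t * Q) := by ring
        _ = _ := by rw [htQ]; ring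
    have h4 : (a : ℝ) * (t / 2) * Q ≤ ℓ * Q := by
      rw [h3]
      have := mul_le_mul_of_nonneg_right h2 hℓ0
      linarith
    exact le_of_mul_le_mul_right h4 hQ0'
  · rw [mul_pow, ← Real.exp_nat_mul, pow_add]
    have h1 : (Q : ℝ) * (t / 2) = (3 * B : ℕ) * ℓ := by
      push_cast
      calc (Q : ℝ) * (t / 2) = t * Q / 2 := by ring
        _ = _ := by rw [htQ]; ring
    rw [h1, Real.exp_nat_mul, hyℓ, ← pow_mul y 3 B, mul_comm]
  · rw [hsq]
    exact (Real.exp_le_exp.2 t2).trans exp_half_le_two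
  · intro q hq
    constructor
    · have h1 : (Real.exp (t / 2) ^ 2) ^ q ≤ (Real.exp (t / 2) ^ 2) ^ (Q / B + 1) := by
        apply pow_le_pow_right₀ _ hq
        rw [hsq]
        exact Real.one_le_exp ht0
      refine h1.trans ?_
      rw [hsq, pow_succ, ← Real.exp_nat_mul]
      have h2 : ((Q / B : ℕ) : ℝ) * t ≤ 6 * ℓ := by
        have h3 : ((Q / B : ℕ) : ℝ) * B ≤ Q := by exact_mod_cast Nat.div_mul_le_self Q B
        have h4 : ((Q / B : ℕ) : ℝ) * t * Q ≤ 6 * ℓ * Q := by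
          calc ((Q / B : ℕ) : ℝ) * t * Q = ((Q / B : ℕ) : ℝ) * (t * Q) := by ring
            _ = (((Q / B : ℕ) : ℝ) * B) * (6 * ℓ) := by rw [htQ]; ring
            _ ≤ Q * (6 * ℓ) := mul_le_mul_of_nonneg_right h3 (by linarith)
            _ = _ := by ring
        exact le_of_mul_le_mul_right h4 hQ0'
      have h5 : Real.exp (((Q / B : ℕ) : ℝ) * t) ≤ (y ^ 3) ^ 2 := by
        have h6 : (y ^ 3) ^ 2 = Real.exp (6 * ℓ) := by
          rw [← pow_mul, ← hyℓ, ← Real.exp_nat_mul]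
          norm_num
        rw [h6]
        exact Real.exp_le_exp.2 h2
      have h7 : Real.exp t ≤ 2 := (Real.exp_le_exp.2 t2).trans exp_half_le_two
      have h8 := mul_le_mul h5 h7 (Real.exp_pos t).le (by positivity)
      linarith
    · have h1 : (q : ℝ) ≤ ((Q / B : ℕ) : ℝ) + 1 := by exact_mod_cast hq
      have h2 : ((Q / B : ℕ) : ℝ) ≤ Q / B := Nat.cast_div_le
      have h3 : (Q : ℝ) / B ≤ 9 / 2 * z := by
        rw [div_le_iff₀ hB0']
        have h4 : 9 / 2 * z * (z / 9) ≤ 9 / 2 * z * B :=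
          mul_le_mul_of_nonneg_left hB1 (by positivity)
        have h5 : 9 / 2 * z * (z / 9) = z ^ 2 / 2 := by ring
        linarith
      have h6 : (q : ℝ) ≤ 10 * y ^ 21 := by
        rw [← hz]
        linarith
      rw [mul_one_div, div_le_div_iff₀ (by positivity) (by norm_num)]
      have h7 : (1000 : ℝ) ≤ y ^ 3 := by
        calc (1000 : ℝ) = 10 ^ 3 := by norm_num
          _ ≤ y ^ 3 := pow_le_pow_left₀ (by norm_num) hy 3
      have h8 : y ^ 24 = y ^ 3 * y ^ 21 := by ring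
      rw [h8]
      have h9 : 1000 * y ^ 21 ≤ y ^ 3 * y ^ 21 := mul_le_mul_of_nonneg_right h7 (by positivity)
      linarith

lemma case_oneU {L x b : ℝ} (hL : 1000 ≤ L) (hx : 1000 ≤ x) (hb : x / 8 - 3 ≤ b) :
    42 * L * x / 100 ≤ (5 * L - 32) * b - 1 := by
  have h1 : (5 * L - 32) * (x / 8 - 3) ≤ (5 * L - 32) * b :=
    mul_le_mul_of_nonneg_left hb (by linarith)
  have h2 : 1000 * x ≤ L * x := mul_le_mul_of_nonneg_right hL (by linarith)
  have h3 : L * 1000 ≤ L * x := mul_le_mul_of_nonneg_left hx (by linarith)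
  linarith

lemma case_twoU {L x b a : ℝ} (hL : 1000 ≤ L) (hx : 1000 ≤ x) (hb : b ≤ x / 8 + 1)
    (ha : 4 / 3 * x - 12 ≤ a) :
    42 * L * x / 100 + 42 * L * x / 100 ≤ (3 * L - 1) * a - 4 * b - 1 := by
  have h1 : (3 * L - 1) * (4 / 3 * x - 12) ≤ (3 * L - 1) * a :=
    mul_le_mul_of_nonneg_left ha (by linarith)
  have h2 : 1000 * x ≤ L * x := mul_le_mul_of_nonneg_right hL (by linarith)
  have h3 : L * 1000 ≤ L * x := mul_le_mul_of_nonneg_left hx (by linarith)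
  linarith

/-- Bounds for the integer parameters. -/
lemma nat_partU {n B Q a : ℕ} {x : ℝ} (hx : 1000 ≤ x) (hxn : x ^ 2 = n)
    (hB : B = 2 * (Nat.sqrt n / 16) + n % 2) (hQ : Q = (n - B) / 2) (ha : a = Q / (3 * B)) :
    (B : ℝ) ≤ x / 8 + 1 ∧ x / 8 - 3 ≤ (B : ℝ) ∧ 4 / 3 * x - 12 ≤ (a : ℝ) := by
  have hx0 : 0 ≤ x := by linarith
  obtain ⟨r, hr⟩ : ∃ r, r = Nat.sqrt n := ⟨_, rfl⟩
  have hr1 : r * r ≤ n := by rw [hr]; exact Nat.sqrt_le n
  have hr2 : n < (r + 1) * (r + 1) := by rw [hr]; exact Nat.lt_succ_sqrt n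
  have hr1' : (r : ℝ) * r ≤ x ^ 2 := by rw [hxn]; exact_mod_cast hr1
  have hr2' : x ^ 2 < ((r : ℝ) + 1) * (r + 1) := by rw [hxn]; exact_mod_cast hr2
  have hrx : (r : ℝ) ≤ x := by
    by_contra h
    push Not at h
    have : x * x < r * r := mul_self_lt_mul_self hx0 h
    nlinarith
  have hxr : x < r + 1 := by
    by_contra h
    push Not at h
    have : ((r : ℝ) + 1) * (r + 1) ≤ x * x := mul_self_le_mul_self (by positivity) h
    nlinarith
  rw [← hr] at hB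
  have hr999 : 999 ≤ r := by
    have : (999 : ℝ) < r + 1 := by linarith
    have h2 : 999 < r + 1 := by exact_mod_cast this
    omega
  have hB1 : 8 * B ≤ r + 8 := by omega
  have hB2 : r ≤ 8 * B + 15 := by omega
  have hB0 : 1 ≤ B := by omega
  have hB1' : 8 * (B : ℝ) ≤ r + 8 := by exact_mod_cast hB1
  have hB2' : (r : ℝ) ≤ 8 * B + 15 := by exact_mod_cast hB2
  refine ⟨by linarith, by linarith, ?_⟩
  have hQ2 : n ≤ 2 * Q + 1 + B := by omega
  have ha2 : Q < 3 * B * (a + 1) := by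
    rw [ha]
    exact Nat.lt_mul_div_succ Q (by omega)
  have ha3 : n ≤ 6 * B * (a + 1) + B := by
    have : 6 * B * (a + 1) = 2 * (3 * B * (a + 1)) := by ring
    omega
  have ha4 : x ^ 2 ≤ 6 * (B : ℝ) * (a + 1) + B := by
    rw [hxn]; exact_mod_cast ha3
  by_contra h
  push Not at h
  have hB3 : (B : ℝ) ≤ x / 8 + 1 := by linarith
  have ha5 : (0 : ℝ) ≤ 6 * (a + 1) + 1 := by positivity
  have h6 : x ^ 2 ≤ (x / 8 + 1) * (6 * (a + 1) + 1) := by
    calc x ^ 2 ≤ (B : ℝ) * (6 * (a + 1) + 1) := by linarith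
      _ ≤ _ := mul_le_mul_of_nonneg_right hB3 ha5
  have h7 : (x / 8 + 1) * (6 * ((a : ℝ) + 1) + 1)
      < (x / 8 + 1) * (6 * ((4 / 3 * x - 12) + 1) + 1) := by
    apply mul_lt_mul_of_pos_left _ (by linarith)
    linarith
  nlinarith

lemma half_geU : Real.exp (-1) ≤ 1 / 2 := by
  rw [Real.exp_neg]
  have := Real.add_one_le_exp (1 : ℝ)
  rw [inv_le_comm₀ (Real.exp_pos _) (by norm_num)]
  linarith

theorem final_numericU {n : ℕ} {L y s : ℝ} {B Q a : ℕ} (hL1 : 1000 ≤ L) (hyL : y = Real.exp L)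
    (hn : (n : ℝ) = y ^ 42)
    (hB : B = 2 * (Nat.sqrt n / 16) + n % 2) (hQ : Q = (n - B) / 2)
    (ha : a = Q / (3 * B)) (hs : 0 ≤ s)
    (h : (1 / 32) ^ B ≤ s * (4 ^ (13 * B + B) / (y ^ 5) ^ B) + s ^ 2 * (2 / y ^ 3) ^ a) :
    (n : ℝ) ^ (√(n : ℝ) / 100) ≤ s := by
  have hy0 : 0 < y := by rw [hyL]; exact Real.exp_pos _
  obtain ⟨x, hx⟩ : ∃ x : ℝ, x = y ^ 21 := ⟨_, rfl⟩
  have hx1 : 1000 ≤ x := by
    have h1 : x = Real.exp (21 * L) := by
      rw [hx, hyL, ← Real.exp_nat_mul]; norm_num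
    have := Real.add_one_le_exp (21 * L)
    rw [h1]; linarith
  have hxn : x ^ 2 = n := by
    rw [hn, hx]
    ring
  have hsq : √(n : ℝ) = x := by
    rw [← hxn, Real.sqrt_sq (by linarith)]
  obtain ⟨hB1, hB2, ha1⟩ := nat_partU hx1 hxn hB hQ ha
  have hn0 : (0 : ℝ) < n := by rw [← hxn]; positivity
  have hlog : Real.log n = 42 * L := by
    rw [hn, Real.log_pow, hyL, Real.log_exp]
    norm_num
  have hgoal : (n : ℝ) ^ (√(n : ℝ) / 100) = Real.exp (42 * L * x / 100) := by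
    rw [hsq, Real.rpow_def_of_pos hn0, hlog]; congr 1; ring
  rw [hgoal]
  have he1 : (2 : ℝ) ≤ Real.exp 1 := by
    have := Real.add_one_le_exp (1 : ℝ); linarith
  have he27 := Real.exp_one_gt_d9
  have h32 : (32 : ℝ) ≤ Real.exp 4 := by
    have h2 : Real.exp 4 = Real.exp 1 ^ 4 := by
      rw [← Real.exp_nat_mul]; norm_num
    have h3 : (2.7 : ℝ) ^ 4 ≤ Real.exp 1 ^ 4 :=
      pow_le_pow_left₀ (by norm_num) (by linarith) 4
    rw [h2]; norm_num at h3; linarith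
  have h4 : (4 : ℝ) ≤ Real.exp 2 := by
    have h2 : Real.exp 2 = Real.exp 1 ^ 2 := by
      rw [← Real.exp_nat_mul]; norm_num
    have h3 : (2 : ℝ) ^ 2 ≤ Real.exp 1 ^ 2 := pow_le_pow_left₀ (by norm_num) he1 2
    rw [h2]; norm_num at h3; linarith
  have hc : Real.exp (-(4 * B)) ≤ (1 / 32) ^ B := by
    have h3 : (32 : ℝ) ^ B ≤ Real.exp (4 * B) := by
      calc (32 : ℝ) ^ B ≤ (Real.exp 4) ^ B := pow_le_pow_left₀ (by positivity) h32 B
        _ = Real.exp (4 * B) := by rw [← Real.exp_nat_mul, mul_comm]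
    rw [Real.exp_neg, one_div, inv_pow]
    exact inv_anti₀ (by positivity) h3
  have h4b : (4 : ℝ) ^ (13 * B + B) ≤ Real.exp (28 * B) := by
    calc (4 : ℝ) ^ (13 * B + B) ≤ (Real.exp 2) ^ (13 * B + B) :=
          pow_le_pow_left₀ (by norm_num) h4 _
      _ = Real.exp (28 * B) := by
          rw [← Real.exp_nat_mul]
          congr 1
          push_cast
          ring
  have hy5 : (y ^ 5) ^ B = Real.exp (5 * L * B) := by
    rw [hyL, ← Real.exp_nat_mul, ← Real.exp_nat_mul]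
    congr 1
    push_cast
    ring
  have hy3 : y ^ 3 = Real.exp (3 * L) := by
    rw [hyL, ← Real.exp_nat_mul]; norm_num
  rcases le_or_gt (Real.exp (-1) * Real.exp (-(4 * B)))
    (s * (4 ^ (13 * B + B) / (y ^ 5) ^ B)) with hcase | hcase
  · have h1 : s * (4 ^ (13 * B + B) / (y ^ 5) ^ B) ≤ s * Real.exp (28 * B - 5 * L * B) := by
      apply mul_le_mul_of_nonneg_left _ hs
      rw [hy5, Real.exp_sub]
      exact div_le_div_of_nonneg_right h4b (Real.exp_pos _).le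
    have h2 := hcase.trans h1
    rw [← Real.exp_add] at h2
    have h3 : Real.exp (-1 + -(4 * B)) * Real.exp (-(28 * B - 5 * L * B)) ≤ s := by
      have h5 := mul_le_mul_of_nonneg_right h2 (Real.exp_pos (-(28 * B - 5 * L * B))).le
      rw [mul_assoc s, ← Real.exp_add (28 * B - 5 * L * B), add_neg_cancel, Real.exp_zero,
        mul_one] at h5
      exact h5
    rw [← Real.exp_add] at h3
    refine le_trans (Real.exp_le_exp.mpr ?_) h3
    have := case_oneU hL1 hx1 hB2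
    linarith
  · have hhalf : Real.exp (-1) * Real.exp (-(4 * B)) ≤ 1 / 2 * Real.exp (-(4 * B)) :=
      mul_le_mul_of_nonneg_right half_geU (Real.exp_pos _).le
    have hcase2 : Real.exp (-1) * Real.exp (-(4 * B)) ≤ s ^ 2 * (2 / y ^ 3) ^ a := by
      have := Real.exp_pos (-(4 * (B : ℝ)))
      linarith
    have h1 : (2 / y ^ 3) ^ a ≤ Real.exp (-((3 * L - 1) * a)) := by
      have h2 : 2 / y ^ 3 ≤ Real.exp (-(3 * L - 1)) := by
        rw [hy3, div_le_iff₀ (Real.exp_pos _), ← Real.exp_add]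
        have : -(3 * L - 1) + 3 * L = 1 := by ring
        rw [this]
        exact he1
      have h3 : (0 : ℝ) ≤ 2 / y ^ 3 := by positivity
      calc (2 / y ^ 3) ^ a ≤ (Real.exp (-(3 * L - 1))) ^ a := pow_le_pow_left₀ h3 h2 a
        _ = Real.exp (-((3 * L - 1) * a)) := by rw [← Real.exp_nat_mul]; congr 1; ring
    have h5 : Real.exp (-1) * Real.exp (-(4 * B)) ≤ s ^ 2 * Real.exp (-((3 * L - 1) * a)) :=
      hcase2.trans (mul_le_mul_of_nonneg_left h1 (sq_nonneg s))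
    rw [← Real.exp_add] at h5
    have h6 : Real.exp (-1 + -(4 * B)) * Real.exp ((3 * L - 1) * a) ≤ s ^ 2 := by
      have h7 := mul_le_mul_of_nonneg_right h5 (Real.exp_pos ((3 * L - 1) * a)).le
      rw [mul_assoc (s ^ 2), ← Real.exp_add (-((3 * L - 1) * a)), neg_add_cancel, Real.exp_zero,
        mul_one] at h7
      exact h7
    rw [← Real.exp_add] at h6
    have h7 : Real.exp (42 * L * x / 100) ^ 2 ≤ s ^ 2 := by
      refine le_trans ?_ h6
      rw [sq, ← Real.exp_add]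
      apply Real.exp_le_exp.mpr
      have := case_twoU hL1 hx1 hB1 ha1
      linarith
    exact (pow_le_pow_iff_left₀ (Real.exp_pos _).le hs two_ne_zero).mp h7

lemma qlist_ge {B Q q : ℕ} (hq : q ∈ qlist B Q) : Q / B ≤ q := by
  unfold qlist at hq
  rw [List.mem_append, List.mem_replicate, List.mem_replicate] at hq
  omega

theorem size_lowerInf : ∃ N₀ : ℕ, ∀ (K : Type*) [Field K] [Infinite K] (v : ℕ), N₀ ≤ v + 1 →
    ∀ C : Circuit (Fin (v + 1) × Fin (v + 1) × Fin (v + 1)) K, C.IsHomogeneous →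
      C.val = IMM K (v + 1) (v + 1) →
      ((v + 1 : ℕ) : ℝ) ^ (√((v + 1 : ℕ) : ℝ) / 100) ≤ (C.size : ℝ) := by
  refine ⟨⌈Real.exp 42000⌉₊, ?_⟩
  intro K _ _ v hv C hC hval
  have hn1 : Real.exp 42000 ≤ ((v + 1 : ℕ) : ℝ) := Nat.ceil_le.mp hv
  have hn0 : (0 : ℝ) < ((v + 1 : ℕ) : ℝ) := lt_of_lt_of_le (Real.exp_pos _) hn1
  obtain ⟨L, hL⟩ : ∃ L : ℝ, L = Real.log ((v + 1 : ℕ) : ℝ) / 42 := ⟨_, rfl⟩
  have hL1 : 1000 ≤ L := by
    have := (Real.le_log_iff_exp_le hn0).mpr hn1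
    rw [hL]; linarith
  obtain ⟨y, hyL⟩ : ∃ y : ℝ, y = Real.exp L := ⟨_, rfl⟩
  have hn : ((v + 1 : ℕ) : ℝ) = y ^ 42 := by
    rw [hyL, ← Real.exp_nat_mul, hL]
    have h1 : ((42 : ℕ) : ℝ) * (Real.log ((v + 1 : ℕ) : ℝ) / 42) = Real.log ((v + 1 : ℕ) : ℝ) := by
      push_cast
      ring
    rw [h1, Real.exp_log hn0]
  have hy10 : 10 ≤ y := by
    have := Real.add_one_le_exp L
    rw [hyL]; linarith
  have hypos : 0 < y := by linarith
  obtain ⟨B, hB⟩ : ∃ B, B = 2 * (Nat.sqrt (v + 1) / 16) + (v + 1) % 2 := ⟨_, rfl⟩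
  obtain ⟨Q, hQ⟩ : ∃ Q, Q = (v + 1 - B) / 2 := ⟨_, rfl⟩
  obtain ⟨a, ha⟩ : ∃ a, a = Q / (3 * B) := ⟨_, rfl⟩
  obtain ⟨κ, hκ1, hκa, hB0, hQB, hbal, hg2, h6B, hq⟩ := paramsU hy10 hn hB hQ ha
  have hlen := qlist_length (Q := Q) hB0
  have hsum := qlist_sum (Q := Q) hB0
  have hge5 : ∀ q ∈ qlist B Q, 5 ≤ q := by
    intro q hqm
    have h1 := qlist_ge hqm
    have h2 : 5 ≤ Q / B := by
      rw [Nat.le_div_iff_mul_le hB0]
      omega
    omega
  have hksum : (((qlist B Q).map (· - 5)).map (· + 5)).sum = Q := by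
    rw [List.map_map]
    have h1 : (qlist B Q).map ((· + 5) ∘ (· - 5)) = (qlist B Q).map id := by
      apply List.map_congr_left
      intro q hqm
      have := hge5 q hqm
      show q - 5 + 5 = q
      omega
    rw [h1, List.map_id, hsum]
  have hklen : ((qlist B Q).map (· - 5)).length = B := by rw [List.length_map, hlen]
  have hMn : 2 * (v + 1) < 13 * B * (a + 1) := by
    have ha2 : Q < 3 * B * (a + 1) := by
      rw [ha]
      exact Nat.lt_mul_div_succ Q (by omega)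
    have e1 : 3 * (13 * B * (a + 1)) = 13 * (3 * B * (a + 1)) := by ring
    omega
  have hcore := core1 (K := K) hy10 hκ1 hg2 (M := 13 * B) hκa hn ((qlist B Q).map (· - 5)) hksum
    (by rw [hklen, hQB]) (by rw [hklen]; exact hbal) hMn (by
      intro k hk
      obtain ⟨q, hqm, rfl⟩ := List.mem_map.1 hk
      have h5 := hge5 q hqm
      obtain ⟨h1, h2⟩ := hq q (qlist_le hqm)
      have e1 : q - 5 + 5 = q := by omega
      rw [e1]
      refine ⟨h1, ?_⟩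
      refine le_trans ?_ h2
      apply mul_le_mul_of_nonneg_right _ (by positivity)
      exact_mod_cast Nat.sub_le q 5) C hC hval
  rw [hklen] at hcore
  refine final_numericU hL1 hyL hn hB hQ ha (Nat.cast_nonneg _) (hcore.trans ?_)
  have hs4 : (C.n4 : ℝ) ≤ C.size := by
    unfold Circuit.size
    push_cast
    have h1 : (0 : ℝ) ≤ C.n0 := Nat.cast_nonneg _
    have h2 : (0 : ℝ) ≤ C.n1 := Nat.cast_nonneg _
    have h3 : (0 : ℝ) ≤ C.n2 := Nat.cast_nonneg _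
    have h4 : (0 : ℝ) ≤ C.n3 := Nat.cast_nonneg _
    linarith
  have hs2 : (C.n2 : ℝ) ≤ C.size := by
    unfold Circuit.size
    push_cast
    have h1 : (0 : ℝ) ≤ C.n0 := Nat.cast_nonneg _
    have h2 : (0 : ℝ) ≤ C.n1 := Nat.cast_nonneg _
    have h3 : (0 : ℝ) ≤ C.n3 := Nat.cast_nonneg _
    have h4 : (0 : ℝ) ≤ C.n4 := Nat.cast_nonneg _
    linarith
  apply add_le_add
  · exact mul_le_mul_of_nonneg_right hs4 (by positivity)
  · rw [sq, mul_assoc (C.size : ℝ)]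
    apply mul_le_mul hs4 _ (by positivity) (Nat.cast_nonneg _)
    exact mul_le_mul_of_nonneg_right hs2 (by positivity)

end Vale.Agent.P346
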