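import Vale.Agent.P346.ULead

/-!
Vectors in general position.
-/

namespace Vale.Agent.P346

open Finset

/-- Over an infinite field there are vectors in general position. -/
theorem exists_genpos (K : Type*) [Field K] [Infinite K] (v : ℕ) :
    ∃ op : Sl v → Fin (v + 1) → K, ∀ X : Finset (Sl v), X.card ≤ v + 1 →
      LinearIndependent K (fun x : X => op x.1) := by
  classical
  obtain ⟨α, hα⟩ : ∃ α : Sl v → K, Function.Injective α :=
    ⟨fun x => Infinite.natEmbedding K ((Fintype.equivFin (Sl v) x : Fin _) : ℕ), fun x y h => by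
      have h1 := (Infinite.natEmbedding K).injective h
      exact (Fintype.equivFin (Sl v)).injective (Fin.ext h1)⟩
  refine ⟨fun x i => α x ^ (i : ℕ), ?_⟩
  intro X hX
  rw [Fintype.linearIndependent_iff]
  intro g hg x0
  set p : Polynomial K := ∏ x ∈ X.erase x0.1, (Polynomial.X - Polynomial.C (α x)) with hp
  have hdeg : p.natDegree < v + 1 := by
    rw [hp, Polynomial.natDegree_prod_of_monic _ _ fun x _ => Polynomial.monic_X_sub_C _,
      Finset.sum_congr rfl fun x _ => Polynomial.natDegree_X_sub_C (α x), Finset.sum_const,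
      smul_eq_mul, mul_one, Finset.card_erase_of_mem x0.2]
    have : 0 < X.card := Finset.card_pos.2 ⟨x0.1, x0.2⟩
    omega
  have h1 : ∑ x : X, g x * p.eval (α x.1) = 0 := by
    have h2 : ∀ x : X, g x * p.eval (α x.1)
        = ∑ i : Fin (v + 1), p.coeff i * (g x * α x.1 ^ (i : ℕ)) := by
      intro x
      rw [Polynomial.eval_eq_sum_range' hdeg, Finset.mul_sum,
        Fin.sum_univ_eq_sum_range (fun i => p.coeff i * (g x * α x.1 ^ i)) (v + 1)]
      apply Finset.sum_congr rfl
      intro i _
      ring
    rw [Finset.sum_congr rfl fun x _ => h2 x, Finset.sum_comm]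
    apply Finset.sum_eq_zero
    intro i _
    rw [← Finset.mul_sum]
    have h3 := congrFun hg i
    rw [Finset.sum_apply, Pi.zero_apply] at h3
    simp only [Pi.smul_apply, smul_eq_mul] at h3
    rw [h3, mul_zero]
  rw [Finset.sum_eq_single x0] at h1
  · rcases mul_eq_zero.1 h1 with h2 | h2
    · exact h2
    · exfalso
      rw [hp, Polynomial.eval_prod, Finset.prod_eq_zero_iff] at h2
      obtain ⟨x, hx, hx2⟩ := h2
      rw [Polynomial.eval_sub, Polynomial.eval_X, Polynomial.eval_C, sub_eq_zero] at hx2
      exact (Finset.mem_erase.1 hx).1 (hα hx2).symm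
  · intro x _ hx
    have h2 : p.eval (α x.1) = 0 := by
      rw [hp, Polynomial.eval_prod]
      apply Finset.prod_eq_zero (i := x.1)
      · rw [Finset.mem_erase]
        exact ⟨fun h => hx (Subtype.ext h), x.2⟩
      · rw [Polynomial.eval_sub, Polynomial.eval_X, Polynomial.eval_C, sub_self]
    rw [h2, mul_zero]
  · intro h
    exact absurd (mem_univ _) h

end Vale.Agent.P346
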