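import Vale.Agent.P346.RankF

/-!
Leading monomials of the multiples of a product of matrices of linear forms.
-/

namespace Vale.Agent.P346

open Finset MvPolynomial

/-- The variables of a layer: a label and a slot. -/
abbrev Sl (v : ℕ) : Type := Fin (v + 1) × Fin (v + 1)

/-- The index of a variable of a layer. -/
def idxV (v : ℕ) (x : Sl v) : ℕ := (x.1 : ℕ) * (v + 1) + (v - (x.2 : ℕ))

lemma idxV_lt_of_fst {v : ℕ} {x y : Sl v} (h : x.1 < y.1) : idxV v x < idxV v y := by
  unfold idxV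
  have h1 : (x.1 : ℕ) + 1 ≤ y.1 := h
  have h2 := Nat.mul_le_mul_right (v + 1) h1
  have h3 : v - (x.2 : ℕ) < v + 1 := by omega
  rw [add_mul, one_mul] at h2
  omega

lemma idxV_lt_of_snd {v : ℕ} {x y : Sl v} (h1 : x.1 = y.1) (h : y.2 < x.2) :
    idxV v x < idxV v y := by
  unfold idxV
  rw [h1]
  have h2 : (y.2 : ℕ) < x.2 := h
  have h3 := x.2.isLt
  omega

lemma idxV_lt_cases {v : ℕ} {x y : Sl v} (h : idxV v x < idxV v y) :
    x.1 < y.1 ∨ (x.1 = y.1 ∧ y.2 < x.2) := by
  rcases lt_trichotomy x.1 y.1 with h1 | h1 | h1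
  · exact Or.inl h1
  · refine Or.inr ⟨h1, ?_⟩
    rcases lt_trichotomy x.2 y.2 with h2 | h2 | h2
    · have := idxV_lt_of_snd h1.symm h2
      omega
    · have : x = y := Prod.ext h1 h2
      rw [this] at h
      omega
    · exact h2
  · have := idxV_lt_of_fst h1
    omega

lemma idxV_inj (v : ℕ) : Function.Injective (idxV v) := by
  intro x y h
  rcases lt_trichotomy x.1 y.1 with h1 | h1 | h1
  · have := idxV_lt_of_fst h1
    omega
  · rcases lt_trichotomy x.2 y.2 with h2 | h2 | h2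
    · have := idxV_lt_of_snd h1.symm h2
      omega
    · exact Prod.ext h1 h2
    · have := idxV_lt_of_snd h1 h2
      omega
  · have := idxV_lt_of_fst h1
    omega

lemma idxV_bound {v : ℕ} (x : Sl v) : idxV v x < (v + 1) * (v + 1) := by
  unfold idxV
  have h1 : (x.1 : ℕ) + 1 ≤ v + 1 := x.1.isLt
  have h2 := Nat.mul_le_mul_right (v + 1) h1
  have h3 : v - (x.2 : ℕ) < v + 1 := by omega
  rw [add_mul, one_mul] at h2
  omega

/-- The key of a set of variables. -/
def keyV {v : ℕ} (T : Finset (Sl v)) : ℕ := ∑ x ∈ T, 2 ^ idxV v x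

lemma keyV_image {v : ℕ} (T : Finset (Sl v)) :
    keyV T = ∑ i ∈ T.image (idxV v), 2 ^ i := by
  unfold keyV
  rw [Finset.sum_image fun x _ y _ h => idxV_inj v h]

lemma keyV_inj (v : ℕ) : Function.Injective (keyV (v := v)) := by
  intro S T h
  rw [keyV_image, keyV_image] at h
  have h1 := Finset.geomSum_injective (n := 2) le_rfl h
  exact Finset.image_injective (idxV_inj v) h1

lemma keyV_lt {v : ℕ} (T : Finset (Sl v)) : keyV T < 2 ^ ((v + 1) * (v + 1)) := by
  rw [keyV_image]
  apply Nat.geomSum_lt le_rfl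
  intro k hk
  obtain ⟨x, _, rfl⟩ := Finset.mem_image.1 hk
  exact idxV_bound x

/-- The key of a family of sets. -/
def bkV {v : ℕ} : (m : ℕ) → (Fin m → Finset (Sl v)) → ℕ
  | 0, _ => 0
  | m + 1, T => keyV (T 0) * (2 ^ ((v + 1) * (v + 1))) ^ m + bkV m (fun t => T t.succ)

lemma bkV_lt {v : ℕ} : ∀ (m : ℕ) (T : Fin m → Finset (Sl v)),
    bkV m T < (2 ^ ((v + 1) * (v + 1))) ^ m := by
  intro m
  induction m with
  | zero =>
    intro T
    simp [bkV]
  | succ m ih =>
    intro T
    have h1 := ih fun t => T t.succ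
    have h2 : keyV (T 0) + 1 ≤ 2 ^ ((v + 1) * (v + 1)) := keyV_lt _
    have h3 := Nat.mul_le_mul_right ((2 ^ ((v + 1) * (v + 1))) ^ m) h2
    rw [add_mul, one_mul] at h3
    rw [pow_succ', bkV]
    omega

lemma bkV_cases {v m : ℕ} {T T' : Fin (m + 1) → Finset (Sl v)}
    (h : bkV (m + 1) T < bkV (m + 1) T') : keyV (T 0) < keyV (T' 0) ∨
      (T 0 = T' 0 ∧ bkV m (fun t => T t.succ) < bkV m (fun t => T' t.succ)) := by
  rw [bkV, bkV] at h
  rcases lt_trichotomy (keyV (T 0)) (keyV (T' 0)) with h1 | h1 | h1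
  · exact Or.inl h1
  · refine Or.inr ⟨keyV_inj v h1, ?_⟩
    rw [h1] at h
    omega
  · exfalso
    have h2 : keyV (T' 0) + 1 ≤ keyV (T 0) := h1
    have h3 := Nat.mul_le_mul_right ((2 ^ ((v + 1) * (v + 1))) ^ m) h2
    rw [add_mul, one_mul] at h3
    have h4 := bkV_lt m fun t => T' t.succ
    omega

lemma bkV_inj {v : ℕ} : ∀ m : ℕ, Function.Injective (bkV (v := v) m) := by
  intro m
  induction m with
  | zero =>
    intro T T' _
    funext t
    exact t.elim0
  | succ m ih =>
    intro T T' h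
    rw [bkV, bkV] at h
    have e1 := bkV_lt m fun t => T t.succ
    have e2 := bkV_lt m fun t => T' t.succ
    have h1 : keyV (T 0) = keyV (T' 0) := by
      rcases lt_trichotomy (keyV (T 0)) (keyV (T' 0)) with h1 | h1 | h1
      · exfalso
        have h2 : keyV (T 0) + 1 ≤ keyV (T' 0) := h1
        have h3 := Nat.mul_le_mul_right ((2 ^ ((v + 1) * (v + 1))) ^ m) h2
        rw [add_mul, one_mul] at h3
        omega
      · exact h1
      · exfalso
        have h2 : keyV (T' 0) + 1 ≤ keyV (T 0) := h1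
        have h3 := Nat.mul_le_mul_right ((2 ^ ((v + 1) * (v + 1))) ^ m) h2
        rw [add_mul, one_mul] at h3
        omega
    rw [h1] at h
    have h4 : (fun t : Fin m => T t.succ) = fun t => T' t.succ := ih (by omega)
    funext t
    refine Fin.cases ?_ (fun t => ?_) t
    · exact keyV_inj v h1
    · exact congrFun h4 t

variable {K : Type*} [Field K] {v : ℕ}

/-- The matrix of multiplication in one layer. -/
def NmV (b : Sl v → Fin (v + 1) → K) (S T : Finset (Sl v)) :
    Matrix (Fin (v + 1)) (Fin (v + 1)) K :=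
  Matrix.of fun u u' => ∑ k, if S ⊆ T ∧ {(u, k)} = T \ S then b (u, k) u' else 0

/-- The rows of the matrix of multiplication. -/
def rowV : (m : ℕ) → (Fin m → Sl v → Fin (v + 1) → K) → (Fin (v + 1) → K) →
    (Fin m → Finset (Sl v)) → (Fin m → Finset (Sl v)) → K
  | 0, _, a, _, _ => a 0
  | m + 1, b, a, S, T => rowV m (fun t => b t.succ) (Matrix.vecMul a (NmV (b 0) (S 0) (T 0)))
      (fun t => S t.succ) (fun t => T t.succ)

lemma rowV_eq : ∀ (m : ℕ) (b : Fin m → Sl v → Fin (v + 1) → K) (a : Fin (v + 1) → K)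
    (S T : Fin m → Finset (Sl v)),
    rowV m b a S T = Matrix.vecMul a (List.ofFn fun t => NmV (b t) (S t) (T t)).prod 0 := by
  intro m
  induction m with
  | zero =>
    intro b a S T
    rw [List.ofFn_zero, List.prod_nil, Matrix.vecMul_one, rowV]
  | succ m ih =>
    intro b a S T
    rw [List.ofFn_succ, List.prod_cons, ← Matrix.vecMul_vecMul, rowV, ih]

lemma rowV_add (m : ℕ) (b : Fin m → Sl v → Fin (v + 1) → K) (a a' : Fin (v + 1) → K)
    (S T : Fin m → Finset (Sl v)) :
    rowV m b (a + a') S T = rowV m b a S T + rowV m b a' S T := by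
  rw [rowV_eq, rowV_eq, rowV_eq, Matrix.add_vecMul]
  rfl

lemma rowV_smul (m : ℕ) (b : Fin m → Sl v → Fin (v + 1) → K) (c : K) (a : Fin (v + 1) → K)
    (S T : Fin m → Finset (Sl v)) :
    rowV m b (c • a) S T = c * rowV m b a S T := by
  rw [rowV_eq, rowV_eq, Matrix.smul_vecMul]
  rfl

lemma rowV_zero (m : ℕ) (b : Fin m → Sl v → Fin (v + 1) → K)
    (S T : Fin m → Finset (Sl v)) : rowV m b 0 S T = 0 := by
  rw [rowV_eq, Matrix.zero_vecMul]
  rfl

/-- Pivots of a subspace. -/
def PivV (I : Submodule K (Fin (v + 1) → K)) (u : Fin (v + 1)) : Prop :=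
  ∃ f ∈ I, f u = 1 ∧ ∀ u', u < u' → f u' = 0

/-- The label space after a layer. -/
def ITV (b : Sl v → Fin (v + 1) → K) (I : Submodule K (Fin (v + 1) → K)) (T : Finset (Sl v)) :
    Submodule K (Fin (v + 1) → K) :=
  Submodule.span K {x | ∃ u k, PivV I u ∧ (∀ k' ≤ k, (u, k') ∈ T) ∧ x = b (u, k)}

/-- The space of rows. -/
def RSV (m : ℕ) (b : Fin m → Sl v → Fin (v + 1) → K) (I : Submodule K (Fin (v + 1) → K))
    (δ : Fin m → ℕ) : Submodule K ((Fin m → Finset (Sl v)) → K) :=
  Submodule.span K {g | ∃ a ∈ I, ∃ S : Fin m → Finset (Sl v),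
    (∀ t, (S t).card + 1 = δ t) ∧ g = rowV m b a S}

/-- The leading monomials. -/
def LMV : (m : ℕ) → (Fin m → Sl v → Fin (v + 1) → K) → Submodule K (Fin (v + 1) → K) →
    (Fin m → Finset (Sl v)) → Prop
  | 0, _, I, _ => ∃ a ∈ I, a 0 ≠ 0
  | m + 1, b, I, T => LMV m (fun t => b t.succ) (ITV (b 0) I (T 0)) (fun t => T t.succ)

lemma keyV_of_sub {x y : Sl v} {T T' : Finset (Sl v)} (hx : x ∈ T)
    (h1 : T.erase x ⊆ T') (h2 : {y} = T' \ T.erase x) (hk : keyV T < keyV T') :
    idxV v x < idxV v y ∧ y ∉ T.erase x := by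
  have hy : y ∈ T' \ T.erase x := by rw [← h2]; exact mem_singleton_self y
  have hy2 := (mem_sdiff.1 hy).2
  refine ⟨?_, hy2⟩
  have e1 : keyV T = keyV (T.erase x) + 2 ^ idxV v x := by
    unfold keyV
    exact (Finset.sum_erase_add _ _ hx).symm
  have e2 : keyV T' = keyV (T.erase x) + 2 ^ idxV v y := by
    unfold keyV
    rw [← Finset.sum_sdiff h1, ← h2, Finset.sum_singleton, add_comm]
  rw [e1, e2] at hk
  exact (Nat.pow_lt_pow_iff_right (a := 2) (by norm_num)).1 (Nat.lt_of_add_lt_add_left hk)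

lemma vecMul_NmV_self (b : Sl v → Fin (v + 1) → K) {f : Fin (v + 1) → K} {x : Sl v}
    (hf : f x.1 = 1) {T : Finset (Sl v)} (hx : x ∈ T) :
    Matrix.vecMul f (NmV b (T.erase x) T) = b x := by
  funext u'
  unfold Matrix.vecMul dotProduct NmV
  simp only [Matrix.of_apply]
  have h1 : T \ T.erase x = {x} := Finset.sdiff_erase_self hx
  rw [h1, Finset.sum_eq_single x.1]
  · rw [hf, one_mul, Finset.sum_eq_single x.2]
    · rw [if_pos ⟨Finset.erase_subset _ _, rfl⟩]
    · intro k _ hk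
      rw [if_neg]
      rintro ⟨_, h2⟩
      rw [Finset.singleton_inj] at h2
      exact hk (by rw [← h2])
    · intro h
      exact absurd (mem_univ _) h
  · intro u _ hu
    rw [Finset.sum_eq_zero, mul_zero]
    intro k _
    rw [if_neg]
    rintro ⟨_, h2⟩
    rw [Finset.singleton_inj] at h2
    exact hu (by rw [← h2])
  · intro h
    exact absurd (mem_univ _) h

lemma vecMul_NmV_zero (b : Sl v → Fin (v + 1) → K) {f : Fin (v + 1) → K} {u : Fin (v + 1)}
    (hf : ∀ u', u < u' → f u' = 0) {k : Fin (v + 1)} {T T' : Finset (Sl v)}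
    (hk : ∀ k' ≤ k, (u, k') ∈ T) (hT : keyV T < keyV T') :
    Matrix.vecMul f (NmV b (T.erase (u, k)) T') = 0 := by
  funext u'
  unfold Matrix.vecMul dotProduct NmV
  simp only [Matrix.of_apply, Pi.zero_apply]
  apply Finset.sum_eq_zero
  intro w _
  by_cases hw : u < w
  · rw [hf w hw, zero_mul]
  · rw [Finset.sum_eq_zero, mul_zero]
    intro l _
    rw [if_neg]
    rintro ⟨h1, h2⟩
    obtain ⟨h3, h4⟩ := keyV_of_sub (hk k le_rfl) h1 h2 hT
    rcases idxV_lt_cases h3 with h5 | ⟨h5, h6⟩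
    · exact hw h5
    · apply h4
      have h7 : w = u := h5.symm
      subst h7
      rw [Finset.mem_erase]
      refine ⟨?_, hk l h6.le⟩
      intro h8
      rw [Prod.ext_iff] at h8
      have h9 : l = k := h8.2
      have h10 : l < k := h6
      rw [h9] at h10
      exact lt_irrefl _ h10

/-- Lifting of the elements of the row space of the last layers. -/
lemma lift_row (m : ℕ) (b : Fin (m + 1) → Sl v → Fin (v + 1) → K)
    (I : Submodule K (Fin (v + 1) → K)) (T : Finset (Sl v)) (δ : Fin (m + 1) → ℕ)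
    (hδ : δ 0 = T.card) {g : (Fin m → Finset (Sl v)) → K}
    (hg : g ∈ RSV m (fun t => b t.succ) (ITV (b 0) I T) fun t => δ t.succ) :
    ∃ G ∈ RSV (m + 1) b I δ, (∀ R, G (Fin.cons T R) = g R) ∧
      ∀ T', keyV T < keyV T' → ∀ R, G (Fin.cons T' R) = 0 := by
  unfold RSV at hg
  induction hg using Submodule.span_induction with
  | mem g hg =>
    obtain ⟨a, ha, S, hS, rfl⟩ := hg
    unfold ITV at ha
    induction ha using Submodule.span_induction with
    | mem a ha =>
      obtain ⟨u, k, ⟨f, hfI, hf1, hf2⟩, hk, rfl⟩ := ha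
      refine ⟨rowV (m + 1) b f (Fin.cons (T.erase (u, k)) S), Submodule.subset_span
        ⟨f, hfI, _, ?_, rfl⟩, ?_, ?_⟩
      · intro t
        refine Fin.cases ?_ (fun t => ?_) t
        · rw [Fin.cons_zero, Finset.card_erase_add_one (hk k le_rfl), hδ]
        · rw [Fin.cons_succ]
          exact hS t
      · intro R
        rw [rowV]
        simp only [Fin.cons_zero, Fin.cons_succ]
        rw [vecMul_NmV_self (b 0) (x := (u, k)) hf1 (hk k le_rfl)]
      · intro T' hT' R
        rw [rowV]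
        simp only [Fin.cons_zero, Fin.cons_succ]
        rw [vecMul_NmV_zero (b 0) hf2 hk hT', rowV_zero]
    | zero =>
      refine ⟨0, Submodule.zero_mem _, ?_, ?_⟩
      · intro R
        rw [rowV_zero]
        rfl
      · intro T' _ R
        rfl
    | add a a' _ _ h1 h2 =>
      obtain ⟨G1, hG1, h1a, h1b⟩ := h1
      obtain ⟨G2, hG2, h2a, h2b⟩ := h2
      refine ⟨G1 + G2, Submodule.add_mem _ hG1 hG2, ?_, ?_⟩
      · intro R
        rw [rowV_add, ← h1a, ← h2a]
        rfl
      · intro T' hT' R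
        rw [Pi.add_apply, h1b T' hT', h2b T' hT', add_zero]
    | smul c a _ h1 =>
      obtain ⟨G1, hG1, h1a, h1b⟩ := h1
      refine ⟨c • G1, Submodule.smul_mem _ _ hG1, ?_, ?_⟩
      · intro R
        rw [rowV_smul, ← h1a]
        rfl
      · intro T' hT' R
        rw [Pi.smul_apply, h1b T' hT', smul_zero]
  | zero =>
    refine ⟨0, Submodule.zero_mem _, ?_, ?_⟩
    · intro R
      rfl
    · intro T' _ R
      rfl
  | add a a' _ _ h1 h2 =>
    obtain ⟨G1, hG1, h1a, h1b⟩ := h1
    obtain ⟨G2, hG2, h2a, h2b⟩ := h2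
    refine ⟨G1 + G2, Submodule.add_mem _ hG1 hG2, ?_, ?_⟩
    · intro R
      rw [Pi.add_apply, Pi.add_apply, ← h1a, ← h2a]
    · intro T' hT' R
      rw [Pi.add_apply, h1b T' hT', h2b T' hT', add_zero]
  | smul c a _ h1 =>
    obtain ⟨G1, hG1, h1a, h1b⟩ := h1
    refine ⟨c • G1, Submodule.smul_mem _ _ hG1, ?_, ?_⟩
    · intro R
      rw [Pi.smul_apply, Pi.smul_apply, ← h1a]
    · intro T' hT' R
      rw [Pi.smul_apply, h1b T' hT', smul_zero]

/-- Every set of `LMV` is a leading monomial. -/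
theorem lead_exists : ∀ (m : ℕ) (b : Fin m → Sl v → Fin (v + 1) → K)
    (I : Submodule K (Fin (v + 1) → K)) (T : Fin m → Finset (Sl v)), LMV m b I T →
    ∃ g ∈ RSV m b I (fun t => (T t).card), g T ≠ 0 ∧ ∀ T', bkV m T < bkV m T' → g T' = 0 := by
  intro m
  induction m with
  | zero =>
    intro b I T h
    obtain ⟨a, ha, ha0⟩ := h
    refine ⟨rowV 0 b a T, Submodule.subset_span ⟨a, ha, T, fun t => t.elim0, rfl⟩, ha0, ?_⟩
    intro T' hT'
    simp [bkV] at hT'
  | succ m ih =>
    intro b I T h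
    rw [LMV] at h
    obtain ⟨g, hg, hg1, hg2⟩ := ih _ _ _ h
    obtain ⟨G, hG, hG1, hG2⟩ := lift_row m b I (T 0) (fun t => (T t).card) rfl hg
    have hc : ∀ T' : Fin (m + 1) → Finset (Sl v),
        T' = Fin.cons (T' 0) (fun t : Fin m => T' t.succ) := fun T' =>
      (Fin.cons_self_tail T').symm
    refine ⟨G, hG, ?_, ?_⟩
    · rw [hc T, hG1]
      exact hg1
    · intro T' hT'
      rcases bkV_cases hT' with h1 | ⟨h1, h2⟩
      · rw [hc T']
        exact hG2 _ h1 _
      · rw [hc T', ← h1, hG1]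
        exact hg2 _ h2

/-- Functions with distinct leading points are linearly independent. -/
lemma indep_of_lead {P ι : Type*} (key : P → ℕ) (hkey : Function.Injective key) (G : ι → P → K)
    (p : ι → P) (hp : Function.Injective p) (h1 : ∀ i, G i (p i) ≠ 0)
    (h2 : ∀ i x, key (p i) < key x → G i x = 0) : LinearIndependent K G := by
  classical
  rw [linearIndependent_iff']
  intro s c hc
  by_contra hne
  push Not at hne
  obtain ⟨i0, hi0, hci0⟩ := hne
  obtain ⟨i, hi, hmax⟩ := Finset.exists_max_image (s.filter fun i => c i ≠ 0)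
    (fun i => key (p i)) ⟨i0, Finset.mem_filter.2 ⟨hi0, hci0⟩⟩
  obtain ⟨his, hci⟩ := Finset.mem_filter.1 hi
  have h3 := congrFun hc (p i)
  rw [Finset.sum_apply, Pi.zero_apply, Finset.sum_eq_single i] at h3
  · rw [Pi.smul_apply, smul_eq_mul] at h3
    rcases mul_eq_zero.1 h3 with h4 | h4
    · exact hci h4
    · exact h1 i h4
  · intro j hj hji
    rw [Pi.smul_apply, smul_eq_mul]
    by_cases hcj : c j = 0
    · rw [hcj, zero_mul]
    · have h4 := hmax j (Finset.mem_filter.2 ⟨hj, hcj⟩)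
      have h5 : key (p j) ≠ key (p i) := fun h => hji (hp (hkey h))
      rw [h2 j (p i) (lt_of_le_of_ne h4 h5), mul_zero]
  · intro h
    exact absurd his h

end Vale.Agent.P346
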