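import Vale.Agent.P346.Defs
import Vale.Agent.P346.Exist

/-!
Extending the field of a circuit.
-/

namespace Vale.Agent.P346

open MvPolynomial

variable {V K K' : Type*} [Field K] [Field K']

/-- The circuit over a larger field. -/
def Circuit.mapK (C : Circuit V K) (f : K →+* K') : Circuit V K' where
  n0 := C.n0
  n1 := C.n1
  n2 := C.n2
  n3 := C.n3
  n4 := C.n4
  leaf := fun l => Sum.map id f (C.leaf l)
  in1 := C.in1
  co1 := fun g l => f (C.co1 g l)
  in2 := C.in2
  in3 := C.in3
  co3 := fun g l => f (C.co3 g l)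
  in4 := C.in4
  in5 := C.in5
  co5 := fun g => f (C.co5 g)

lemma Circuit.mapK_size (C : Circuit V K) (f : K →+* K') : (C.mapK f).size = C.size := rfl

lemma Circuit.mapK_leafDeg (C : Circuit V K) (f : K →+* K') (l : Fin C.n0) :
    (C.mapK f).leafDeg l = C.leafDeg l := by
  unfold Circuit.leafDeg
  show Sum.elim (fun _ => 1) (fun _ => 0) (Sum.map id f (C.leaf l)) = _
  rcases C.leaf l with v | c <;> rfl

lemma Circuit.mapK_homog (C : Circuit V K) (f : K →+* K') (hC : C.IsHomogeneous) :
    (C.mapK f).IsHomogeneous := by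
  obtain ⟨d1, d2, d3, d4, d5, h1, h2, h3, h4, h5⟩ := hC
  refine ⟨d1, d2, d3, d4, d5, ?_, h2, h3, h4, h5⟩
  intro g l hl
  exact (Circuit.mapK_leafDeg C f l).trans (h1 g l hl)

lemma smul_mapK (f : K →+* K') (c : K) {P : MvPolynomial V K} {Q : MvPolynomial V K'}
    (h : Q = MvPolynomial.map f P) : f c • Q = MvPolynomial.map f (c • P) := by
  rw [h, MvPolynomial.smul_eq_C_mul, MvPolynomial.smul_eq_C_mul, map_mul, map_C]

lemma Circuit.mapK_val0 (C : Circuit V K) (f : K →+* K') (l : Fin C.n0) :
    (C.mapK f).val0 l = MvPolynomial.map f (C.val0 l) := by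
  unfold Circuit.val0
  show Sum.elim (fun v => X v) (fun c => MvPolynomial.C c) (Sum.map id f (C.leaf l)) = _
  rcases C.leaf l with v | c
  · simp
  · simp

lemma Circuit.mapK_val1 (C : Circuit V K) (f : K →+* K') (g : Fin C.n1) :
    (C.mapK f).val1 g = MvPolynomial.map f (C.val1 g) := by
  unfold Circuit.val1
  rw [map_sum]
  exact Finset.sum_congr rfl fun l _ => smul_mapK f _ (C.mapK_val0 f l)

lemma Circuit.mapK_val2 (C : Circuit V K) (f : K →+* K') (g : Fin C.n2) :
    (C.mapK f).val2 g = MvPolynomial.map f (C.val2 g) := by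
  unfold Circuit.val2
  rw [map_multiset_prod, Multiset.map_map]
  show ((C.in2 g).map _).prod = _
  congr 1
  apply Multiset.map_congr rfl
  intro l _
  exact Circuit.mapK_val1 C f l

lemma Circuit.mapK_val3 (C : Circuit V K) (f : K →+* K') (g : Fin C.n3) :
    (C.mapK f).val3 g = MvPolynomial.map f (C.val3 g) := by
  unfold Circuit.val3
  rw [map_sum]
  exact Finset.sum_congr rfl fun l _ => smul_mapK f _ (C.mapK_val2 f l)

lemma Circuit.mapK_val4 (C : Circuit V K) (f : K →+* K') (g : Fin C.n4) :
    (C.mapK f).val4 g = MvPolynomial.map f (C.val4 g) := by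
  unfold Circuit.val4
  rw [map_multiset_prod, Multiset.map_map]
  show ((C.in4 g).map _).prod = _
  congr 1
  apply Multiset.map_congr rfl
  intro l _
  exact Circuit.mapK_val3 C f l

lemma Circuit.mapK_val (C : Circuit V K) (f : K →+* K') :
    (C.mapK f).val = MvPolynomial.map f C.val := by
  unfold Circuit.val
  rw [map_sum]
  exact Finset.sum_congr rfl fun l _ => smul_mapK f _ (C.mapK_val4 f l)

lemma map_IMM (f : K →+* K') (w d : ℕ) [NeZero w] :
    MvPolynomial.map f (IMM K w d) = IMM K' w d := by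
  unfold IMM
  have h1 : ∀ M : Matrix (Fin w) (Fin w) (MvPolynomial (Fin d × Fin w × Fin w) K),
      MvPolynomial.map f (M 0 0) = ((MvPolynomial.map f).mapMatrix M) 0 0 := fun M => rfl
  rw [h1, map_list_prod, List.map_ofFn]
  have h2 : List.ofFn (⇑((MvPolynomial.map f).mapMatrix) ∘ fun t : Fin d =>
      (Matrix.of fun i j : Fin w => (X (t, i, j) : MvPolynomial (Fin d × Fin w × Fin w) K)))
      = List.ofFn (fun t : Fin d => (Matrix.of fun i j : Fin w =>
        (X (t, i, j) : MvPolynomial (Fin d × Fin w × Fin w) K'))) := by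
    congr 1
    funext t
    refine Matrix.ext fun i j => ?_
    show MvPolynomial.map f (X (t, i, j)) = X (t, i, j)
    rw [map_X]
  rw [h2]

end Vale.Agent.P346
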