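import Vale.Agent.P346.ULead

/-!
Moments of the run lengths of a random set.
-/

namespace Vale.Agent.P346

open Finset

lemma sum_superset {σ : Type*} [Fintype σ] [DecidableEq σ] {w : ℝ} (hw : 0 ≤ w) (C : Finset σ) :
    ∑ T : Finset σ, w ^ T.card * (if C ⊆ T then 1 else 0)
      = (1 + w) ^ Fintype.card σ * (w / (1 + w)) ^ C.card := by
  have h1 := Finset.prod_add (fun _ : σ => w) (fun x : σ => if x ∈ C then (0 : ℝ) else 1)
    (univ : Finset σ)
  rw [Finset.powerset_univ] at h1
  have h2 : ∀ T : Finset σ, (∏ _i ∈ T, w) * ∏ i ∈ univ \ T, (if i ∈ C then (0 : ℝ) else 1)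
      = w ^ T.card * (if C ⊆ T then 1 else 0) := by
    intro T
    rw [Finset.prod_const]
    congr 1
    by_cases h : C ⊆ T
    · rw [if_pos h]
      apply Finset.prod_eq_one
      intro i hi
      rw [if_neg]
      intro hiC
      exact (mem_sdiff.1 hi).2 (h hiC)
    · rw [if_neg h]
      obtain ⟨i, hi1, hi2⟩ := Finset.not_subset.1 h
      apply Finset.prod_eq_zero (i := i)
      · rw [mem_sdiff]
        exact ⟨mem_univ _, hi2⟩
      · rw [if_pos hi1]
  rw [Finset.sum_congr rfl fun T _ => h2 T] at h1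
  rw [← h1]
  have h3 : ∀ i : σ, w + (if i ∈ C then (0 : ℝ) else 1)
      = (1 + w) * (if i ∈ C then w / (1 + w) else 1) := by
    intro i
    split_ifs
    · field_simp
      ring
    · ring
  rw [Finset.prod_congr rfl fun i _ => h3 i, Finset.prod_mul_distrib, Finset.prod_const, card_univ]
  congr 1
  rw [Finset.prod_ite_mem, Finset.univ_inter, Finset.prod_const]

variable {v : ℕ}

/-- An initial run of slots. -/
def crun (u k : Fin (v + 1)) : Finset (Sl v) := {u} ×ˢ Iic k

lemma crun_subset (u k : Fin (v + 1)) (T : Finset (Sl v)) :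
    crun u k ⊆ T ↔ ∀ k' ≤ k, (u, k') ∈ T := by
  unfold crun
  constructor
  · intro h k' hk'
    apply h
    rw [mem_product, mem_singleton, mem_Iic]
    exact ⟨rfl, hk'⟩
  · rintro h ⟨a, c⟩ hx
    rw [mem_product, mem_singleton, mem_Iic] at hx
    obtain ⟨rfl, h2⟩ := hx
    exact h c h2

lemma card_crun (u k : Fin (v + 1)) : (crun u k).card = (k : ℕ) + 1 := by
  unfold crun
  rw [card_product, card_singleton, Fin.card_Iic, one_mul]

lemma card_crun_union_ne {u u' : Fin (v + 1)} (h : u ≠ u') (k k' : Fin (v + 1)) :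
    (crun u k ∪ crun u' k').card = ((k : ℕ) + 1) + ((k' : ℕ) + 1) := by
  rw [card_union_of_disjoint, card_crun, card_crun]
  rw [Finset.disjoint_left]
  rintro ⟨a, c⟩ h1 h2
  unfold crun at h1 h2
  rw [mem_product, mem_singleton] at h1 h2
  exact h (h1.1.symm.trans h2.1)

lemma card_crun_union_self (u k k' : Fin (v + 1)) :
    (crun u k ∪ crun u k').card = max (k : ℕ) (k' : ℕ) + 1 := by
  have h : crun u k ∪ crun u k' = crun u (max k k') := by
    ext ⟨a, c⟩
    unfold crun
    simp only [mem_union, mem_product, mem_singleton, mem_Iic, le_max_iff]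
    tauto
  rw [h, card_crun]
  congr 1

/-- The number of pairs in the runs. -/
def runs (P : Finset (Fin (v + 1))) (T : Finset (Sl v)) : ℕ :=
  ((P ×ˢ (univ : Finset (Fin (v + 1)))).filter fun x => crun x.1 x.2 ⊆ T).card

lemma runs_eq (P : Finset (Fin (v + 1))) (T : Finset (Sl v)) :
    (runs P T : ℝ) = ∑ u ∈ P, ∑ k, if crun u k ⊆ T then (1 : ℝ) else 0 := by
  unfold runs
  rw [Finset.card_filter]
  push_cast
  rw [Finset.sum_product]

/-- The mean of a run length. -/
noncomputable def muV (p : ℝ) (n : ℕ) : ℝ := ∑ k ∈ range n, p ^ (k + 1)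

/-- The second moment of a run length. -/
noncomputable def nuV (p : ℝ) (n : ℕ) : ℝ := ∑ k ∈ range n, ∑ l ∈ range n, p ^ (max k l + 1)

lemma muV_eq {w : ℝ} (hw : 0 ≤ w) (n : ℕ) :
    muV (w / (1 + w)) n = w * (1 - (w / (1 + w)) ^ n) := by
  unfold muV
  induction n with
  | zero => simp
  | succ n ih =>
    rw [Finset.sum_range_succ, ih]
    have h1 : w * (w / (1 + w)) ^ n = (1 + w) * (w / (1 + w)) ^ (n + 1) := by
      rw [pow_succ]
      field_simp
    have h2 : w * (w / (1 + w)) ^ (n + 1) = (1 + w) * (w / (1 + w)) ^ (n + 1)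
        - (w / (1 + w)) ^ (n + 1) := by ring
    rw [mul_sub, mul_one, mul_sub, mul_one, h1, h2]
    ring

lemma nuV_eq {w : ℝ} (hw : 0 ≤ w) (n : ℕ) :
    nuV (w / (1 + w)) n + (w / (1 + w)) ^ (n + 1) * ((1 + w) * (2 * n + 1 + 2 * w))
      = w + 2 * w ^ 2 := by
  induction n with
  | zero =>
    unfold nuV
    simp
    field_simp
  | succ n ih =>
    have h1 : nuV (w / (1 + w)) (n + 1)
        = nuV (w / (1 + w)) n + (2 * n + 1) * (w / (1 + w)) ^ (n + 1) := by
      unfold nuV
      rw [Finset.sum_range_succ]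
      have h2 : ∀ k ∈ range n, ∑ l ∈ range (n + 1), (w / (1 + w)) ^ (max k l + 1)
          = ∑ l ∈ range n, (w / (1 + w)) ^ (max k l + 1) + (w / (1 + w)) ^ (n + 1) := by
        intro k hk
        rw [Finset.sum_range_succ, max_eq_right (mem_range.1 hk).le]
      have h3 : ∑ l ∈ range (n + 1), (w / (1 + w)) ^ (max n l + 1)
          = (n + 1) * (w / (1 + w)) ^ (n + 1) := by
        rw [Finset.sum_congr rfl fun l hl => by
          rw [max_eq_left (Nat.lt_succ_iff.1 (mem_range.1 hl))], Finset.sum_const, card_range,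
          nsmul_eq_mul]
        push_cast
        ring
      rw [Finset.sum_congr rfl h2, h3, Finset.sum_add_distrib, Finset.sum_const, card_range,
        nsmul_eq_mul]
      ring
    rw [h1, ← ih]
    have h4 : (w / (1 + w)) ^ (n + 1 + 1) * (1 + w) = w * (w / (1 + w)) ^ (n + 1) := by
      rw [pow_succ]
      field_simp
    push_cast
    calc nuV (w / (1 + w)) n + (2 * n + 1) * (w / (1 + w)) ^ (n + 1)
        + (w / (1 + w)) ^ (n + 1 + 1) * ((1 + w) * (2 * (n + 1) + 1 + 2 * w))
        = nuV (w / (1 + w)) n + (2 * n + 1) * (w / (1 + w)) ^ (n + 1)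
        + (w / (1 + w)) ^ (n + 1 + 1) * (1 + w) * (2 * (n + 1) + 1 + 2 * w) := by ring
      _ = _ := by rw [h4]; ring

lemma nuV_le {w : ℝ} (hw : 0 ≤ w) (n : ℕ) : nuV (w / (1 + w)) n ≤ w + 2 * w ^ 2 := by
  rw [← nuV_eq hw n]
  have : 0 ≤ (w / (1 + w)) ^ (n + 1) * ((1 + w) * (2 * n + 1 + 2 * w)) := by positivity
  linarith

lemma muV_nonneg {w : ℝ} (hw : 0 ≤ w) (n : ℕ) : 0 ≤ muV (w / (1 + w)) n :=
  Finset.sum_nonneg fun _ _ => by positivity

lemma muV_le {w : ℝ} (hw : 0 ≤ w) (n : ℕ) : muV (w / (1 + w)) n ≤ w := by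
  rw [muV_eq hw]
  have h1 : 0 ≤ (w / (1 + w)) ^ n := by positivity
  nlinarith

lemma sum_runs {w : ℝ} (hw : 0 ≤ w) (P : Finset (Fin (v + 1))) :
    ∑ T : Finset (Sl v), w ^ T.card * (runs P T : ℝ)
      = (1 + w) ^ ((v + 1) * (v + 1)) * (P.card * muV (w / (1 + w)) (v + 1)) := by
  have h1 : ∀ T : Finset (Sl v), w ^ T.card * (runs P T : ℝ)
      = ∑ u ∈ P, ∑ k, w ^ T.card * (if crun u k ⊆ T then (1 : ℝ) else 0) := by
    intro T
    rw [runs_eq, Finset.mul_sum]
    apply Finset.sum_congr rfl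
    intro u _
    rw [Finset.mul_sum]
  rw [Finset.sum_congr rfl fun T _ => h1 T, Finset.sum_comm]
  have h2 : ∀ u ∈ P, ∑ T : Finset (Sl v), ∑ k, w ^ T.card * (if crun u k ⊆ T then (1 : ℝ) else 0)
      = (1 + w) ^ ((v + 1) * (v + 1)) * muV (w / (1 + w)) (v + 1) := by
    intro u _
    rw [Finset.sum_comm]
    have h3 : ∀ k : Fin (v + 1), ∑ T : Finset (Sl v),
        w ^ T.card * (if crun u k ⊆ T then (1 : ℝ) else 0)
        = (1 + w) ^ ((v + 1) * (v + 1)) * (w / (1 + w)) ^ ((k : ℕ) + 1) := by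
      intro k
      rw [sum_superset hw, card_crun, Fintype.card_prod, Fintype.card_fin]
    rw [Finset.sum_congr rfl fun k _ => h3 k, ← Finset.mul_sum]
    congr 1
    unfold muV
    exact Fin.sum_univ_eq_sum_range (fun k => (w / (1 + w)) ^ (k + 1)) (v + 1)
  rw [Finset.sum_congr rfl h2, Finset.sum_const, nsmul_eq_mul]
  ring

lemma sum_runs_sq {w : ℝ} (hw : 0 ≤ w) (P : Finset (Fin (v + 1))) :
    ∑ T : Finset (Sl v), w ^ T.card * (runs P T : ℝ) ^ 2
      ≤ (1 + w) ^ ((v + 1) * (v + 1)) * ((P.card : ℝ) ^ 2 * muV (w / (1 + w)) (v + 1) ^ 2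
        + P.card * nuV (w / (1 + w)) (v + 1)) := by
  have hp : 0 ≤ w / (1 + w) := by positivity
  have h1 : ∀ T : Finset (Sl v), w ^ T.card * (runs P T : ℝ) ^ 2
      = ∑ u ∈ P, ∑ u' ∈ P, ∑ k, ∑ k', w ^ T.card
        * (if crun u k ∪ crun u' k' ⊆ T then (1 : ℝ) else 0) := by
    intro T
    rw [runs_eq, sq, Finset.sum_mul_sum, Finset.mul_sum]
    apply Finset.sum_congr rfl
    intro u _
    rw [Finset.mul_sum]
    apply Finset.sum_congr rfl
    intro u' _
    rw [Finset.sum_mul_sum, Finset.mul_sum]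
    apply Finset.sum_congr rfl
    intro k _
    rw [Finset.mul_sum]
    apply Finset.sum_congr rfl
    intro k' _
    congr 1
    by_cases h2 : crun u k ⊆ T
    · by_cases h3 : crun u' k' ⊆ T
      · rw [if_pos h2, if_pos h3, if_pos (union_subset h2 h3), one_mul]
      · rw [if_pos h2, if_neg h3, if_neg fun h => h3 (subset_union_right.trans h), mul_zero]
    · rw [if_neg h2, if_neg fun h => h2 (subset_union_left.trans h), zero_mul]
  rw [Finset.sum_congr rfl fun T _ => h1 T, Finset.sum_comm]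
  set μ := muV (w / (1 + w)) (v + 1) with hμ
  set ν := nuV (w / (1 + w)) (v + 1) with hν
  have hν0 : 0 ≤ ν := by
    rw [hν]
    unfold nuV
    exact Finset.sum_nonneg fun _ _ => Finset.sum_nonneg fun _ _ => by positivity
  have h2 : ∀ u ∈ P, ∑ T : Finset (Sl v), ∑ u' ∈ P, ∑ k, ∑ k', w ^ T.card
        * (if crun u k ∪ crun u' k' ⊆ T then (1 : ℝ) else 0)
      ≤ (1 + w) ^ ((v + 1) * (v + 1)) * (P.card * μ ^ 2 + ν) := by
    intro u hu
    rw [Finset.sum_comm]
    have h3 : ∀ u' ∈ P, ∑ T : Finset (Sl v), ∑ k, ∑ k', w ^ T.card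
        * (if crun u k ∪ crun u' k' ⊆ T then (1 : ℝ) else 0)
        ≤ (1 + w) ^ ((v + 1) * (v + 1)) * (μ ^ 2 + if u' = u then ν else 0) := by
      intro u' _
      have h4 : ∑ T : Finset (Sl v), ∑ k, ∑ k', w ^ T.card
          * (if crun u k ∪ crun u' k' ⊆ T then (1 : ℝ) else 0)
          = ∑ k, ∑ k', (1 + w) ^ ((v + 1) * (v + 1))
            * (w / (1 + w)) ^ (crun u k ∪ crun u' k').card := by
        rw [Finset.sum_comm]
        apply Finset.sum_congr rfl
        intro k _
        rw [Finset.sum_comm]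
        apply Finset.sum_congr rfl
        intro k' _
        rw [sum_superset hw, Fintype.card_prod, Fintype.card_fin]
      rw [h4]
      by_cases h : u' = u
      · subst h
        rw [if_pos rfl]
        have h5 : ∑ k : Fin (v + 1), ∑ k' : Fin (v + 1), (1 + w) ^ ((v + 1) * (v + 1))
            * (w / (1 + w)) ^ (crun u' k ∪ crun u' k').card
            = (1 + w) ^ ((v + 1) * (v + 1)) * ν := by
          rw [hν]
          unfold nuV
          rw [Finset.mul_sum, ← Fin.sum_univ_eq_sum_range (fun k => (1 + w) ^ ((v + 1) * (v + 1))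
            * ∑ l ∈ range (v + 1), (w / (1 + w)) ^ (max k l + 1)) (v + 1)]
          apply Finset.sum_congr rfl
          intro k _
          rw [Finset.mul_sum, ← Fin.sum_univ_eq_sum_range (fun l =>
            (1 + w) ^ ((v + 1) * (v + 1)) * (w / (1 + w)) ^ (max (k : ℕ) l + 1)) (v + 1)]
          apply Finset.sum_congr rfl
          intro k' _
          rw [card_crun_union_self]
        rw [h5]
        apply mul_le_mul_of_nonneg_left _ (by positivity)
        have : 0 ≤ μ ^ 2 := sq_nonneg _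
        linarith
      · rw [if_neg h, add_zero]
        apply le_of_eq
        have h5 : ∀ k k' : Fin (v + 1), (1 + w) ^ ((v + 1) * (v + 1))
            * (w / (1 + w)) ^ (crun u k ∪ crun u' k').card
            = (1 + w) ^ ((v + 1) * (v + 1)) * ((w / (1 + w)) ^ ((k : ℕ) + 1)
              * (w / (1 + w)) ^ ((k' : ℕ) + 1)) := by
          intro k k'
          rw [card_crun_union_ne (Ne.symm h), pow_add (w / (1 + w)) ((k : ℕ) + 1)]
        rw [Finset.sum_congr rfl fun k _ => Finset.sum_congr rfl fun k' _ => h5 k k']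
        rw [hμ]
        unfold muV
        rw [sq, ← Fin.sum_univ_eq_sum_range (fun k => (w / (1 + w)) ^ (k + 1)) (v + 1),
          Finset.sum_mul_sum, Finset.mul_sum]
        apply Finset.sum_congr rfl
        intro k _
        rw [Finset.mul_sum]
    refine (Finset.sum_le_sum h3).trans (le_of_eq ?_)
    rw [← Finset.mul_sum, Finset.sum_add_distrib, Finset.sum_const, nsmul_eq_mul,
      Finset.sum_ite_eq', if_pos hu]
  refine (Finset.sum_le_sum h2).trans (le_of_eq ?_)
  rw [Finset.sum_const, nsmul_eq_mul]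
  ring

end Vale.Agent.P346
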