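import Vale.Agent.P346.URank
import Vale.Agent.P346.UMom
import Vale.Agent.P346.UGen

/-!
The recursion for the weighted number of leading monomials.
-/

namespace Vale.Agent.P346

open Finset MvPolynomial

variable {K : Type*} [Field K] {v : ℕ}

/-- The vectors of a layer. -/
noncomputable def famV (op : Sl v → Fin (v + 1) → K) (cl : Bool) : Sl v → Fin (v + 1) → K :=
  if cl = true then (fun x => if x.2 = 0 then Pi.single 0 1 else 0) else op

open Classical in
/-- The normalised weighted number of leading monomials. -/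
noncomputable def PhN (op : Sl v → Fin (v + 1) → K) (wx wy : ℝ) :
    List (Bool × Bool) → Submodule K (Fin (v + 1) → K) → ℝ
  | [], I => if ∃ a ∈ I, a 0 ≠ 0 then 1 else 0
  | d :: L, I => (wB wx wy d.1 * (1 + wB wx wy d.1) ^ ((v + 1) * (v + 1)))⁻¹ *
      ∑ T : Finset (Sl v), wB wx wy d.1 ^ T.card * PhN op wx wy L (ITV (famV op d.2) I T)

lemma wB_pos {wx wy : ℝ} (hx : 0 < wx) (hy : 0 < wy) (c : Bool) : 0 < wB wx wy c := by
  unfold wB
  split_ifs
  · exact hx
  · exact hy

lemma PhN_nonneg (op : Sl v → Fin (v + 1) → K) {wx wy : ℝ} (hx : 0 < wx) (hy : 0 < wy)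
    (L : List (Bool × Bool)) : ∀ I, 0 ≤ PhN op wx wy L I := by
  induction L with
  | nil =>
    intro I
    rw [PhN]
    split_ifs <;> norm_num
  | cons d L ih =>
    intro I
    rw [PhN]
    have h := wB_pos hx hy d.1
    apply mul_nonneg (by positivity)
    apply Finset.sum_nonneg
    intro T _
    exact mul_nonneg (by positivity) (ih _)

open Classical in
lemma PhN_eq (op : Sl v → Fin (v + 1) → K) {wx wy : ℝ} (hx : 0 < wx) (hy : 0 < wy)
    (L : List (Bool × Bool)) : ∀ I,
    (∏ t : Fin L.length, (wB wx wy (L.get t).1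
        * (1 + wB wx wy (L.get t).1) ^ ((v + 1) * (v + 1)))) * PhN op wx wy L I
      = ∑ T : Fin L.length → Finset (Sl v),
        if LMV L.length (fun t => famV op (L.get t).2) I T then
          ∏ t, wB wx wy (L.get t).1 ^ (T t).card else 0 := by
  induction L with
  | nil =>
    intro I
    rw [PhN]
    simp only [List.length_nil, Finset.univ_eq_empty, Finset.prod_empty, one_mul]
    rw [Fintype.sum_unique]
    rfl
  | cons d L ih =>
    intro I
    have h0 := wB_pos hx hy d.1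
    have e1 : ∏ t : Fin (d :: L).length, (wB wx wy ((d :: L).get t).1
        * (1 + wB wx wy ((d :: L).get t).1) ^ ((v + 1) * (v + 1)))
        = wB wx wy d.1 * (1 + wB wx wy d.1) ^ ((v + 1) * (v + 1))
          * ∏ t : Fin L.length, (wB wx wy (L.get t).1
        * (1 + wB wx wy (L.get t).1) ^ ((v + 1) * (v + 1))) := Fin.prod_univ_succ _
    rw [e1, PhN]
    have e2 : ∑ T : Fin (d :: L).length → Finset (Sl v),
        (if LMV (d :: L).length (fun t => famV op ((d :: L).get t).2) I T then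
          ∏ t, wB wx wy ((d :: L).get t).1 ^ (T t).card else 0)
        = ∑ T0 : Finset (Sl v), ∑ T : Fin L.length → Finset (Sl v),
          wB wx wy d.1 ^ T0.card * (if LMV L.length (fun t => famV op (L.get t).2)
            (ITV (famV op d.2) I T0) T then
          ∏ t, wB wx wy (L.get t).1 ^ (T t).card else 0) := by
      show ∑ T : Fin (L.length + 1) → Finset (Sl v), _ = _
      rw [← Equiv.sum_comp (Fin.consEquiv fun _ => Finset (Sl v)), Fintype.sum_prod_type]
      apply Finset.sum_congr rfl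
      intro T0 _
      apply Finset.sum_congr rfl
      intro T _
      have h2 : (Fin.consEquiv fun _ : Fin (L.length + 1) => Finset (Sl v)) (T0, T)
          = Fin.cons T0 T := rfl
      rw [h2, mul_ite, mul_zero]
      have h3 : LMV (d :: L).length (fun t => famV op ((d :: L).get t).2) I
          (Fin.cons T0 T : Fin (L.length + 1) → Finset (Sl v))
          ↔ LMV L.length (fun t => famV op (L.get t).2) (ITV (famV op d.2) I T0) T := Iff.rfl
      have h4 : ∏ t : Fin (d :: L).length, wB wx wy ((d :: L).get t).1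
            ^ ((Fin.cons T0 T : Fin (L.length + 1) → Finset (Sl v)) t).card
          = wB wx wy d.1 ^ T0.card * ∏ t : Fin L.length, wB wx wy (L.get t).1 ^ (T t).card :=
        Fin.prod_univ_succ _
      by_cases h5 : LMV L.length (fun t => famV op (L.get t).2) (ITV (famV op d.2) I T0) T
      · rw [if_pos h5, if_pos (h3.2 h5)]
        exact h4
      · rw [if_neg h5, if_neg fun h => h5 (h3.1 h)]
    rw [e2]
    have e3 : wB wx wy d.1 * (1 + wB wx wy d.1) ^ ((v + 1) * (v + 1))
          * (∏ t : Fin L.length, (wB wx wy (L.get t).1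
        * (1 + wB wx wy (L.get t).1) ^ ((v + 1) * (v + 1)))) *
        ((wB wx wy d.1 * (1 + wB wx wy d.1) ^ ((v + 1) * (v + 1)))⁻¹ *
      ∑ T : Finset (Sl v), wB wx wy d.1 ^ T.card * PhN op wx wy L (ITV (famV op d.2) I T))
      = ∑ T : Finset (Sl v), wB wx wy d.1 ^ T.card * ((∏ t : Fin L.length, (wB wx wy (L.get t).1
        * (1 + wB wx wy (L.get t).1) ^ ((v + 1) * (v + 1)))) * PhN op wx wy L
          (ITV (famV op d.2) I T)) := by
      have h6 : wB wx wy d.1 * (1 + wB wx wy d.1) ^ ((v + 1) * (v + 1)) ≠ 0 := by positivity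
      rw [Finset.mul_sum, Finset.mul_sum]
      apply Finset.sum_congr rfl
      intro T _
      field_simp
    rw [e3]
    apply Finset.sum_congr rfl
    intro T0 _
    rw [ih, Finset.mul_sum]

/-- The measure is at least the weighted number of leading monomials. -/
theorem Hm_lower_PhN (op : Sl v → Fin (v + 1) → K) {wx wy : ℝ} (hx : 0 < wx) (hy : 0 < wy)
    (L : List (Bool × Bool)) :
    PhN op wx wy L (I0 K v) * Ztot wx wy L v
      ≤ Hm (wtL L v) (chw wx wy) (FV (fun t : Fin L.length => famV op (L.get t).2)) := by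
  classical
  have h1 := PhN_eq op hx hy L (I0 K v)
  have h2 := Hm_lower_LM (L := L) (fun t => famV op (L.get t).2) hx.le hy.le
    (univ.filter fun T => LMV L.length (fun t => famV op (L.get t).2) (I0 K v) T)
    (fun T hT => (Finset.mem_filter.1 hT).2)
  rw [Finset.sum_filter] at h2
  rw [Finset.prod_mul_distrib] at h1
  have h3 : 0 < ∏ t : Fin L.length, wB wx wy (L.get t).1 :=
    Finset.prod_pos fun t _ => wB_pos hx hy _
  have h4 : (∏ t : Fin L.length, wB wx wy (L.get t).1)
      * (PhN op wx wy L (I0 K v) * Ztot wx wy L v)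
      ≤ (∏ t : Fin L.length, wB wx wy (L.get t).1)
        * Hm (wtL L v) (chw wx wy) (FV (fun t : Fin L.length => famV op (L.get t).2)) := by
    refine le_trans (le_of_eq ?_) h2
    refine Eq.trans ?_ (Eq.trans h1 ?_)
    · unfold Ztot
      ring
    · apply Finset.sum_congr rfl
      intro T _
      congr
  exact le_of_mul_le_mul_left h4 h3

lemma card_piv (I : Submodule K (Fin (v + 1) → K)) (s : Finset (Fin (v + 1)))
    (hs : ∀ u, PivV I u → u ∈ s) : Module.finrank K I ≤ s.card := by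
  classical
  let φ : I →ₗ[K] (s → K) := (LinearMap.pi fun u : s => LinearMap.proj u.1).comp I.subtype
  have hφ : Function.Injective φ := by
    rw [← LinearMap.ker_eq_bot, LinearMap.ker_eq_bot']
    intro f hf
    by_contra hne
    have h1 : ∃ u, f.1 u ≠ 0 := by
      by_contra h
      push Not at h
      exact hne (Subtype.ext (funext h))
    obtain ⟨u0, hu0⟩ := h1
    obtain ⟨u, hu, hmax⟩ := Finset.exists_max_image (univ.filter fun u => f.1 u ≠ 0) id
      ⟨u0, Finset.mem_filter.2 ⟨mem_univ _, hu0⟩⟩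
    have hu1 : f.1 u ≠ 0 := (Finset.mem_filter.1 hu).2
    have h2 : PivV I u := by
      refine ⟨(f.1 u)⁻¹ • f.1, I.smul_mem _ f.2, ?_, ?_⟩
      · rw [Pi.smul_apply, smul_eq_mul, inv_mul_cancel₀ hu1]
      · intro u' hu'
        rw [Pi.smul_apply, smul_eq_mul]
        by_contra h3
        have h4 : f.1 u' ≠ 0 := fun h => h3 (by rw [h, mul_zero])
        have h5 := hmax u' (Finset.mem_filter.2 ⟨mem_univ _, h4⟩)
        exact absurd hu' (not_lt.2 h5)
    have h3 := congrFun hf ⟨u, hs u h2⟩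
    exact hu1 h3
  have h1 := LinearMap.finrank_le_finrank_of_injective hφ
  rw [Module.finrank_fintype_fun_eq_card, Fintype.card_coe] at h1
  exact h1

lemma exists_piv (I : Submodule K (Fin (v + 1) → K)) {j : ℕ} (hj : j ≤ Module.finrank K I) :
    ∃ P : Finset (Fin (v + 1)), P.card = j ∧ ∀ u ∈ P, PivV I u := by
  classical
  have h1 := card_piv I (univ.filter fun u => PivV I u) fun u hu =>
    Finset.mem_filter.2 ⟨mem_univ _, hu⟩
  obtain ⟨P, hP1, hP2⟩ := Finset.exists_subset_card_eq (hj.trans h1)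
  exact ⟨P, hP2, fun u hu => (Finset.mem_filter.1 (hP1 hu)).2⟩

lemma finrank_ITV {op : Sl v → Fin (v + 1) → K}
    (hop : ∀ X : Finset (Sl v), X.card ≤ v + 1 → LinearIndependent K (fun x : X => op x.1))
    (I : Submodule K (Fin (v + 1) → K)) {P : Finset (Fin (v + 1))} (hP : ∀ u ∈ P, PivV I u)
    (T : Finset (Sl v)) {r : ℕ} (hr : r ≤ runs P T) (hr2 : r ≤ v + 1) :
    r ≤ Module.finrank K (ITV op I T) := by
  obtain ⟨X, hX1, hX2⟩ := Finset.exists_subset_card_eq hr
  have h1 := hop X (by omega)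
  have h2 := finrank_span_eq_card h1
  rw [Fintype.card_coe, hX2] at h2
  rw [← h2]
  apply Submodule.finrank_mono
  rw [Submodule.span_le]
  rintro _ ⟨x, rfl⟩
  have h3 := Finset.mem_filter.1 (hX1 x.2)
  rw [mem_product, crun_subset] at h3
  exact Submodule.subset_span ⟨x.1.1, x.1.2, hP _ h3.1.1, h3.2, rfl⟩

/-- A quadratic lower bound. -/
def GoodV (op : Sl v → Fin (v + 1) → K) (wx wy : ℝ) (L : List (Bool × Bool)) (c A B : ℝ) : Prop :=
  ∀ I : Submodule K (Fin (v + 1) → K), ∀ j : ℕ, j ≤ Module.finrank K I →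
    c * (A * j - B * (j : ℝ) ^ 2) ≤ PhN op wx wy L I

lemma GoodV.mono {op : Sl v → Fin (v + 1) → K} {wx wy : ℝ} {L : List (Bool × Bool)}
    {c A B A' B' : ℝ} (h : GoodV op wx wy L c A B) (hc : 0 ≤ c) (hA : A' ≤ A) (hB : B ≤ B') :
    GoodV op wx wy L c A' B' := by
  intro I j hj
  refine le_trans ?_ (h I j hj)
  apply mul_le_mul_of_nonneg_left _ hc
  have h1 : (0 : ℝ) ≤ j := Nat.cast_nonneg _
  have h2 := mul_le_mul_of_nonneg_right hA h1
  have h3 := mul_le_mul_of_nonneg_right hB (sq_nonneg (j : ℝ))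
  linarith

theorem good_open {op : Sl v → Fin (v + 1) → K}
    (hop : ∀ X : Finset (Sl v), X.card ≤ v + 1 → LinearIndependent K (fun x : X => op x.1))
    {wx wy : ℝ} (hx : 0 < wx) (hy : 0 < wy) (d : Bool) {L : List (Bool × Bool)} {c A B ε : ℝ}
    (hc : 0 ≤ c) (hA : 0 ≤ A) (hB : 0 ≤ B) (hAB : A ≤ 2 * (v + 1) * B)
    (hε : (wB wx wy d / (1 + wB wx wy d)) ^ (v + 1) ≤ ε) (hG : GoodV op wx wy L c A B) :
    GoodV op wx wy ((d, false) :: L) c ((1 - ε) * A - (1 + 2 * wB wx wy d) * B)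
      (wB wx wy d * B) := by
  intro I j hj
  obtain ⟨P, hPj, hP⟩ := exists_piv I hj
  have hw := wB_pos hx hy d
  set w := wB wx wy d with hwdef
  rw [PhN]
  have hfam : famV op (d, false).2 = op := by
    unfold famV
    simp
  rw [hfam]
  show _ ≤ (w * (1 + w) ^ ((v + 1) * (v + 1)))⁻¹ * ∑ T : Finset (Sl v), w ^ T.card
    * PhN op wx wy L (ITV op I T)
  -- the pointwise bound
  have hT : ∀ T : Finset (Sl v), c * (A * (runs P T : ℝ) - B * (runs P T : ℝ) ^ 2)
      ≤ PhN op wx wy L (ITV op I T) := by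
    intro T
    rcases Nat.le_total (runs P T) (v + 1) with h | h
    · exact hG _ _ (finrank_ITV hop I hP T le_rfl h)
    · refine le_trans ?_ (hG _ _ (finrank_ITV hop I hP T h le_rfl))
      apply mul_le_mul_of_nonneg_left _ hc
      obtain ⟨k, hk⟩ := Nat.exists_eq_add_of_le h
      rw [hk]
      push_cast
      have hk0 : (0 : ℝ) ≤ k := Nat.cast_nonneg _
      have h1 : A * k ≤ 2 * (v + 1) * B * k := mul_le_mul_of_nonneg_right hAB hk0
      have h2 : 0 ≤ B * (k : ℝ) ^ 2 := by positivity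
      nlinarith
  have hsum : ∑ T : Finset (Sl v), w ^ T.card * (c * (A * (runs P T : ℝ)
        - B * (runs P T : ℝ) ^ 2))
      ≤ ∑ T : Finset (Sl v), w ^ T.card * PhN op wx wy L (ITV op I T) :=
    Finset.sum_le_sum fun T _ => mul_le_mul_of_nonneg_left (hT T) (by positivity)
  have hsplit : ∑ T : Finset (Sl v), w ^ T.card * (c * (A * (runs P T : ℝ)
        - B * (runs P T : ℝ) ^ 2))
      = c * (A * ∑ T : Finset (Sl v), w ^ T.card * (runs P T : ℝ)
        - B * ∑ T : Finset (Sl v), w ^ T.card * (runs P T : ℝ) ^ 2) := by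
    rw [Finset.mul_sum, Finset.mul_sum, ← Finset.sum_sub_distrib, Finset.mul_sum]
    apply Finset.sum_congr rfl
    intro T _
    ring
  have h1 := sum_runs hw.le P
  have h2 := sum_runs_sq hw.le P
  rw [hPj] at h1 h2
  have hZ : 0 < (1 + w) ^ ((v + 1) * (v + 1)) := by positivity
  set Z := (1 + w) ^ ((v + 1) * (v + 1)) with hZdef
  have hj0 : (0 : ℝ) ≤ j := Nat.cast_nonneg _
  have hμ1 : w * (1 - ε) ≤ muV (w / (1 + w)) (v + 1) := by
    rw [muV_eq hw.le]
    apply mul_le_mul_of_nonneg_left _ hw.le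
    linarith
  have hμ2 := muV_le hw.le (v + 1)
  have hμ0 := muV_nonneg hw.le (v + 1)
  have hν := nuV_le hw.le (v + 1)
  have hμ3 : muV (w / (1 + w)) (v + 1) ^ 2 ≤ w ^ 2 := pow_le_pow_left₀ hμ0 hμ2 2
  have h3 : A * (Z * (j * (w * (1 - ε)))) ≤ A * (Z * (j * muV (w / (1 + w)) (v + 1))) := by
    apply mul_le_mul_of_nonneg_left _ hA
    apply mul_le_mul_of_nonneg_left _ hZ.le
    exact mul_le_mul_of_nonneg_left hμ1 hj0
  have h4 : B * (Z * ((j : ℝ) ^ 2 * muV (w / (1 + w)) (v + 1) ^ 2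
        + j * nuV (w / (1 + w)) (v + 1)))
      ≤ B * (Z * ((j : ℝ) ^ 2 * w ^ 2 + j * (w + 2 * w ^ 2))) := by
    apply mul_le_mul_of_nonneg_left _ hB
    apply mul_le_mul_of_nonneg_left _ hZ.le
    apply add_le_add
    · exact mul_le_mul_of_nonneg_left hμ3 (by positivity)
    · exact mul_le_mul_of_nonneg_left hν hj0
  have h5 := mul_le_mul_of_nonneg_left h2 hB
  have h6 : w * Z * (((1 - ε) * A - (1 + 2 * w) * B) * j - w * B * (j : ℝ) ^ 2)
      ≤ A * ∑ T : Finset (Sl v), w ^ T.card * (runs P T : ℝ)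
        - B * ∑ T : Finset (Sl v), w ^ T.card * (runs P T : ℝ) ^ 2 := by
    rw [h1]
    have e1 : w * Z * (((1 - ε) * A - (1 + 2 * w) * B) * j - w * B * (j : ℝ) ^ 2)
        = A * (Z * (j * (w * (1 - ε)))) - B * (Z * ((j : ℝ) ^ 2 * w ^ 2
          + j * (w + 2 * w ^ 2))) := by ring
    rw [e1]
    linarith
  have h7 := mul_le_mul_of_nonneg_left h6 hc
  rw [← hsplit] at h7
  have h8 := h7.trans hsum
  have hwZ : 0 < w * Z := by positivity
  rw [inv_mul_eq_div, le_div_iff₀ hwZ]
  refine le_trans (le_of_eq ?_) h8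
  ring

lemma ITV_close (op : Sl v → Fin (v + 1) → K) (I : Submodule K (Fin (v + 1) → K))
    {u : Fin (v + 1)} (hu : PivV I u) {T : Finset (Sl v)} (hT : (u, 0) ∈ T) :
    ITV (famV op true) I T = I0 K v := by
  have hfam : famV op true = fun x : Sl v => if x.2 = 0 then Pi.single 0 1 else 0 := by
    unfold famV
    simp
  rw [hfam]
  apply le_antisymm
  · unfold ITV
    rw [Submodule.span_le]
    rintro _ ⟨u', k, _, _, rfl⟩
    show (if k = 0 then (Pi.single 0 1 : Fin (v + 1) → K) else 0) ∈ I0 K v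
    split_ifs
    · exact Submodule.mem_span_singleton_self _
    · exact Submodule.zero_mem _
  · unfold I0
    rw [Submodule.span_singleton_le_iff_mem]
    refine Submodule.subset_span ⟨u, 0, hu, ?_, ?_⟩
    · intro k' hk'
      have : k' = 0 := le_antisymm hk' (Fin.zero_le _)
      rw [this]
      exact hT
    · show _ = if (0 : Fin (v + 1)) = 0 then (Pi.single 0 1 : Fin (v + 1) → K) else 0
      rw [if_pos rfl]

lemma sum_disjoint_sets {w : ℝ} (hw : 0 ≤ w) (P : Finset (Fin (v + 1))) :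
    ∑ T : Finset (Sl v), w ^ T.card * (if ∃ u ∈ P, (u, (0 : Fin (v + 1))) ∈ T then (1 : ℝ) else 0)
      = (1 + w) ^ ((v + 1) * (v + 1)) * (1 - ((1 + w) ^ P.card)⁻¹) := by
  classical
  have h1 := Finset.prod_add (fun _ : Sl v => w) (fun _ : Sl v => (1 : ℝ)) (univ : Finset (Sl v))
  have h2 := Finset.prod_add (fun x : Sl v => if x.1 ∈ P ∧ x.2 = 0 then (0 : ℝ) else w)
    (fun _ : Sl v => (1 : ℝ)) (univ : Finset (Sl v))
  rw [Finset.powerset_univ] at h1 h2
  have e1 : ∏ _i : Sl v, (w + 1) = (1 + w) ^ ((v + 1) * (v + 1)) := by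
    rw [Finset.prod_const, card_univ, Fintype.card_prod, Fintype.card_fin, add_comm]
  have e2 : ∏ x : Sl v, ((if x.1 ∈ P ∧ x.2 = 0 then (0 : ℝ) else w) + 1)
      = (1 + w) ^ ((v + 1) * (v + 1)) * ((1 + w) ^ P.card)⁻¹ := by
    have e3 : ∀ x : Sl v, ((if x.1 ∈ P ∧ x.2 = 0 then (0 : ℝ) else w) + 1)
        = (1 + w) * (if x ∈ P ×ˢ ({0} : Finset (Fin (v + 1))) then (1 + w)⁻¹ else 1) := by
      intro x
      have e4 : x ∈ P ×ˢ ({0} : Finset (Fin (v + 1))) ↔ x.1 ∈ P ∧ x.2 = 0 := by
        rw [mem_product, mem_singleton]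
      by_cases h : x.1 ∈ P ∧ x.2 = 0
      · rw [if_pos h, if_pos (e4.2 h), mul_inv_cancel₀ (by positivity), zero_add]
      · rw [if_neg h, if_neg fun h' => h (e4.1 h')]
        ring
    rw [Finset.prod_congr rfl fun x _ => e3 x, Finset.prod_mul_distrib, Finset.prod_const,
      card_univ, Fintype.card_prod, Fintype.card_fin, Finset.prod_ite_mem, Finset.univ_inter,
      Finset.prod_const, card_product, card_singleton, mul_one, inv_pow]
  rw [e1] at h1
  rw [e2] at h2
  rw [mul_sub, mul_one, h2, h1, ← Finset.sum_sub_distrib]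
  apply Finset.sum_congr rfl
  intro T _
  simp only [Finset.prod_const_one, mul_one]
  by_cases h : ∃ u ∈ P, (u, (0 : Fin (v + 1))) ∈ T
  · rw [if_pos h, mul_one, Finset.prod_const]
    obtain ⟨u, hu, huT⟩ := h
    rw [Finset.prod_eq_zero huT, sub_zero]
    exact if_pos ⟨hu, rfl⟩
  · rw [if_neg h, mul_zero, Finset.prod_const]
    push Not at h
    rw [Finset.prod_congr rfl fun x hx => if_neg (fun h' => ?_), Finset.prod_const, sub_self]
    obtain ⟨x1, x2⟩ := x
    obtain ⟨h3, h4⟩ := h'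
    have h4' : x2 = 0 := h4
    subst h4'
    exact h x1 h3 hx

theorem good_close (op : Sl v → Fin (v + 1) → K) {wx wy : ℝ} (hx : 0 < wx) (hy : 0 < wy)
    (d : Bool) (L : List (Bool × Bool)) :
    GoodV op wx wy ((d, true) :: L) (PhN op wx wy L (I0 K v)) (1 / 8) (wB wx wy d / 128) := by
  classical
  intro I j hj
  obtain ⟨P, hPj, hP⟩ := exists_piv I hj
  have hw := wB_pos hx hy d
  set w := wB wx wy d with hwdef
  rw [PhN]
  show _ ≤ (w * (1 + w) ^ ((v + 1) * (v + 1)))⁻¹ * ∑ T : Finset (Sl v), w ^ T.card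
    * PhN op wx wy L (ITV (famV op true) I T)
  set c := PhN op wx wy L (I0 K v) with hc
  have hc0 : 0 ≤ c := PhN_nonneg op hx hy L _
  have hT : ∀ T : Finset (Sl v), w ^ T.card
      * (if ∃ u ∈ P, (u, (0 : Fin (v + 1))) ∈ T then (1 : ℝ) else 0) * c
      ≤ w ^ T.card * PhN op wx wy L (ITV (famV op true) I T) := by
    intro T
    rw [mul_assoc]
    apply mul_le_mul_of_nonneg_left _ (by positivity)
    split_ifs with h
    · obtain ⟨u, hu, huT⟩ := h
      rw [ITV_close op I (hP u hu) huT, one_mul]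
    · rw [zero_mul]
      exact PhN_nonneg op hx hy L _
  have h1 := Finset.sum_le_sum fun T (_ : T ∈ (univ : Finset (Finset (Sl v)))) => hT T
  rw [← Finset.sum_mul, sum_disjoint_sets hw.le, hPj] at h1
  have hZ : 0 < (1 + w) ^ ((v + 1) * (v + 1)) := by positivity
  set Z := (1 + w) ^ ((v + 1) * (v + 1)) with hZdef
  have hwZ : 0 < w * Z := by positivity
  rw [inv_mul_eq_div, le_div_iff₀ hwZ]
  refine le_trans ?_ h1
  have hj0 : (0 : ℝ) ≤ j := Nat.cast_nonneg _
  have h2 : 1 + w * j ≤ (1 + w) ^ j := by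
    have := one_add_mul_le_pow (show (-2 : ℝ) ≤ w by linarith) j
    linarith
  obtain ⟨s, hs⟩ : ∃ s, s = w * j := ⟨_, rfl⟩
  have hs0 : 0 ≤ s := by rw [hs]; positivity
  have h3 : ((1 + w) ^ j)⁻¹ ≤ (1 + s)⁻¹ := by
    apply inv_anti₀ (by positivity)
    rw [hs]
    exact h2
  have h4 : w * (1 / 8 * j - w / 128 * (j : ℝ) ^ 2) ≤ 1 - ((1 + w) ^ j)⁻¹ := by
    have h5 : w * (1 / 8 * j - w / 128 * (j : ℝ) ^ 2) = s / 8 - s ^ 2 / 128 := by
      rw [hs]
      ring
    rw [h5]
    refine le_trans ?_ (sub_le_sub_left h3 1)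
    have h6 : 1 - (1 + s)⁻¹ = s / (1 + s) := by
      field_simp
      ring
    rw [h6, le_div_iff₀ (by positivity)]
    nlinarith [mul_nonneg hs0 (sq_nonneg (s - 15 / 2))]
  have h7 := mul_le_mul_of_nonneg_left h4 (mul_nonneg hZ.le hc0)
  refine le_trans (le_of_eq ?_) (h7.trans (le_of_eq ?_))
  · ring
  · ring

end Vale.Agent.P346
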