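import Vale.Agent.P346.ULead
import Vale.Agent.P346.RankMain

/-!
The measure of a product of matrices of linear forms is at least the weighted number of leading
monomials.
-/

namespace Vale.Agent.P346

open Finset MvPolynomial

variable {K : Type*} [Field K] {v : ℕ}

/-- The matrices of linear forms. -/
noncomputable def MatV {m : ℕ} (b : Fin m → Sl v → Fin (v + 1) → K) (t : Fin m) :
    Matrix (Fin (v + 1)) (Fin (v + 1)) (MvPolynomial (Fin m × Sl v) K) :=
  Matrix.of fun u u' => ∑ k, C (b t (u, k) u') * X (t, (u, k))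

/-- The hard polynomial. -/
noncomputable def FV {m : ℕ} (b : Fin m → Sl v → Fin (v + 1) → K) :
    MvPolynomial (Fin m × Sl v) K := (List.ofFn (MatV b)).prod 0 0

lemma prod_C_X {m : ℕ} (c : Fin m → K) (x : Fin m → Sl v) :
    ∏ t, (C (c t) * X (t, x t) : MvPolynomial (Fin m × Sl v) K)
      = monomial (ind (tot fun t => {x t})) (∏ t, c t) := by
  rw [Finset.prod_mul_distrib, ← map_prod]
  have h1 : ∏ t, (X (t, x t) : MvPolynomial (Fin m × Sl v) K)
      = monomial (ind (tot fun t => {x t})) 1 := by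
    rw [← prod_X_eq, prod_tot]
    apply Finset.prod_congr rfl
    intro t _
    rw [Finset.prod_singleton]
  rw [h1, C_mul_monomial, mul_one]

lemma coeff_walk {m : ℕ} (b : Fin m → Sl v → Fin (v + 1) → K) (u : Fin (m + 1) → Fin (v + 1))
    (S T : Fin m → Finset (Sl v)) :
    coeff (ind (tot T)) ((∏ t, MatV b t (u t.castSucc) (u t.succ)) * monomial (ind (tot S)) 1)
      = ∏ t, NmV (b t) (S t) (T t) (u t.castSucc) (u t.succ) := by
  unfold MatV NmV
  simp only [Matrix.of_apply]
  rw [Finset.prod_univ_sum, Fintype.piFinset_univ, Finset.prod_univ_sum, Fintype.piFinset_univ,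
    Finset.sum_mul, coeff_sum]
  apply Finset.sum_congr rfl
  intro κ _
  rw [prod_C_X (fun t => b t (u t.castSucc, κ t) (u t.succ)) fun t => (u t.castSucc, κ t),
    monomial_mul, mul_one, coeff_monomial, Finset.prod_ite_zero]
  simp only [ind_tot_add, mem_univ, true_imp_iff]

lemma vecMul_single (M : Matrix (Fin (v + 1)) (Fin (v + 1)) K) :
    Matrix.vecMul (Pi.single 0 1) M 0 = M 0 0 := by
  rw [Matrix.single_one_vecMul]
  rfl

lemma chi_FV {m : ℕ} (b : Fin m → Sl v → Fin (v + 1) → K) (S T : Fin m → Finset (Sl v)) :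
    chi (Fin m × Sl v) K (qm (Fin m × Sl v) K (FV b)
      * qm (Fin m × Sl v) K (monomial (ind (tot S)) 1)) (tot T)
      = rowV m b (Pi.single 0 1) S T := by
  rw [← map_mul, chi_qm, rowV_eq, vecMul_single]
  unfold FV
  rw [prod_ofFn_apply, prod_ofFn_apply, Finset.sum_mul, coeff_sum]
  apply Finset.sum_congr rfl
  intro u _
  by_cases h : u 0 = 0 ∧ u (Fin.last m) = 0
  · rw [if_pos h, if_pos h]
    exact coeff_walk b u S T
  · rw [if_neg h, if_neg h, zero_mul, coeff_zero]

/-- The span of the first unit vector. -/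
noncomputable def I0 (K : Type*) [Field K] (v : ℕ) : Submodule K (Fin (v + 1) → K) :=
  Submodule.span K {Pi.single 0 1}

lemma LMV_card {m : ℕ} {b : Fin m → Sl v → Fin (v + 1) → K}
    {I : Submodule K (Fin (v + 1) → K)} {T : Fin m → Finset (Sl v)} (h : LMV m b I T) :
    ∃ S : Fin m → Finset (Sl v), ∀ t, (S t).card + 1 = (T t).card := by
  obtain ⟨g, hg, hg1, -⟩ := lead_exists m b I T h
  by_contra hne
  push Not at hne
  apply hg1
  have h1 : RSV m b I (fun t => (T t).card) = ⊥ := by
    unfold RSV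
    rw [Submodule.span_eq_bot]
    rintro x ⟨a, _, S, hS, _⟩
    obtain ⟨t, ht⟩ := hne S
    exact absurd (hS t) ht
  rw [h1, Submodule.mem_bot] at hg
  rw [hg]
  rfl

variable {L : List (Bool × Bool)}

/-- The weight of the cofactor of a leading monomial. -/
def omV (L : List (Bool × Bool)) (v : ℕ) (T : Fin L.length → Finset (Sl v)) : ℕ × ℕ :=
  ∑ t, ((T t).card - 1) • bd (L.get t).1

lemma wts_eq_omV {S T : Fin L.length → Finset (Sl v)} (h : ∀ t, (S t).card + 1 = (T t).card) :
    wts (wtL L v) (tot S) = omV L v T := by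
  have h1 : wts (wtL L v) (tot S) = ∑ b, (S b).card • bd (L.get b).1 :=
    wts_tot (fun b : Fin L.length => bd (L.get b).1) S
  rw [h1]
  unfold omV
  apply Finset.sum_congr rfl
  intro t _
  rw [← h t, Nat.add_sub_cancel]

/-- The projection to the squarefree coefficients. -/
noncomputable def psiV (K : Type*) [Field K] (m v : ℕ) :
    TA (Fin m × Sl v) K →ₗ[K] ((Fin m → Finset (Sl v)) → K) :=
  LinearMap.pi fun T => (LinearMap.proj (tot T) : (Finset (Fin m × Sl v) → K) →ₗ[K] K).comp
    (chi (Fin m × Sl v) K)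

lemma RSV_le (b : Fin L.length → Sl v → Fin (v + 1) → K) (T : Fin L.length → Finset (Sl v)) :
    RSV L.length b (I0 K v) (fun t => (T t).card)
      ≤ Submodule.map (psiV K L.length v) (Submodule.map (LinearMap.mulLeft K
        (qm (Fin L.length × Sl v) K (FV b))) (wgr K (wtL L v) (omV L v T))) := by
  unfold RSV
  rw [Submodule.span_le]
  rintro g ⟨a, ha, S, hS, rfl⟩
  obtain ⟨c, rfl⟩ := Submodule.mem_span_singleton.1 ha
  have h1 : rowV L.length b (c • (Pi.single 0 1 : Fin (v + 1) → K)) S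
      = c • (psiV K L.length v (qm (Fin L.length × Sl v) K (FV b)
        * qm (Fin L.length × Sl v) K (monomial (ind (tot S)) 1))) := by
    funext R
    rw [rowV_smul, Pi.smul_apply, smul_eq_mul]
    congr 1
    exact (chi_FV b S R).symm
  rw [h1]
  apply Submodule.smul_mem
  refine ⟨_, ⟨qm (Fin L.length × Sl v) K (monomial (ind (tot S)) 1), ⟨_, ?_, rfl⟩, rfl⟩, rfl⟩
  rw [SetLike.mem_coe, mem_weightedHomogeneousSubmodule]
  apply isWeightedHomogeneous_monomial
  rw [weight_ind]
  exact wts_eq_omV hS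

lemma card_LM_le (b : Fin L.length → Sl v → Fin (v + 1) → K) (γ : ℕ × ℕ)
    (s : Finset (Fin L.length → Finset (Sl v)))
    (hs : ∀ T ∈ s, LMV L.length b (I0 K v) T ∧ omV L v T = γ) :
    s.card ≤ rkV (wgr K (wtL L v) γ) (qm (Fin L.length × Sl v) K (FV b)) := by
  classical
  choose! G hG1 hG2 hG3 using fun (T : Fin L.length → Finset (Sl v))
    (hT : LMV L.length b (I0 K v) T) => lead_exists L.length b (I0 K v) T hT
  have hind : LinearIndependent K (fun T : s => G T.1) := by
    apply indep_of_lead (bkV L.length) (bkV_inj L.length) (fun T : s => G T.1) (fun T => T.1)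
      Subtype.val_injective
    · intro T
      exact hG2 T.1 (hs T.1 T.2).1
    · intro T x hx
      exact hG3 T.1 (hs T.1 T.2).1 x hx
  have h1 := finrank_span_eq_card hind
  rw [Fintype.card_coe] at h1
  rw [← h1]
  have h2 : Submodule.span K (Set.range fun T : s => G T.1)
      ≤ Submodule.map (psiV K L.length v) (Submodule.map (LinearMap.mulLeft K
        (qm (Fin L.length × Sl v) K (FV b))) (wgr K (wtL L v) γ)) := by
    rw [Submodule.span_le]
    rintro _ ⟨T, rfl⟩
    have h3 := RSV_le b T.1 (hG1 T.1 (hs T.1 T.2).1)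
    rw [(hs T.1 T.2).2] at h3
    exact h3
  refine (Submodule.finrank_mono h2).trans ?_
  exact Submodule.finrank_map_le _ _

theorem Hm_lower_LM (b : Fin L.length → Sl v → Fin (v + 1) → K) {wx wy : ℝ} (hx : 0 ≤ wx)
    (hy : 0 ≤ wy) (s : Finset (Fin L.length → Finset (Sl v)))
    (hs : ∀ T ∈ s, LMV L.length b (I0 K v) T) :
    ∑ T ∈ s, ∏ t, wB wx wy (L.get t).1 ^ (T t).card
      ≤ (∏ t, wB wx wy (L.get t).1) * Hm (wtL L v) (chw wx wy) (FV b) := by
  classical
  have hw : ∀ c, 0 ≤ wB wx wy c := by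
    intro c
    unfold wB
    split_ifs
    · exact hx
    · exact hy
  have hch : ∀ γ, 0 ≤ chw wx wy γ := fun γ => mul_nonneg (pow_nonneg hx _) (pow_nonneg hy _)
  have h1 : ∀ T ∈ s, ∏ t, wB wx wy (L.get t).1 ^ (T t).card
      = (∏ t, wB wx wy (L.get t).1) * chw wx wy (omV L v T) := by
    intro T hT
    obtain ⟨S, hS⟩ := LMV_card (hs T hT)
    rw [← wts_eq_omV hS, chw_tot, ← Finset.prod_mul_distrib]
    apply Finset.prod_congr rfl
    intro t _
    rw [← hS t, pow_succ, mul_comm]
  rw [Finset.sum_congr rfl h1, ← Finset.mul_sum]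
  apply mul_le_mul_of_nonneg_left _ (Finset.prod_nonneg fun t _ => hw _)
  have h2 : ∀ T ∈ s, omV L v T ∈ wset (wtL L v) := by
    intro T hT
    obtain ⟨S, hS⟩ := LMV_card (hs T hT)
    rw [← wts_eq_omV hS]
    exact Finset.mem_image_of_mem _ (mem_univ _)
  rw [← Finset.sum_fiberwise_of_maps_to h2]
  unfold Hm
  apply Finset.sum_le_sum
  intro γ _
  rw [Finset.sum_congr rfl fun T hT => by rw [(Finset.mem_filter.1 hT).2], Finset.sum_const,
    nsmul_eq_mul, mul_comm]
  apply mul_le_mul_of_nonneg_left _ (hch γ)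
  have h3 := card_LM_le b γ (s.filter fun T => omV L v T = γ) (fun T hT =>
    ⟨hs T (Finset.mem_filter.1 hT).1, (Finset.mem_filter.1 hT).2⟩)
  exact_mod_cast h3

end Vale.Agent.P346
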