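import Vale.Agent.P346.Defs
import Vale.Agent.P346.PathSum

/-!
The upper bound `s_K(n) ≤ n ^ (√n + 6)`: cut the product of the matrices into about `√n` blocks of
about `√n` matrices and expand.
-/

namespace Vale.Agent.P346

open MvPolynomial Finset

section build

variable {V K : Type*} [Field K] {L0 L1 L2 L3 L4 : Type*} [Fintype L0] [Fintype L1] [Fintype L2]
  [Fintype L3] [Fintype L4]

lemma aux_map {B M : Type*} [CommMonoid M] [Fintype B] (s : Multiset B)
    (F : Fin (Fintype.card B) → M) (v : B → M) (h : ∀ b, F (Fintype.equivFin B b) = v b) :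
    ((s.map (Fintype.equivFin B)).map F).prod = (s.map v).prod := by
  rw [Multiset.map_map]
  congr 1
  apply Multiset.map_congr rfl
  intro b _
  exact h b

lemma aux_mapsum {B : Type*} [Fintype B] (s : Multiset B)
    (F : Fin (Fintype.card B) → ℕ) (v : B → ℕ) (h : ∀ b, F (Fintype.equivFin B b) = v b) :
    ((s.map (Fintype.equivFin B)).map F).sum = (s.map v).sum := by
  rw [Multiset.map_map]
  congr 1
  apply Multiset.map_congr rfl
  intro b _
  exact h b

lemma aux_sum {B M : Type*} [AddCommMonoid M] [Fintype B] (s : Finset B)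
    (F : Fin (Fintype.card B) → M) (v : B → M) (h : ∀ b, F (Fintype.equivFin B b) = v b) :
    ∑ l ∈ s.map (Fintype.equivFin B).toEmbedding, F l = ∑ l ∈ s, v l := by
  rw [Finset.sum_map]
  exact Finset.sum_congr rfl fun b _ => h b

lemma aux_all {B : Type*} [Fintype B] (s : Finset B)
    (P : Fin (Fintype.card B) → Prop) (h : ∀ b ∈ s, P (Fintype.equivFin B b)) :
    ∀ l ∈ s.map (Fintype.equivFin B).toEmbedding, P l := by
  intro l hl
  rw [Finset.mem_map] at hl
  obtain ⟨b, hb, rfl⟩ := hl
  exact h b hb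

/-- The polynomial at a leaf. -/
noncomputable def leafPoly (x : V ⊕ K) : MvPolynomial V K :=
  Sum.elim (fun v => X v) (fun c => MvPolynomial.C c) x

/-- A circuit whose gates are indexed by arbitrary finite types; all coefficients are `1`. -/
noncomputable def build (leaf : L0 → V ⊕ K) (in1 : L1 → Finset L0) (in2 : L2 → Multiset L1)
    (in3 : L3 → Finset L2) (in4 : L4 → Multiset L3) (in5 : Finset L4) : Circuit V K where
  n0 := Fintype.card L0
  n1 := Fintype.card L1
  n2 := Fintype.card L2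
  n3 := Fintype.card L3
  n4 := Fintype.card L4
  leaf := fun l => leaf ((Fintype.equivFin L0).symm l)
  in1 := fun g => (in1 ((Fintype.equivFin L1).symm g)).map (Fintype.equivFin L0).toEmbedding
  co1 := fun _ _ => 1
  in2 := fun g => (in2 ((Fintype.equivFin L2).symm g)).map (Fintype.equivFin L1)
  in3 := fun g => (in3 ((Fintype.equivFin L3).symm g)).map (Fintype.equivFin L2).toEmbedding
  co3 := fun _ _ => 1
  in4 := fun g => (in4 ((Fintype.equivFin L4).symm g)).map (Fintype.equivFin L3)
  in5 := in5.map (Fintype.equivFin L4).toEmbedding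
  co5 := fun _ => 1

variable (leaf : L0 → V ⊕ K) (in1 : L1 → Finset L0) (in2 : L2 → Multiset L1)
    (in3 : L3 → Finset L2) (in4 : L4 → Multiset L3) (in5 : Finset L4)

lemma build_val1 (g : L1) :
    (build leaf in1 in2 in3 in4 in5).val1 (Fintype.equivFin L1 g)
      = ∑ l ∈ in1 g, leafPoly (leaf l) := by
  show ∑ l ∈ (in1 ((Fintype.equivFin L1).symm (Fintype.equivFin L1 g))).map
    (Fintype.equivFin L0).toEmbedding, (1 : K) • leafPoly (leaf ((Fintype.equivFin L0).symm l)) = _
  rw [Equiv.symm_apply_apply]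
  refine aux_sum (in1 g) _ _ ?_
  intro l
  rw [one_smul, Equiv.symm_apply_apply]

lemma build_val2 (g : L2) :
    (build leaf in1 in2 in3 in4 in5).val2 (Fintype.equivFin L2 g)
      = ((in2 g).map fun g' => ∑ l ∈ in1 g', leafPoly (leaf l)).prod := by
  show (((in2 ((Fintype.equivFin L2).symm (Fintype.equivFin L2 g))).map
    (Fintype.equivFin L1)).map (build leaf in1 in2 in3 in4 in5).val1).prod = _
  rw [Equiv.symm_apply_apply]
  exact aux_map (in2 g) _ _ fun l => build_val1 leaf in1 in2 in3 in4 in5 l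

lemma build_val3 (g : L3) :
    (build leaf in1 in2 in3 in4 in5).val3 (Fintype.equivFin L3 g)
      = ∑ h ∈ in3 g, ((in2 h).map fun g' => ∑ l ∈ in1 g', leafPoly (leaf l)).prod := by
  show ∑ l ∈ (in3 ((Fintype.equivFin L3).symm (Fintype.equivFin L3 g))).map
    (Fintype.equivFin L2).toEmbedding, (1 : K) • (build leaf in1 in2 in3 in4 in5).val2 l = _
  rw [Equiv.symm_apply_apply]
  refine aux_sum (in3 g) _ _ ?_
  intro l
  rw [one_smul]
  exact build_val2 leaf in1 in2 in3 in4 in5 l

lemma build_val4 (g : L4) :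
    (build leaf in1 in2 in3 in4 in5).val4 (Fintype.equivFin L4 g)
      = ((in4 g).map fun g'' => ∑ h ∈ in3 g'',
          ((in2 h).map fun g' => ∑ l ∈ in1 g', leafPoly (leaf l)).prod).prod := by
  show (((in4 ((Fintype.equivFin L4).symm (Fintype.equivFin L4 g))).map
    (Fintype.equivFin L3)).map (build leaf in1 in2 in3 in4 in5).val3).prod = _
  rw [Equiv.symm_apply_apply]
  exact aux_map (in4 g) _ _ fun l => build_val3 leaf in1 in2 in3 in4 in5 l

lemma build_val :
    (build leaf in1 in2 in3 in4 in5).val = ∑ v ∈ in5, ((in4 v).map fun g'' => ∑ h ∈ in3 g'',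
          ((in2 h).map fun g' => ∑ l ∈ in1 g', leafPoly (leaf l)).prod).prod := by
  show ∑ l ∈ in5.map (Fintype.equivFin L4).toEmbedding,
    (1 : K) • (build leaf in1 in2 in3 in4 in5).val4 l = _
  refine aux_sum in5 _ _ ?_
  intro l
  rw [one_smul]
  exact build_val4 leaf in1 in2 in3 in4 in5 l

lemma build_size : (build leaf in1 in2 in3 in4 in5).size
    = Fintype.card L0 + Fintype.card L1 + Fintype.card L2 + Fintype.card L3 + Fintype.card L4 + 1 :=
  rfl

lemma build_homog (d1 : L1 → ℕ) (d2 : L2 → ℕ) (d3 : L3 → ℕ) (d4 : L4 → ℕ) (d5 : ℕ)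
    (h1 : ∀ g, ∀ l ∈ in1 g, Sum.elim (fun _ => 1) (fun _ => 0) (leaf l) = d1 g)
    (h2 : ∀ g, d2 g = ((in2 g).map d1).sum)
    (h3 : ∀ g, ∀ h ∈ in3 g, d2 h = d3 g)
    (h4 : ∀ g, d4 g = ((in4 g).map d3).sum)
    (h5 : ∀ h ∈ in5, d4 h = d5) : (build leaf in1 in2 in3 in4 in5).IsHomogeneous := by
  refine ⟨fun g => d1 ((Fintype.equivFin L1).symm g), fun g => d2 ((Fintype.equivFin L2).symm g),
    fun g => d3 ((Fintype.equivFin L3).symm g), fun g => d4 ((Fintype.equivFin L4).symm g), d5,
    ?_, ?_, ?_, ?_, ?_⟩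
  · intro g
    refine aux_all (in1 ((Fintype.equivFin L1).symm g))
      (fun l => Sum.elim (fun _ => 1) (fun _ => 0) (leaf ((Fintype.equivFin L0).symm l))
        = d1 ((Fintype.equivFin L1).symm g)) ?_
    intro l hl
    show Sum.elim (fun _ => 1) (fun _ => 0) (leaf ((Fintype.equivFin L0).symm
      ((Fintype.equivFin L0) l))) = _
    rw [Equiv.symm_apply_apply]
    exact h1 _ l hl
  · intro g
    refine (h2 _).trans (aux_mapsum (in2 ((Fintype.equivFin L2).symm g))
      (fun g => d1 ((Fintype.equivFin L1).symm g)) d1 ?_).symm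
    intro b
    show d1 ((Fintype.equivFin L1).symm ((Fintype.equivFin L1) b)) = _
    rw [Equiv.symm_apply_apply]
  · intro g
    refine aux_all (in3 ((Fintype.equivFin L3).symm g))
      (fun l => d2 ((Fintype.equivFin L2).symm l) = d3 ((Fintype.equivFin L3).symm g)) ?_
    intro l hl
    show d2 ((Fintype.equivFin L2).symm ((Fintype.equivFin L2) l)) = _
    rw [Equiv.symm_apply_apply]
    exact h3 _ l hl
  · intro g
    refine (h4 _).trans (aux_mapsum (in4 ((Fintype.equivFin L4).symm g))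
      (fun g => d3 ((Fintype.equivFin L3).symm g)) d3 ?_).symm
    intro b
    show d3 ((Fintype.equivFin L3).symm ((Fintype.equivFin L3) b)) = _
    rw [Equiv.symm_apply_apply]
  · refine aux_all in5 (fun l => d4 ((Fintype.equivFin L4).symm l) = d5) ?_
    intro l hl
    show d4 ((Fintype.equivFin L4).symm ((Fintype.equivFin L4) l)) = _
    rw [Equiv.symm_apply_apply]
    exact h5 l hl

end build

section imm

variable (K : Type*) [Field K]

/-- The label of a leaf; matrices with index at least `d` are identity matrices. -/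
def uLeaf (w d N : ℕ) (x : Fin N × Fin w × Fin w) : (Fin d × Fin w × Fin w) ⊕ K :=
  if h : x.1.1 < d then Sum.inl (⟨x.1.1, h⟩, x.2) else Sum.inr (if x.2.1 = x.2.2 then 1 else 0)

/-- The padded sequence of matrices. -/
noncomputable def uMat (w d N : ℕ) (t : Fin N) :
    Matrix (Fin w) (Fin w) (MvPolynomial (Fin d × Fin w × Fin w) K) :=
  Matrix.of fun i j => leafPoly (uLeaf K w d N (t, i, j))

lemma uMat_prod (w d r : ℕ) [NeZero w] :
    (List.ofFn (uMat K w d (d + r))).prod 0 0 = IMM K w d := by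
  rw [List.ofFn_add, List.prod_append]
  have h1 : (List.ofFn fun i : Fin r => uMat K w d (d + r) (Fin.natAdd d i)).prod = 1 := by
    have h2 : (fun i : Fin r => uMat K w d (d + r) (Fin.natAdd d i)) = fun _ => 1 := by
      funext i
      apply Matrix.ext
      intro i' j'
      show leafPoly (uLeaf K w d (d + r) (Fin.natAdd d i, i', j')) = _
      have h3 : ¬ (Fin.natAdd d i).1 < d := by simp
      unfold uLeaf
      rw [dif_neg h3]
      unfold leafPoly
      rw [Sum.elim_inr]
      by_cases h : i' = j'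
      · rw [if_pos h, h, Matrix.one_apply_eq, map_one]
      · rw [if_neg h, Matrix.one_apply_ne h, map_zero]
    rw [h2, List.ofFn_const, List.prod_replicate, one_pow]
  rw [h1, mul_one]
  unfold IMM
  have h4 : (fun i : Fin d => uMat K w d (d + r) (Fin.castLE (Nat.le_add_right d r) i))
      = fun t : Fin d => Matrix.of fun i j : Fin w =>
        (X (t, i, j) : MvPolynomial (Fin d × Fin w × Fin w) K) := by
    funext i
    apply Matrix.ext
    intro i' j'
    show leafPoly (uLeaf K w d (d + r) (Fin.castLE (Nat.le_add_right d r) i, i', j')) = _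
    have h3 : (Fin.castLE (Nat.le_add_right d r) i).1 < d := i.2
    unfold uLeaf
    rw [dif_pos h3]
    rfl
  rw [h4]

lemma block_lt {b m : ℕ} (k : Fin b) (l : Fin m) : k.1 * m + l.1 < b * m := by
  calc k.1 * m + l.1 < k.1 * m + m := by have := l.2; omega
    _ = (k.1 + 1) * m := by ring
    _ ≤ b * m := Nat.mul_le_mul_right _ k.2

/-- The product of the padded matrices in a block. -/
noncomputable def uBlock (w d b m : ℕ) (k : Fin b) :
    Matrix (Fin w) (Fin w) (MvPolynomial (Fin d × Fin w × Fin w) K) :=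
  (List.ofFn fun l : Fin m => uMat K w d (b * m) ⟨k.1 * m + l.1, block_lt k l⟩).prod

lemma IMM_blocks (w d b m : ℕ) [NeZero w] (h : d ≤ b * m) :
    IMM K w d = (List.ofFn (uBlock K w d b m)).prod 0 0 := by
  obtain ⟨r, hr⟩ := Nat.exists_eq_add_of_le h
  have h1 : (List.ofFn (uMat K w d (b * m))).prod 0 0 = IMM K w d := by
    rw [hr]
    exact uMat_prod K w d r
  rw [← h1, List.ofFn_mul, List.prod_flatten, List.map_ofFn]
  rfl

/-- Existence of the circuit. -/
lemma exists_upper (w d b m : ℕ) [NeZero w] (h : d ≤ b * m) :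
    ∃ C : Circuit (Fin d × Fin w × Fin w) K, C.IsHomogeneous ∧ C.val = IMM K w d ∧
      C.size = 2 * (b * m * (w * w)) + b * w ^ (m + 1) + b * (w * w) + w ^ (b + 1) + 1 := by
  classical
  refine ⟨build (L0 := Fin (b * m) × Fin w × Fin w) (L1 := Fin (b * m) × Fin w × Fin w)
    (L2 := Fin b × (Fin (m + 1) → Fin w)) (L3 := Fin b × Fin w × Fin w)
    (L4 := Fin (b + 1) → Fin w) (uLeaf K w d (b * m)) (fun l => {l})
    (fun q => (univ : Finset (Fin m)).val.map fun l =>
      (⟨q.1.1 * m + l.1, block_lt q.1 l⟩, q.2 l.castSucc, q.2 l.succ))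
    (fun x => univ.filter fun q => q.1 = x.1 ∧ (q.2 0 = x.2.1 ∧ q.2 (Fin.last m) = x.2.2))
    (fun v => (univ : Finset (Fin b)).val.map fun k => (k, v k.castSucc, v k.succ))
    (univ.filter fun v => v 0 = 0 ∧ v (Fin.last b) = 0), ?_, ?_, ?_⟩
  · set δ : ℕ → ℕ := fun t => if t < d then 1 else 0 with hδ
    apply build_homog (d1 := fun x => δ x.1.1) (d2 := fun q => ∑ l : Fin m, δ (q.1.1 * m + l.1))
      (d3 := fun x => ∑ l : Fin m, δ (x.1.1 * m + l.1))
      (d4 := fun _ => ∑ k : Fin b, ∑ l : Fin m, δ (k.1 * m + l.1))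
      (d5 := ∑ k : Fin b, ∑ l : Fin m, δ (k.1 * m + l.1))
    · intro g l hl
      rw [Finset.mem_singleton] at hl
      subst hl
      unfold uLeaf
      rw [hδ]
      by_cases h3 : l.1.1 < d
      · rw [dif_pos h3]; simp [h3]
      · rw [dif_neg h3]; simp [h3]
    · intro g
      rw [Multiset.map_map]
      rfl
    · intro g q hq
      rw [Finset.mem_filter] at hq
      rw [hq.2.1]
    · intro g
      rw [Multiset.map_map]
      rfl
    · intro _ _
      rfl
  · rw [build_val, IMM_blocks K w d b m h, prod_ofFn_apply, Finset.sum_filter]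
    apply Finset.sum_congr rfl
    intro v _
    by_cases hv : v 0 = 0 ∧ v (Fin.last b) = 0
    · rw [if_pos hv, if_pos hv]
      rw [Multiset.map_map]
      unfold walkW
      show ∏ k : Fin b, _ = _
      apply Finset.prod_congr rfl
      intro k _
      rw [Function.comp_apply]
      unfold uBlock
      rw [prod_ofFn_apply, Finset.sum_filter, Fintype.sum_prod_type]
      rw [Finset.sum_eq_single k]
      · apply Finset.sum_congr rfl
        intro q _
        by_cases hq : q 0 = v k.castSucc ∧ q (Fin.last m) = v k.succ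
        · rw [if_pos ⟨rfl, hq⟩, if_pos hq, Multiset.map_map]
          unfold walkW
          show ∏ l : Fin m, _ = _
          apply Finset.prod_congr rfl
          intro l _
          rw [Function.comp_apply, Finset.sum_singleton]
          rfl
        · rw [if_neg hq, if_neg]
          rintro ⟨_, h2⟩
          exact hq h2
      · intro k' _ hk'
        apply Finset.sum_eq_zero
        intro q _
        rw [if_neg]
        rintro ⟨h1, _⟩
        exact hk' h1
      · intro h1
        exact absurd (mem_univ _) h1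
    · rw [if_neg hv, if_neg hv]
  · rw [build_size]
    simp only [Fintype.card_prod, Fintype.card_fin, Fintype.card_fun]
    ring

end imm


lemma size_num {n s : ℕ} (hn : 2 ≤ n) (hs : 1 ≤ s) (hsn : s + 1 ≤ n) :
    2 * ((s + 1) * (s + 1) * (n * n)) + (s + 1) * n ^ (s + 1 + 1) + (s + 1) * (n * n)
      + n ^ (s + 1 + 1) + 1 ≤ n ^ (s + 6) := by
  have hn0 : 0 < n := by omega
  have e1 : (s + 1) * (s + 1) * (n * n) ≤ n ^ (s + 3) := by
    calc (s + 1) * (s + 1) * (n * n) ≤ n * n * (n * n) := by gcongr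
      _ = n ^ 4 := by ring
      _ ≤ n ^ (s + 3) := Nat.pow_le_pow_right hn0 (by omega)
  have e2 : (s + 1) * n ^ (s + 1 + 1) ≤ n ^ (s + 3) := by
    calc (s + 1) * n ^ (s + 1 + 1) ≤ n * n ^ (s + 1 + 1) := by gcongr
      _ = n ^ (s + 3) := by ring
  have e3 : (s + 1) * (n * n) ≤ n ^ (s + 3) := by
    calc (s + 1) * (n * n) ≤ n * (n * n) := by gcongr
      _ = n ^ 3 := by ring
      _ ≤ n ^ (s + 3) := Nat.pow_le_pow_right hn0 (by omega)
  have e4 : n ^ (s + 1 + 1) ≤ n ^ (s + 3) := Nat.pow_le_pow_right hn0 (by omega)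
  have e5 : 1 ≤ n ^ (s + 3) := Nat.one_le_pow _ _ hn0
  have e6 : 8 ≤ n ^ 3 := by
    calc 8 = 2 ^ 3 := by norm_num
      _ ≤ n ^ 3 := Nat.pow_le_pow_left hn 3
  calc _ ≤ 8 * n ^ (s + 3) := by omega
    _ ≤ n ^ 3 * n ^ (s + 3) := Nat.mul_le_mul_right _ e6
    _ = n ^ (s + 6) := by ring

lemma sK_upper (K : Type*) [Field K] (n : ℕ) [NeZero n] (hn : 2 ≤ n) :
    (sK K n : ℝ) ≤ (n : ℝ) ^ (√(n : ℝ) + 6) := by
  set s := Nat.sqrt n with hs
  have hs1 : 1 ≤ s := by
    rw [hs, Nat.le_sqrt]
    omega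
  have hsn : s + 1 ≤ n := by
    have : s < n := Nat.sqrt_lt_self (by omega)
    omega
  have hd : n ≤ (s + 1) * (s + 1) := (Nat.lt_succ_sqrt n).le
  obtain ⟨C, hC, hval, hsize⟩ := exists_upper K n n (s + 1) (s + 1) hd
  have h1 : sK K n ≤ C.size := Nat.sInf_le ⟨C, hC, hval, rfl⟩
  have h2 : sK K n ≤ n ^ (s + 6) := by
    refine h1.trans ?_
    rw [hsize]
    exact size_num hn hs1 hsn
  have hn1 : (1 : ℝ) ≤ (n : ℝ) := by exact_mod_cast (by omega : 1 ≤ n)
  have h3 : ((s : ℕ) : ℝ) ≤ √(n : ℝ) := by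
    apply Real.le_sqrt_of_sq_le
    have : s * s ≤ n := Nat.sqrt_le n
    rw [sq]
    exact_mod_cast this
  calc (sK K n : ℝ) ≤ ((n ^ (s + 6) : ℕ) : ℝ) := by exact_mod_cast h2
    _ = (n : ℝ) ^ ((s : ℝ) + 6) := by
        rw [Nat.cast_pow, ← Real.rpow_natCast]
        congr 1
        push_cast
        ring
    _ ≤ (n : ℝ) ^ (√(n : ℝ) + 6) := Real.rpow_le_rpow_of_exponent_le hn1 (by linarith)

end Vale.Agent.P346
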