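import Vale.Agent.P346.Blocks

/-!
Walks, and the polynomial they define.
-/

namespace Vale.Agent.P346

open Finset MvPolynomial

variable (L : List (Bool × Bool)) (v : ℕ)

/-- The closed walks which return to `0` after every closed layer. -/
def IsWk (u : Fin (L.length + 1) → Fin (v + 1)) : Prop :=
  u 0 = 0 ∧ u (Fin.last L.length) = 0 ∧ ∀ b : Fin L.length, (L.get b).2 = true → u b.succ = 0

instance : DecidablePred (IsWk L v) := fun u => by
  unfold IsWk
  infer_instance

/-- The type of walks. -/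
abbrev Wk : Type := {u : Fin (L.length + 1) → Fin (v + 1) // IsWk L v u}

variable {L v}

/-- The letters of a walk. -/
def pw (u : Wk L v) (b : Fin L.length) : Fin (v + 1) × Fin (v + 1) :=
  (u.1 b.castSucc, u.1 b.succ)

lemma sum_Wk (f : (Fin (L.length + 1) → Fin (v + 1)) → ℝ) :
    ∑ u : Wk L v, f u.1 = ∑ u : Fin (L.length + 1) → Fin (v + 1),
      if u 0 = 0 ∧ u (Fin.last L.length) = 0 then
        (∏ b : Fin L.length, adm (L.get b).2 (u b.succ)) * f u else 0 := by
  rw [← Finset.sum_subtype (univ.filter fun u => IsWk L v u) (fun x => by simp) f,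
    Finset.sum_filter]
  apply Finset.sum_congr rfl
  intro u _
  have h1 : (∏ b : Fin L.length, adm (L.get b).2 (u b.succ))
      = if ∀ b : Fin L.length, (L.get b).2 = true → u b.succ = 0 then (1 : ℝ) else 0 := by
    unfold adm
    rw [Finset.prod_ite_zero]
    simp
  rw [h1]
  by_cases h2 : u 0 = 0 ∧ u (Fin.last L.length) = 0
  · by_cases h3 : ∀ b : Fin L.length, (L.get b).2 = true → u b.succ = 0
    · rw [if_pos (show IsWk L v u from ⟨h2.1, h2.2, h3⟩), if_pos h2, if_pos h3, one_mul]
    · rw [if_neg (fun h : IsWk L v u => h3 h.2.2), if_pos h2, if_neg h3, zero_mul]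
  · rw [if_neg (fun h : IsWk L v u => h2 ⟨h.1, h.2.1⟩), if_neg h2]

/-- The adjacency matrices. -/
noncomputable def Adj (v : ℕ) (cl : Bool) : Matrix (Fin (v + 1)) (Fin (v + 1)) ℝ :=
  Matrix.of fun _ j => adm cl j

lemma card_Wk : (Fintype.card (Wk L v) : ℝ) = (L.map fun d => Adj v d.2).prod 0 0 := by
  have h1 : (L.map fun d => Adj v d.2) = List.ofFn fun b : Fin L.length => Adj v (L.get b).2 := by
    rw [← List.ofFn_get L, List.map_ofFn]
    simp [Function.comp_def]
  rw [h1, prod_ofFn_apply]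
  have h2 := sum_Wk (L := L) (v := v) (fun _ => (1 : ℝ))
  rw [Finset.sum_const, card_univ, nsmul_eq_mul, mul_one] at h2
  rw [h2]
  apply Finset.sum_congr rfl
  intro u _
  unfold walkW Adj
  simp only [Matrix.of_apply, mul_one]

/-- The matrices of variables. -/
noncomputable def Xm (K : Type*) [Field K] (L : List (Bool × Bool)) (v : ℕ) (b : Fin L.length) :
    Matrix (Fin (v + 1)) (Fin (v + 1))
      (MvPolynomial (Fin L.length × (Fin (v + 1) × Fin (v + 1))) K) :=
  Matrix.of fun i j => if (L.get b).2 = true → j = 0 then X (b, (i, j)) else 0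

lemma prod_Xm (K : Type*) [Field K] :
    (List.ofFn (Xm K L v)).prod 0 0 = FW K (pw (L := L) (v := v)) := by
  rw [prod_ofFn_apply]
  unfold FW
  have h0 : ∑ u : Wk L v, monomial (ind (tot fun b : Fin L.length => {pw u b})) (1 : K)
      = ∑ u : Fin (L.length + 1) → Fin (v + 1), if IsWk L v u then
        monomial (ind (tot fun b : Fin L.length => {(u b.castSucc, u b.succ)})) (1 : K) else 0 := by
    rw [← Finset.sum_filter]
    exact (Finset.sum_subtype (univ.filter fun u => IsWk L v u) (fun x => by simp)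
      (fun u => monomial (ind (tot fun b : Fin L.length => {(u b.castSucc, u b.succ)}))
        (1 : K))).symm
  rw [h0]
  apply Finset.sum_congr rfl
  intro u _
  unfold walkW
  have h1 : (∏ b : Fin L.length, Xm K L v b (u b.castSucc) (u b.succ))
      = if ∀ b : Fin L.length, (L.get b).2 = true → u b.succ = 0 then
        monomial (ind (tot fun b : Fin L.length => {(u b.castSucc, u b.succ)})) (1 : K)
        else 0 := by
    unfold Xm
    simp only [Matrix.of_apply]
    rw [Finset.prod_ite_zero]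
    simp only [mem_univ, true_imp_iff]
    split_ifs
    · rw [← prod_X_eq, prod_tot]
      apply Finset.prod_congr rfl
      intro b _
      rw [Finset.prod_singleton]
    · rfl
  rw [h1]
  by_cases h2 : u 0 = 0 ∧ u (Fin.last L.length) = 0
  · by_cases h3 : ∀ b : Fin L.length, (L.get b).2 = true → u b.succ = 0
    · rw [if_pos (show IsWk L v u from ⟨h2.1, h2.2, h3⟩), if_pos h2, if_pos h3]
    · rw [if_neg (fun h : IsWk L v u => h3 h.2.2), if_pos h2, if_neg h3]
  · rw [if_neg (fun h : IsWk L v u => h2 ⟨h.1, h.2.1⟩), if_neg h2]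

lemma second_le {wx wy : ℝ} (hx : 0 ≤ wx) (hy : 0 ≤ wy) :
    ∑ u : Wk L v, ∑ u' : Wk L v, ∑ z : Wk L v, ∑ z' : Wk L v,
      ∏ b, theta (wB wx wy (L.get b).1) (pw u b) (pw u' b) (pw z b) (pw z' b)
      ≤ hv wx wy L ((0, 0, 0, 0) : St v) := by
  have hw : ∀ c, 0 ≤ wB wx wy c := by
    intro c
    unfold wB
    split_ifs
    · exact hx
    · exact hy
  -- the weight of a quadruple of walks
  let g : (Fin (L.length + 1) → Fin (v + 1)) → (Fin (L.length + 1) → Fin (v + 1)) →
      (Fin (L.length + 1) → Fin (v + 1)) → (Fin (L.length + 1) → Fin (v + 1)) → ℝ :=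
    fun u u' z z' => ∏ b : Fin L.length, thB ((v + 1) * (v + 1)) (wB wx wy (L.get b).1)
      (u b.castSucc, u b.succ) (u' b.castSucc, u' b.succ) (z b.castSucc, z b.succ)
      (z' b.castSucc, z' b.succ)
  have h1 : ∑ u : Wk L v, ∑ u' : Wk L v, ∑ z : Wk L v, ∑ z' : Wk L v,
      ∏ b, theta (wB wx wy (L.get b).1) (pw u b) (pw u' b) (pw z b) (pw z' b)
      ≤ ∑ u : Wk L v, ∑ u' : Wk L v, ∑ z : Wk L v, ∑ z' : Wk L v, g u.1 u'.1 z.1 z'.1 := by
    apply Finset.sum_le_sum; intro u _
    apply Finset.sum_le_sum; intro u' _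
    apply Finset.sum_le_sum; intro z _
    apply Finset.sum_le_sum; intro z' _
    apply Finset.prod_le_prod
    · intro b _
      unfold theta
      apply Finset.sum_nonneg; intro s _
      apply Finset.sum_nonneg; intro s' _
      exact mul_nonneg (pow_nonneg (hw _) _) (mul_nonneg (A2_nonneg _ _ _ _) (A2_nonneg _ _ _ _))
    · intro b _
      have h2 := theta_le (hw (L.get b).1) (pw u b) (pw u' b) (pw z b) (pw z' b)
      rw [Fintype.card_prod, Fintype.card_fin] at h2
      exact h2
  refine h1.trans (le_of_eq ?_)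
  let c : (Fin (L.length + 1) → Fin (v + 1)) → ℝ := fun u =>
    if u 0 = 0 ∧ u (Fin.last L.length) = 0 then
        (∏ b : Fin L.length, adm (L.get b).2 (u b.succ)) else 0
  have hc : ∀ f : (Fin (L.length + 1) → Fin (v + 1)) → ℝ, ∑ u : Wk L v, f u.1
      = ∑ u : Fin (L.length + 1) → Fin (v + 1), c u * f u := by
    intro f
    rw [sum_Wk]
    apply Finset.sum_congr rfl
    intro u _
    show _ = (if u 0 = 0 ∧ u (Fin.last L.length) = 0 then _ else _) * f u
    rw [ite_mul, zero_mul]
  rw [hc fun u => ∑ u' : Wk L v, ∑ z : Wk L v, ∑ z' : Wk L v, g u u'.1 z.1 z'.1]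
  have h3 : ∀ u : Fin (L.length + 1) → Fin (v + 1),
      c u * ∑ u' : Wk L v, ∑ z : Wk L v, ∑ z' : Wk L v, g u u'.1 z.1 z'.1
      = ∑ u' : Fin (L.length + 1) → Fin (v + 1), ∑ z : Fin (L.length + 1) → Fin (v + 1),
        ∑ z' : Fin (L.length + 1) → Fin (v + 1), c u * (c u' * (c z * (c z' * g u u' z z'))) := by
    intro u
    rw [hc fun u' => ∑ z : Wk L v, ∑ z' : Wk L v, g u u' z.1 z'.1, Finset.mul_sum]
    apply Finset.sum_congr rfl
    intro u' _
    rw [hc fun z => ∑ z' : Wk L v, g u u' z z'.1, Finset.mul_sum, Finset.mul_sum]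
    apply Finset.sum_congr rfl
    intro z _
    rw [hc fun z' => g u u' z z', Finset.mul_sum, Finset.mul_sum, Finset.mul_sum]
  rw [Finset.sum_congr rfl fun u _ => h3 u]
  have h4 : (L.map fun d => Th (v := v) (wB wx wy d.1) d.2)
      = List.ofFn fun b : Fin L.length => Th (v := v) (wB wx wy (L.get b).1) (L.get b).2 := by
    rw [← List.ofFn_get L, List.map_ofFn]
    simp [Function.comp_def]
  unfold hv
  rw [h4, prod_ofFn_apply]
  have h5 : ∀ u : Fin (L.length + 1) → Fin (v + 1), ∀ u' : Fin (L.length + 1) → Fin (v + 1),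
      ∑ z : Fin (L.length + 1) → Fin (v + 1), ∑ z' : Fin (L.length + 1) → Fin (v + 1),
        c u * (c u' * (c z * (c z' * g u u' z z')))
      = ∑ Z : Fin (L.length + 1) → Fin (v + 1) × Fin (v + 1),
        c u * (c u' * (c (fun b => (Z b).1) * (c (fun b => (Z b).2)
          * g u u' (fun b => (Z b).1) (fun b => (Z b).2)))) := by
    intro u u'
    exact sum_fun_prod (fun z z' => c u * (c u' * (c z * (c z' * g u u' z z'))))
  have h6 : ∀ u : Fin (L.length + 1) → Fin (v + 1),
      ∑ u' : Fin (L.length + 1) → Fin (v + 1), ∑ z : Fin (L.length + 1) → Fin (v + 1),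
        ∑ z' : Fin (L.length + 1) → Fin (v + 1), c u * (c u' * (c z * (c z' * g u u' z z')))
      = ∑ Y : Fin (L.length + 1) → Fin (v + 1) × Fin (v + 1) × Fin (v + 1),
        c u * (c (fun b => (Y b).1) * (c (fun b => (Y b).2.1) * (c (fun b => (Y b).2.2)
          * g u (fun b => (Y b).1) (fun b => (Y b).2.1) (fun b => (Y b).2.2)))) := by
    intro u
    rw [Finset.sum_congr rfl fun u' _ => h5 u u']
    exact sum_fun_prod (fun u' (Z : Fin (L.length + 1) → Fin (v + 1) × Fin (v + 1)) =>
      c u * (c u' * (c (fun b => (Z b).1) * (c (fun b => (Z b).2)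
          * g u u' (fun b => (Z b).1) (fun b => (Z b).2)))))
  rw [Finset.sum_congr rfl fun u _ => h6 u,
    sum_fun_prod (fun u (Y : Fin (L.length + 1) → Fin (v + 1) × Fin (v + 1) × Fin (v + 1)) =>
      c u * (c (fun b => (Y b).1) * (c (fun b => (Y b).2.1) * (c (fun b => (Y b).2.2)
          * g u (fun b => (Y b).1) (fun b => (Y b).2.1) (fun b => (Y b).2.2)))))]
  apply Finset.sum_congr rfl
  intro V _
  show (if (V 0).1 = 0 ∧ (V (Fin.last L.length)).1 = 0 then
        (∏ b : Fin L.length, adm (L.get b).2 (V b.succ).1) else 0)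
    * ((if (V 0).2.1 = 0 ∧ (V (Fin.last L.length)).2.1 = 0 then
        (∏ b : Fin L.length, adm (L.get b).2 (V b.succ).2.1) else 0)
    * ((if (V 0).2.2.1 = 0 ∧ (V (Fin.last L.length)).2.2.1 = 0 then
        (∏ b : Fin L.length, adm (L.get b).2 (V b.succ).2.2.1) else 0)
    * ((if (V 0).2.2.2 = 0 ∧ (V (Fin.last L.length)).2.2.2 = 0 then
        (∏ b : Fin L.length, adm (L.get b).2 (V b.succ).2.2.2) else 0)
    * ∏ b : Fin L.length, thB ((v + 1) * (v + 1)) (wB wx wy (L.get b).1)
      ((V b.castSucc).1, (V b.succ).1) ((V b.castSucc).2.1, (V b.succ).2.1)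
      ((V b.castSucc).2.2.1, (V b.succ).2.2.1) ((V b.castSucc).2.2.2, (V b.succ).2.2.2)))) = _
  by_cases hV : V 0 = (0, 0, 0, 0) ∧ V (Fin.last L.length) = (0, 0, 0, 0)
  · rw [if_pos hV, hV.1, hV.2]
    simp only [and_self, if_true]
    rw [← Finset.prod_mul_distrib, ← Finset.prod_mul_distrib, ← Finset.prod_mul_distrib,
      ← Finset.prod_mul_distrib]
    unfold walkW
    apply Finset.prod_congr rfl
    intro b _
    have h7 : Th (wB wx wy (L.get b).1) (L.get b).2 (V b.castSucc) (V b.succ)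
        = adm (L.get b).2 (V b.succ).1 * adm (L.get b).2 (V b.succ).2.1
          * adm (L.get b).2 (V b.succ).2.2.1 * adm (L.get b).2 (V b.succ).2.2.2 *
          thB ((v + 1) * (v + 1)) (wB wx wy (L.get b).1) ((V b.castSucc).1, (V b.succ).1)
            ((V b.castSucc).2.1, (V b.succ).2.1) ((V b.castSucc).2.2.1, (V b.succ).2.2.1)
            ((V b.castSucc).2.2.2, (V b.succ).2.2.2) := rfl
    show _ = Th (wB wx wy (L.get b).1) (L.get b).2 (V b.castSucc) (V b.succ)
    rw [h7]
    ring
  · rw [if_neg hV]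
    by_cases q1 : (V 0).1 = 0 ∧ (V (Fin.last L.length)).1 = 0
    · by_cases q2 : (V 0).2.1 = 0 ∧ (V (Fin.last L.length)).2.1 = 0
      · by_cases q3 : (V 0).2.2.1 = 0 ∧ (V (Fin.last L.length)).2.2.1 = 0
        · by_cases q4 : (V 0).2.2.2 = 0 ∧ (V (Fin.last L.length)).2.2.2 = 0
          · exfalso
            apply hV
            exact ⟨Prod.ext q1.1 (Prod.ext q2.1 (Prod.ext q3.1 q4.1)),
              Prod.ext q1.2 (Prod.ext q2.2 (Prod.ext q3.2 q4.2))⟩
          · rw [if_neg q4]
            ring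
        · rw [if_neg q3]
          ring
      · rw [if_neg q2]
        ring
    · rw [if_neg q1]
      ring

end Vale.Agent.P346
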